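import Vale.Agent.P012.Basic

/- P012: assembly of the upper bound from the core construction. -/

namespace Vale.Agent.P012

/-- The core construction at scale `2 ^ J`: every residue modulo `D` is represented by a sum of
at most `K * J` divisors of `M`, the sum being at most `W`. -/
def CoreData (K J : ℕ) : Prop :=
  ∃ M D W : ℕ, 1 ≤ M ∧ D.Prime ∧ D ∣ M ∧ M ≤ 2 ^ (K * 2 ^ J) ∧ 2 ^ 2 ^ J ≤ D ∧ D ≤ W ∧
    2 * W ≤ D * 2 ^ 2 ^ (J - J / 20) ∧
    ∀ r < D, ∃ l : List ℕ, l.length ≤ K * J ∧ (∀ d ∈ l, d ∣ M) ∧ l.sum ≤ W ∧ l.sum % D = r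

/-- The small numerators, one scale from a smaller one. -/
theorem good_step {M D W T' U k k' : ℕ} (hM : 1 ≤ M) (hD : 2 ≤ D) (hDM : D ∣ M) (_hDW : D ≤ W)
    (hW : 2 * W ≤ D * U) (hT : 1 ≤ T')
    (hres : ∀ r < D, ∃ l : List ℕ, l.length ≤ k ∧ (∀ d ∈ l, d ∣ M) ∧ l.sum ≤ W ∧ l.sum % D = r)
    (hgood : Good T' U k') : Good (M * T') (2 * W) (k + k') := by
  intro u hu
  rcases Nat.eq_zero_or_pos u with rfl | hupos
  · simpa using Rep.zero (k + k')
  have hex : ∃ i, W ≤ u * 2 ^ i :=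
    ⟨W, le_trans (Nat.lt_two_pow_self).le (Nat.le_mul_of_pos_left _ hupos)⟩
  classical
  let i := Nat.find hex
  have hi : W ≤ u * 2 ^ i := Nat.find_spec hex
  have hi2 : u * 2 ^ i ≤ 2 * W := by
    rcases Nat.eq_zero_or_pos i with h | h
    · simp [h, hu]
    · have := Nat.find_min hex (m := i - 1) (by omega)
      have hp : 2 ^ i = 2 * 2 ^ (i - 1) := by
        rw [← pow_succ']
        congr 1
        omega
      rw [hp]
      rw [not_le] at this
      nlinarith
  obtain ⟨l, hl1, hl2, hl3, hl4⟩ := hres (u * 2 ^ i % D) (Nat.mod_lt _ (by omega))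
  have hle : l.sum ≤ u * 2 ^ i := hl3.trans hi
  obtain ⟨v, hv⟩ : D ∣ u * 2 ^ i - l.sum :=
    (Nat.modEq_iff_dvd' hle).1 hl4
  have hvU : v ≤ U := by
    have : D * v ≤ D * U := by omega
    exact Nat.le_of_mul_le_mul_left this (by omega)
  obtain ⟨M', rfl⟩ := hDM
  have hM' : 1 ≤ M' := Nat.one_le_iff_ne_zero.2 (by rintro rfl; simp at hM)
  have h2 : 1 ≤ 2 ^ i := Nat.one_le_two_pow
  have hTT : 1 ≤ D * M' * T' := by
    exact Nat.one_le_iff_ne_zero.2 (Nat.mul_ne_zero (by omega) (by omega))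
  have r1 := (Rep.divisorSum hTT (l := l)
    (fun d hd => (hl2 d hd).trans (dvd_mul_right _ _))).scale h2
  have r2 := (hgood v hvU).scale (c := 2 ^ i * M')
    (Nat.one_le_iff_ne_zero.2 (Nat.mul_ne_zero (by omega) (by omega)))
  have r3 := (r1.add r2).mono (k' := k + k') (by omega)
  convert r3 using 1
  have hsum : u * 2 ^ i = l.sum + D * v := by omega
  have hq : (u : ℚ) * 2 ^ i = l.sum + D * v := by exact_mod_cast hsum
  have e1 : (D : ℚ) ≠ 0 := by
    have : D ≠ 0 := by omega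
    exact_mod_cast this
  have e2 : (M' : ℚ) ≠ 0 := by
    have : M' ≠ 0 := by omega
    exact_mod_cast this
  have e3 : (T' : ℚ) ≠ 0 := by
    have : T' ≠ 0 := by omega
    exact_mod_cast this
  simp only [Nat.cast_mul, Nat.cast_pow, Nat.cast_ofNat]
  field_simp
  linear_combination hq

/-- Numerators below a double exponential. -/
theorem good_all (K J0 : ℕ) (hcore : ∀ J, J0 ≤ J → CoreData K J) :
    ∃ A : ℕ, ∀ J : ℕ, ∃ T, 1 ≤ T ∧ T ≤ 2 ^ (A * 2 ^ J) ∧ Good T (2 ^ 2 ^ J) (A * (J + 1)) := by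
  refine ⟨40 * K + 2 ^ 2 ^ (J0 + 20), fun J => ?_⟩
  set A := 40 * K + 2 ^ 2 ^ (J0 + 20) with hA
  have hA40 : 40 * K ≤ A := Nat.le_add_right _ _
  induction J using Nat.strong_induction_on with
  | _ J ih =>
    rcases Nat.lt_or_ge J (J0 + 20) with h | h
    · refine ⟨1, le_rfl, Nat.one_le_two_pow, fun u hu => ?_⟩
      refine (good_one _ u hu).mono ?_
      have : 2 ^ 2 ^ J ≤ 2 ^ 2 ^ (J0 + 20) :=
        Nat.pow_le_pow_right (by norm_num) (Nat.pow_le_pow_right (by norm_num) h.le)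
      exact le_trans (by omega) (Nat.le_mul_of_pos_right A (by omega))
    · obtain ⟨M, D, W, hM, hD, hDM, hMb, hDb, hDW, hW, hres⟩ := hcore J (by omega)
      obtain ⟨T', hT1, hT2, hT3⟩ := ih (J - J / 20) (by omega)
      have hg := good_step hM hD.two_le hDM hDW hW hT1 hres hT3
      refine ⟨M * T', Nat.one_le_iff_ne_zero.2 (Nat.mul_ne_zero (by omega) (by omega)), ?_, ?_⟩
      · refine (Nat.mul_le_mul hMb hT2).trans ?_
        rw [← pow_add]
        refine Nat.pow_le_pow_right (by norm_num) ?_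
        have hhalf : 2 * 2 ^ (J - J / 20) ≤ 2 ^ J := by
          rw [← pow_succ']
          exact Nat.pow_le_pow_right (by norm_num) (by omega)
        have h1 := Nat.mul_le_mul_left A hhalf
        have h2 : 2 * K * 2 ^ J ≤ A * 2 ^ J := Nat.mul_le_mul_right _ (by omega)
        linarith
      · intro u hu
        refine (hg u (by omega)).mono ?_
        have e : J + 1 = (J - J / 20 + 1) + J / 20 := by omega
        rw [e, mul_add A (J - J / 20 + 1)]
        have h40 : J ≤ 40 * (J / 20) := by omega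
        have : K * J ≤ A * (J / 20) :=
          calc K * J ≤ K * (40 * (J / 20)) := Nat.mul_le_mul_left _ h40
            _ = (40 * K) * (J / 20) := by ring
            _ ≤ A * (J / 20) := Nat.mul_le_mul_right _ (by omega)
        omega

/-- Multiplying both the modulus and the range by `D`. -/
theorem good_strip {M D W T U k k' : ℕ} (hD : 1 ≤ D) (hMT : M ∣ T) (hT : 1 ≤ T) (hU : W ≤ U)
    (hres : ∀ r < D, ∃ l : List ℕ, l.length ≤ k ∧ (∀ d ∈ l, d ∣ M) ∧ l.sum ≤ W ∧ l.sum % D = r)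
    (hgood : Good T U k') : Good (T * D) (U * D) (k + k') := by
  intro u hu
  rcases Nat.le_total u U with h | h
  · convert ((hgood u h).scale (c := D) hD).mono (k' := k + k') (by omega) using 1
    push_cast
    field_simp
  · obtain ⟨l, hl1, hl2, hl3, hl4⟩ := hres (u % D) (Nat.mod_lt _ (by omega))
    obtain ⟨v, hv⟩ : D ∣ u - l.sum := (Nat.modEq_iff_dvd' (by omega)).1 hl4
    have hvU : v ≤ U := by
      have : D * v ≤ D * U := by rw [Nat.mul_comm D U]; omega
      exact Nat.le_of_mul_le_mul_left this (by omega)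
    have r1 := Rep.divisorSum (T := T * D)
      (Nat.one_le_iff_ne_zero.2 (Nat.mul_ne_zero (by omega) (by omega))) (l := l)
      (fun d hd => ((hl2 d hd).trans hMT).trans (dvd_mul_right _ _))
    convert (r1.add (hgood v hvU)).mono (k' := k + k') (by omega) using 1
    have hq : (u : ℚ) = l.sum + D * v := by
      have : u = l.sum + D * v := by omega
      exact_mod_cast this
    have e1 : (D : ℚ) ≠ 0 := by
      have : D ≠ 0 := by omega
      exact_mod_cast this
    have e3 : (T : ℚ) ≠ 0 := by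
      have : T ≠ 0 := by omega
      exact_mod_cast this
    simp only [Nat.cast_mul, Nat.cast_pow, Nat.cast_ofNat]
    field_simp
    linear_combination hq

theorem good_strip_iter {M D W T U k k' : ℕ} (hD : 1 ≤ D) (hMT : M ∣ T) (hT : 1 ≤ T) (hU : W ≤ U)
    (hres : ∀ r < D, ∃ l : List ℕ, l.length ≤ k ∧ (∀ d ∈ l, d ∣ M) ∧ l.sum ≤ W ∧ l.sum % D = r)
    (hgood : Good T U k') : ∀ i, Good (T * D ^ i) (U * D ^ i) (i * k + k') := by
  intro i
  induction i with
  | zero => simpa using hgood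
  | succ i ih =>
    have hp : 1 ≤ D ^ i := Nat.one_le_pow _ _ (by omega)
    have h := good_strip (M := M) (W := W) hD (hMT.trans (dvd_mul_right _ _))
      (Nat.one_le_iff_ne_zero.2 (Nat.mul_ne_zero (by omega) (by omega)))
      (hU.trans (Nat.le_mul_of_pos_right _ (by omega))) hres ih
    rw [pow_succ, ← mul_assoc, ← mul_assoc]
    have e : (i + 1) * k + k' = k + (i * k + k') := by ring
    rw [e]
    exact h

/-- The greedy steps. -/
theorem greedy {T : ℕ} (hT : 1 ≤ T) : ∀ m a b : ℕ, 0 < b → 4 * a < b →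
    (2 * a) ^ 2 ^ m * T ≤ b ^ 2 ^ m →
    ∃ a' b' : ℕ, 0 < b' ∧ a' * T ≤ b' ∧ (b' ≤ b ∨ b' ≤ 2 * a * T ^ 2) ∧
      ∃ y : ℚ, Rep y m ∧ (a : ℚ) / b = y + (a' : ℚ) / b' := by
  intro m
  induction m with
  | zero =>
    intro a b hb h4 h
    refine ⟨a, b, hb, ?_, Or.inl le_rfl, 0, Rep.zero 0, by simp⟩
    simp only [pow_zero, pow_one] at h
    nlinarith
  | succ m ih =>
    intro a b hb h4 h
    by_cases hstop : a * T ≤ b
    · exact ⟨a, b, hb, hstop, Or.inl le_rfl, 0, Rep.zero _, by simp⟩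
    rw [not_le] at hstop
    have ha : 1 ≤ a := Nat.one_le_iff_ne_zero.2 (by rintro rfl; simp at hstop)
    let n := (b + a - 1) / a
    have hn1 : b ≤ a * n := by
      have h1 := Nat.div_add_mod (b + a - 1) a
      have h2 : (b + a - 1) % a < a := Nat.mod_lt _ (by omega)
      have : a * n = b + a - 1 - (b + a - 1) % a := by simp only [n]; omega
      omega
    have hn2 : a * n < b + a := by
      have h1 := Nat.mul_div_le (b + a - 1) a
      simp only [n]; omega
    have hn : 1 ≤ n := Nat.one_le_iff_ne_zero.2 (by intro h0; rw [h0] at hn1; omega)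
    let a1 := a * n - b
    have ha1 : a1 < a := by omega
    have hb1 : 0 < b * n := Nat.mul_pos hb hn
    have key : (a : ℚ) / b = 1 / (n : ℚ) + (a1 : ℚ) / ((b * n : ℕ) : ℚ) := by
      have e : (a1 : ℚ) + b = a * n := by
        have : a1 + b = a * n := by omega
        exact_mod_cast this
      have e1 : (b : ℚ) ≠ 0 := by exact_mod_cast hb.ne'
      have e2 : (n : ℚ) ≠ 0 := by
        have : n ≠ 0 := by omega
        exact_mod_cast this
      push_cast
      field_simp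
      linear_combination -e
    have hbn : b * n ≤ 2 * a * T ^ 2 := by
      have h1 : n * b ≤ n * (a * T) := Nat.mul_le_mul_left _ hstop.le
      have h2 : a * n * T ≤ (2 * a * T) * T := Nat.mul_le_mul_right _ (by nlinarith)
      calc b * n ≤ a * n * T := by nlinarith
        _ ≤ (2 * a * T) * T := h2
        _ = 2 * a * T ^ 2 := by ring
    by_cases hstop' : a1 * T ≤ b * n
    · exact ⟨a1, b * n, hb1, hstop', Or.inr hbn, 1 / (n : ℚ),
        (Rep.single hn).mono (by omega), key⟩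
    have h41 : 4 * a1 < b * n := lt_of_lt_of_le (by omega : 4 * a1 < b) (Nat.le_mul_of_pos_right _ hn)
    have hpow : (2 * a1) ^ 2 ^ m * T ≤ (b * n) ^ 2 ^ m := by
      have base : 2 * a1 * b ^ 2 ≤ (2 * a) ^ 2 * (b * n) := by
        have : a1 * b ≤ a * (a * n) := Nat.mul_le_mul ha1.le hn1
        nlinarith
      have h' : ((2 * a) ^ 2) ^ 2 ^ m * T ≤ (b ^ 2) ^ 2 ^ m := by
        rw [← pow_mul, ← pow_mul, ← pow_succ']
        exact h
      have hpos : 0 < (b ^ 2) ^ 2 ^ m := by positivity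
      refine Nat.le_of_mul_le_mul_right ?_ hpos
      calc (2 * a1) ^ 2 ^ m * T * (b ^ 2) ^ 2 ^ m = (2 * a1 * b ^ 2) ^ 2 ^ m * T := by
            rw [mul_pow (2 * a1) (b ^ 2)]; ring
        _ ≤ ((2 * a) ^ 2 * (b * n)) ^ 2 ^ m * T := by gcongr
        _ = (b * n) ^ 2 ^ m * (((2 * a) ^ 2) ^ 2 ^ m * T) := by
            rw [mul_pow ((2 * a) ^ 2) (b * n)]; ring
        _ ≤ (b * n) ^ 2 ^ m * (b ^ 2) ^ 2 ^ m := by gcongr
    obtain ⟨a', b', h0, h1, h2, y, hy, he⟩ := ih a1 (b * n) hb1 h41 hpow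
    refine ⟨a', b', h0, h1, Or.inr ?_, 1 / (n : ℚ) + y,
      ((Rep.single hn).add hy).mono (by omega), ?_⟩
    · rcases h2 with h2 | h2
      · exact h2.trans hbn
      · exact h2.trans (by gcongr)
    · rw [key, he]; ring

/-- A representation of `a / b` for `b` below a double exponential. -/
theorem rep_of_core {K J A T' : ℕ} (hcore : CoreData K J) (hT1 : 1 ≤ T')
    (hT2 : T' ≤ 2 ^ (A * 2 ^ J)) (hgood : Good T' (2 ^ 2 ^ (J - J / 20)) (A * (J + 1)))
    {a b : ℕ} (hab : a < b) (hbJ : b ≤ 2 ^ 2 ^ J) :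
    Rep ((a : ℚ) / b)
      (3 + (J + K + A) + 2 * ((2 * (K + A) + 5) * (K * J) + (K * J + A * (J + 1)))) := by
  obtain ⟨M, D, W, hM, hD, hDM, hMb, hDb, hDW, hW, hres⟩ := hcore
  have hg := good_step hM hD.two_le hDM hDW hW hT1 hres hgood
  set T := M * T' with hTdef
  have hT : 1 ≤ T := Nat.one_le_iff_ne_zero.2 (Nat.mul_ne_zero (by omega) (by omega))
  have hTb : T ≤ 2 ^ ((K + A) * 2 ^ J) := by
    rw [add_mul, pow_add]; exact Nat.mul_le_mul hMb hT2
  set i := 2 * (K + A) + 5 with hi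
  have hstrip := good_strip_iter (M := M) (W := W) hD.one_le (dvd_mul_right _ _) hT
    (by omega : W ≤ 2 * W) hres hg i
  have hb : 0 < b := by omega
  set j := 4 * a / b with hj
  set r := 4 * a % b with hr
  have hj3 : j ≤ 3 := by
    have : j < 4 := (Nat.div_lt_iff_lt_mul hb).2 (by omega)
    omega
  have hr4 : 4 * r < 4 * b := by
    have := Nat.mod_lt (4 * a) hb
    omega
  have hfuel : (2 * r) ^ 2 ^ (J + K + A) * T ≤ (4 * b) ^ 2 ^ (J + K + A) := by
    calc (2 * r) ^ 2 ^ (J + K + A) * T ≤ (2 * b) ^ 2 ^ (J + K + A) * 2 ^ 2 ^ (J + K + A) := by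
          refine Nat.mul_le_mul (Nat.pow_le_pow_left (by omega) _)
            (hTb.trans (Nat.pow_le_pow_right (by norm_num) ?_))
          rw [add_assoc, pow_add, Nat.mul_comm]
          exact Nat.mul_le_mul_left _ Nat.lt_two_pow_self.le
      _ = (4 * b) ^ 2 ^ (J + K + A) := by rw [← mul_pow]; ring_nf
  obtain ⟨a', b', hb'0, hsmall, hb'b, y, hy, he⟩ :=
    greedy hT (J + K + A) r (4 * b) (by omega) hr4 hfuel
  have hU : b' ≤ 2 * W * D ^ i := by
    have h1 : b' ≤ 2 ^ (2 ^ J + 3) * T ^ 2 := by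
      have hTT : 1 ≤ T ^ 2 := Nat.one_le_pow _ _ (by omega)
      have hsplit : 2 ^ (2 ^ J + 3) = 8 * 2 ^ 2 ^ J := by rw [pow_add]; ring
      rw [hsplit]
      rcases hb'b with h | h
      · refine h.trans (le_trans ?_ (Nat.le_mul_of_pos_right _ (by omega)))
        omega
      · exact h.trans (Nat.mul_le_mul_right _ (by omega))
    have h2 : 2 ^ (2 ^ J + 3) * T ^ 2 ≤ 2 ^ (i * 2 ^ J) := by
      refine (Nat.mul_le_mul_left _ (Nat.pow_le_pow_left hTb 2)).trans ?_
      rw [← pow_mul, ← pow_add]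
      refine Nat.pow_le_pow_right (by norm_num) ?_
      have : 1 ≤ 2 ^ J := Nat.one_le_two_pow
      rw [hi]
      nlinarith
    have h3 : 2 ^ (i * 2 ^ J) ≤ D ^ i := by
      rw [Nat.mul_comm i, pow_mul]; exact Nat.pow_le_pow_left hDb _
    have h4 : D ^ i ≤ 2 * W * D ^ i := Nat.le_mul_of_pos_left _ (by have := hD.pos; omega)
    omega
  set T2 := T * D ^ i with hT2def
  have hT2pos : 1 ≤ T2 :=
    Nat.one_le_iff_ne_zero.2 (Nat.mul_ne_zero (by omega)
      (pow_ne_zero _ hD.ne_zero))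
  have hu : a' * T2 / b' ≤ 2 * W * D ^ i := by
    have : a' * T2 / b' ≤ D ^ i := by
      refine Nat.div_le_of_le_mul ?_
      calc a' * T2 = a' * T * D ^ i := by rw [hT2def]; ring
        _ ≤ b' * D ^ i := Nat.mul_le_mul_right _ hsmall
    exact this.trans (Nat.le_mul_of_pos_left _ (by have := hD.pos; omega))
  have r1 := hstrip _ hu
  have r2 := (hstrip (a' * T2 % b') ((Nat.mod_lt _ hb'0).le.trans hU)).scale (c := b') hb'0
  have r0 : Rep ((j : ℚ) / 4) j := by
    have := (good_one j j le_rfl).scale (c := 4) (by norm_num)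
    simpa using this
  have main := ((r0.mono hj3).add hy).add (r1.add r2)
  refine Rep.mono ?_ (le_of_eq (by rw [two_mul] : _ = _))
  convert main using 1
  have e1 : (b : ℚ) ≠ 0 := by exact_mod_cast hb.ne'
  have e2 : (b' : ℚ) ≠ 0 := by exact_mod_cast hb'0.ne'
  have e3 : (T2 : ℚ) ≠ 0 := by
    have : T2 ≠ 0 := by omega
    exact_mod_cast this
  have q1 : (4 : ℚ) * a = b * j + r := by
    have : 4 * a = b * j + r := by rw [hj, hr]; exact (Nat.div_add_mod _ _).symm
    exact_mod_cast this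
  have q2 : (a' : ℚ) * T2 = b' * (a' * T2 / b' : ℕ) + (a' * T2 % b' : ℕ) := by
    exact_mod_cast (Nat.div_add_mod (a' * T2) b').symm
  have q3 : (a' : ℚ) / b' = (a' * T2 / b' : ℕ) / (T2 : ℚ) + (a' * T2 % b' : ℕ) / (T2 : ℚ) / b' := by
    field_simp
    linear_combination q2
  rw [← hT2def] at *
  push_cast at he
  have q4 : (a : ℚ) / b = (j : ℚ) / 4 + (r : ℚ) / (4 * b) := by
    field_simp
    linear_combination q1
  rw [q4, he, q3]
  ring

/-- The upper bound, given the core construction. -/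
theorem bound_of_core (K J0 : ℕ) (hcore : ∀ J, J0 ≤ J → CoreData K J) :
    ∃ (C : ℝ) (b0 : ℕ), ∀ b ≥ b0, ∀ a : ℕ, a < b →
      ∃ s : Finset ℕ, (∀ n ∈ s, 2 ≤ n) ∧ (a : ℚ) / b = ∑ n ∈ s, 1 / (n : ℚ) ∧
        (s.card : ℝ) ≤ C * Real.log (Real.log b) := by
  obtain ⟨A, hA⟩ := good_all K J0 hcore
  let i := 2 * (K + A) + 5
  let C0 := 4 + K + A + 2 * (i * K + K + 2 * A)
  refine ⟨10 * C0, 2 ^ 2 ^ (J0 + 3), fun b hb a hab => ?_⟩
  have hb0 : b ≠ 0 := by omega
  let L1 := Nat.log 2 b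
  let L2 := Nat.log 2 L1
  have hL1 : 2 ^ (J0 + 3) ≤ L1 :=
    (Nat.le_log_iff_pow_le (by norm_num) hb0).2 hb
  have hL2 : J0 + 3 ≤ L2 :=
    (Nat.le_log_iff_pow_le (by norm_num) (by have := Nat.one_le_two_pow (n := J0 + 3); omega)).2 hL1
  let J := L2 + 1
  have hbJ : b ≤ 2 ^ 2 ^ J := by
    have h1 : b < 2 ^ (L1 + 1) := Nat.lt_pow_succ_log_self (by norm_num) b
    have h2 : L1 < 2 ^ J := Nat.lt_pow_succ_log_self (by norm_num) L1
    exact h1.le.trans (Nat.pow_le_pow_right (by norm_num) h2)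
  obtain ⟨T', hT1, hT2, hgood⟩ := hA (J - J / 20)
  have hgood' : Good T' (2 ^ 2 ^ (J - J / 20)) (A * (J + 1)) :=
    fun u hu => (hgood u hu).mono (Nat.mul_le_mul_left _ (by omega))
  have hT2' : T' ≤ 2 ^ (A * 2 ^ J) :=
    hT2.trans (Nat.pow_le_pow_right (by norm_num)
      (Nat.mul_le_mul_left _ (Nat.pow_le_pow_right (by norm_num) (by omega))))
  have hx : (a : ℚ) / b < 1 := by
    rw [div_lt_one (by exact_mod_cast Nat.pos_of_ne_zero hb0)]
    exact_mod_cast hab
  obtain ⟨s, hs1, hs2, hs3⟩ :=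
    (rep_of_core (hcore J (by omega)) hT1 hT2' hgood' hab hbJ).distinct hx
  refine ⟨s, hs2, hs3, ?_⟩
  have hk : s.card ≤ C0 * J := by
    refine hs1.trans ?_
    have hJ : 3 ≤ J := by omega
    simp only [C0, i]
    nlinarith
  have hlog : (L2 : ℝ) * Real.log 2 ≤ Real.log (Real.log b) + Real.log 2 := by
    have h1 : ((2 : ℝ) ^ L2) ≤ L1 := by
      have : 2 ^ L2 ≤ L1 := Nat.pow_log_le_self 2
        ((Nat.one_le_two_pow.trans hL1).trans_lt' Nat.zero_lt_one).ne'
      exact_mod_cast this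
    have h2 : ((2 : ℝ) ^ L1) ≤ b := by
      have : 2 ^ L1 ≤ b := Nat.pow_log_le_self 2 hb0
      exact_mod_cast this
    have h3 : (L1 : ℝ) * Real.log 2 ≤ Real.log b := by
      rw [← Real.log_pow]; exact Real.log_le_log (by positivity) h2
    have hl : (0 : ℝ) < Real.log 2 := Real.log_pos (by norm_num)
    have h4 : (L1 : ℝ) ≤ 2 * Real.log b := by
      have := Real.log_two_gt_d9
      nlinarith [(Nat.cast_nonneg L1 : (0 : ℝ) ≤ L1)]
    have h5 : (L2 : ℝ) * Real.log 2 ≤ Real.log (2 * Real.log b) := by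
      rw [← Real.log_pow]; exact Real.log_le_log (by positivity) (h1.trans h4)
    have hpos : 0 < Real.log b := by
      have : (0 : ℝ) < (2 : ℝ) ^ L2 := by positivity
      linarith
    rw [Real.log_mul (by norm_num) hpos.ne'] at h5
    linarith
  have hC : (0 : ℝ) ≤ C0 := Nat.cast_nonneg _
  have hk' : (s.card : ℝ) ≤ C0 * ((L2 : ℝ) + 1) := by
    calc (s.card : ℝ) ≤ ((C0 * J : ℕ) : ℝ) := by exact_mod_cast hk
      _ = C0 * ((L2 : ℝ) + 1) := by simp [J]
  refine hk'.trans ?_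
  have h2 := Real.log_two_gt_d9
  have hL : (3 : ℝ) ≤ L2 := by
    have : 3 ≤ L2 := by omega
    exact_mod_cast this
  have key : (L2 : ℝ) + 1 ≤ 10 * Real.log (Real.log b) := by
    have := Real.log_two_lt_d9
    nlinarith
  nlinarith [mul_le_mul_of_nonneg_left key hC]

end Vale.Agent.P012
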