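import Mathlib

/- P012: uniform averages over finite types. -/

namespace Vale.Agent.P012

open Finset

/-- the average of `f` over a finite type. -/
noncomputable def avg {α : Type} [Fintype α] (f : α → ℝ) : ℝ := (∑ a, f a) / Fintype.card α

/-- the indicator of a proposition, with real values. -/
noncomputable def ind (p : Prop) : ℝ := @ite ℝ p (Classical.propDecidable p) 1 0

theorem ind_pos {p : Prop} (h : p) : ind p = 1 := by
  classical
  simp [ind, h]

theorem ind_neg {p : Prop} (h : ¬ p) : ind p = 0 := by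
  classical
  simp [ind, h]

theorem ind_nonneg (p : Prop) : 0 ≤ ind p := by
  by_cases h : p <;> simp [ind_pos, ind_neg, h]

theorem ind_le_one (p : Prop) : ind p ≤ 1 := by
  by_cases h : p <;> simp [ind_pos, ind_neg, h]

theorem ind_mono {p q : Prop} (h : p → q) : ind p ≤ ind q := by
  by_cases hp : p
  · rw [ind_pos hp, ind_pos (h hp)]
  · rw [ind_neg hp]; exact ind_nonneg q

theorem ind_congr {p q : Prop} (h : p ↔ q) : ind p = ind q :=
  le_antisymm (ind_mono h.1) (ind_mono h.2)

theorem ind_forall_prod {ι : Type} [Fintype ι] (p : ι → Prop) :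
    ind (∀ i, p i) = ∏ i, ind (p i) := by
  by_cases h : ∀ i, p i
  · rw [ind_pos h, Finset.prod_eq_one fun i _ => ind_pos (h i)]
  · rw [ind_neg h]
    obtain ⟨i, hi⟩ := not_forall.1 h
    exact (Finset.prod_eq_zero (mem_univ i) (ind_neg hi)).symm

theorem sum_ind {α : Type} (s : Finset α) (p : α → Prop) [DecidablePred p] :
    ∑ a ∈ s, ind (p a) = ((s.filter p).card : ℝ) := by
  rw [Finset.card_filter, Nat.cast_sum]
  refine sum_congr rfl fun a _ => ?_
  by_cases h : p a <;> simp [ind_pos, ind_neg, h]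

variable {α β : Type} [Fintype α] [Fintype β]

theorem avg_mono {f g : α → ℝ} (h : ∀ a, f a ≤ g a) : avg f ≤ avg g := by
  unfold avg
  gcongr with a
  exact h a

theorem avg_nonneg {f : α → ℝ} (h : ∀ a, 0 ≤ f a) : 0 ≤ avg f :=
  div_nonneg (sum_nonneg fun a _ => h a) (Nat.cast_nonneg _)

theorem avg_congr {f g : α → ℝ} (h : ∀ a, f a = g a) : avg f = avg g := by
  rw [funext h]

theorem avg_const [Nonempty α] (c : ℝ) : avg (fun _ : α => c) = c := by
  unfold avg
  rw [sum_const, Finset.card_univ, nsmul_eq_mul]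
  field_simp

theorem avg_le_of_le {f : α → ℝ} {c : ℝ} (hc : 0 ≤ c) (h : ∀ a, f a ≤ c) : avg f ≤ c := by
  rcases isEmpty_or_nonempty α with hα | hα
  · simp [avg, hc]
  · exact (avg_mono h).trans_eq (avg_const c)

theorem avg_add (f g : α → ℝ) : avg (fun a => f a + g a) = avg f + avg g := by
  unfold avg; rw [sum_add_distrib, add_div]

theorem avg_mul_left (c : ℝ) (f : α → ℝ) : avg (fun a => c * f a) = c * avg f := by
  unfold avg; rw [← mul_sum, mul_div_assoc]

theorem avg_sum {ι : Type} (s : Finset ι) (f : ι → α → ℝ) :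
    avg (fun a => ∑ i ∈ s, f i a) = ∑ i ∈ s, avg (f i) := by
  unfold avg; rw [sum_comm, sum_div]

theorem avg_comm (f : α → β → ℝ) :
    avg (fun a => avg (f a)) = avg (fun b => avg (fun a => f a b)) := by
  unfold avg
  rw [← sum_div, ← sum_div, sum_comm, div_div, div_div, mul_comm (Fintype.card β : ℝ)]

theorem avg_equiv (e : α ≃ β) (f : β → ℝ) : avg (fun a => f (e a)) = avg f := by
  unfold avg
  rw [Equiv.sum_comp e f, Fintype.card_congr e]

theorem avg_prod_type (f : α × β → ℝ) : avg f = avg (fun a => avg (fun b => f (a, b))) := by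
  unfold avg
  rw [← sum_div, Fintype.sum_prod_type, Fintype.card_prod, div_div, Nat.cast_mul,
    mul_comm (Fintype.card α : ℝ)]

theorem avg_pi {ι : Type} [Fintype ι] [DecidableEq ι] {κ : ι → Type} [∀ i, Fintype (κ i)]
    (f : ∀ i, κ i → ℝ) : avg (fun w : ∀ i, κ i => ∏ i, f i (w i)) = ∏ i, avg (f i) := by
  unfold avg
  rw [Finset.prod_div_distrib, Fintype.prod_sum, Fintype.card_pi, Nat.cast_prod]

theorem exists_le_avg [Nonempty α] (f : α → ℝ) : ∃ a, f a ≤ avg f := by
  obtain ⟨a, _, ha⟩ := exists_min_image univ f univ_nonempty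
  exact ⟨a, (avg_const (f a)).symm.trans_le (avg_mono fun b => ha b (mem_univ b))⟩

theorem avg_fin_succ {C : ℕ} (f : (Fin (C + 1) → α) → ℝ) :
    avg f = avg (fun a : α => avg (fun w : Fin C → α => f (Fin.cons a w))) := by
  rw [← avg_equiv (Fin.consEquiv fun _ : Fin (C + 1) => α) f, avg_prod_type]
  rfl

theorem avg_insertNth {C : ℕ} (p : Fin (C + 1)) (f : (Fin (C + 1) → α) → ℝ) :
    avg f = avg (fun w : Fin C → α => avg (fun a : α => f (Fin.insertNth p a w))) := by
  rw [← avg_equiv (Fin.insertNthEquiv (fun _ : Fin (C + 1) => α) p) f, avg_prod_type, avg_comm]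
  rfl

/-- Markov. -/
theorem markov {f : α → ℝ} (hf : ∀ a, 0 ≤ f a) {t : ℝ} (ht : 0 < t) :
    avg (fun a => ind (t < f a)) ≤ avg f / t := by
  rw [div_eq_inv_mul, ← avg_mul_left]
  refine avg_mono fun a => ?_
  by_cases h : t < f a
  · rw [ind_pos h, inv_mul_eq_div, one_le_div ht]; exact h.le
  · rw [ind_neg h]; have := hf a; positivity

end Vale.Agent.P012
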