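import Mathlib

/- P012: sums of unit fractions with repetitions allowed, and removal of repetitions. -/

namespace Vale.Agent.P012

/-- `x` is a sum of at most `k` unit fractions, repetitions allowed. -/
def Rep (x : ℚ) (k : ℕ) : Prop :=
  ∃ l : Multiset ℕ, l.card ≤ k ∧ (∀ m ∈ l, 1 ≤ m) ∧ (l.map fun m : ℕ => 1 / (m : ℚ)).sum = x

theorem Rep.zero (k : ℕ) : Rep 0 k := ⟨0, by simp, by simp, by simp⟩

theorem Rep.mono {x : ℚ} {k k' : ℕ} (h : Rep x k) (hk : k ≤ k') : Rep x k' := by
  obtain ⟨l, h1, h2, h3⟩ := h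
  exact ⟨l, h1.trans hk, h2, h3⟩

theorem Rep.add {x y : ℚ} {j k : ℕ} (hx : Rep x j) (hy : Rep y k) : Rep (x + y) (j + k) := by
  obtain ⟨l, h1, h2, h3⟩ := hx
  obtain ⟨l', h1', h2', h3'⟩ := hy
  refine ⟨l + l', by rw [Multiset.card_add]; omega, ?_, by
    rw [Multiset.map_add, Multiset.sum_add, h3, h3']⟩
  intro m hm
  rcases Multiset.mem_add.1 hm with h | h
  exacts [h2 m h, h2' m h]

theorem Rep.scale {x : ℚ} {k : ℕ} (hx : Rep x k) {c : ℕ} (hc : 1 ≤ c) : Rep (x / c) k := by
  obtain ⟨l, h1, h2, h3⟩ := hx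
  refine ⟨l.map (fun m => c * m), by simpa using h1, ?_, ?_⟩
  · intro m hm
    obtain ⟨a, ha, rfl⟩ := Multiset.mem_map.1 hm
    exact Nat.one_le_iff_ne_zero.2 (Nat.mul_ne_zero (by omega) (by have := h2 a ha; omega))
  · rw [Multiset.map_map, ← h3]
    have : ((fun m : ℕ => 1 / (m : ℚ)) ∘ fun m => c * m) = fun m : ℕ => (1 / (m : ℚ)) * (1 / c) := by
      funext m; simp [Function.comp]
    rw [this, Multiset.sum_map_mul_right]
    ring

theorem Rep.single {m : ℕ} (hm : 1 ≤ m) : Rep (1 / (m : ℚ)) 1 :=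
  ⟨{m}, by simp, by simpa using hm, by simp⟩

theorem Rep.divisor {T d : ℕ} (hT : 1 ≤ T) (hd : d ∣ T) : Rep ((d : ℚ) / T) 1 := by
  obtain ⟨e, rfl⟩ := hd
  have hd0 : d ≠ 0 := by rintro rfl; simp at hT
  have he : 1 ≤ e := Nat.one_le_iff_ne_zero.2 (by rintro rfl; simp at hT)
  convert Rep.single he using 1
  push_cast
  field_simp

theorem Rep.divisorSum {T : ℕ} (hT : 1 ≤ T) :
    ∀ {l : List ℕ}, (∀ d ∈ l, d ∣ T) → Rep ((l.sum : ℚ) / T) l.length := by
  intro l
  induction l with
  | nil => intro _; simpa using Rep.zero 0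
  | cons a l ih =>
    intro h
    have h1 := Rep.divisor hT (h a (by simp))
    have h2 := ih (fun d hd => h d (by simp [hd]))
    have := (h1.add h2).mono (k' := (a :: l).length) (by simp; omega)
    convert this using 1
    simp [add_div]

/-- every `u ≤ U` has `u / T` a sum of at most `k` unit fractions. -/
def Good (T U k : ℕ) : Prop := ∀ u ≤ U, Rep ((u : ℚ) / T) k

theorem good_one (U : ℕ) : Good 1 U U := by
  intro u hu
  refine ⟨Multiset.replicate u 1, by simpa using hu, ?_, ?_⟩
  · intro m hm; rw [Multiset.eq_of_mem_replicate hm]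
  · simp

/-- a distinguished element version of removal of repetitions. -/
theorem distinct_aux (k : ℕ) (ih : ∀ l : Multiset ℕ, l.card < k → (∀ m ∈ l, 1 ≤ m) →
      (l.map fun m : ℕ => 1 / (m : ℚ)).sum < 1 →
      ∃ s : Finset ℕ, s.card ≤ l.card ∧ (∀ m ∈ s, 2 ≤ m) ∧
        ∑ m ∈ s, 1 / (m : ℚ) = (l.map fun m : ℕ => 1 / (m : ℚ)).sum) :
    ∀ b : ℕ, ∀ l : Multiset ℕ, b ∈ l → l.card = k → (∀ m ∈ l, 1 ≤ m) →
      (l.map fun m : ℕ => 1 / (m : ℚ)).sum < 1 →
      ∃ s : Finset ℕ, s.card ≤ k ∧ (∀ m ∈ s, 2 ≤ m) ∧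
        ∑ m ∈ s, 1 / (m : ℚ) = (l.map fun m : ℕ => 1 / (m : ℚ)).sum := by
  intro b
  induction b using Nat.strong_induction_on with
  | _ b ihb =>
    intro l hb hk h1 hlt
    obtain ⟨l', rfl⟩ := Multiset.exists_cons_of_mem hb
    simp only [Multiset.map_cons, Multiset.sum_cons] at hlt ⊢
    have hb1 : 1 ≤ b := h1 b hb
    have hl'1 : ∀ m ∈ l', 1 ≤ m := fun m hm => h1 m (Multiset.mem_cons_of_mem hm)
    have hnn : (0 : ℚ) ≤ (l'.map fun m : ℕ => 1 / (m : ℚ)).sum :=
      Multiset.sum_nonneg (by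
        intro x hx
        obtain ⟨m, _, rfl⟩ := Multiset.mem_map.1 hx
        positivity)
    have hb2 : 2 ≤ b := by
      rcases Nat.lt_or_ge b 2 with h | h
      · have : b = 1 := by omega
        subst this
        simp only [Nat.cast_one, div_one] at hlt
        linarith
      · exact h
    have hbpos : (0 : ℚ) ≤ 1 / (b : ℚ) := by positivity
    simp only [Multiset.card_cons] at hk
    obtain ⟨s, hs1, hs2, hs3⟩ := ih l' (by omega) hl'1 (by linarith)
    by_cases hbs : b ∈ s
    · rcases Nat.even_or_odd b with ⟨r, hr⟩ | ⟨r, hr⟩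
      · let l2 : Multiset ℕ := r ::ₘ (s.erase b).val
        have hcard : l2.card = (s.erase b).card + 1 := Multiset.card_cons _ _
        have hlt' : l2.card < k := by
          rw [hcard, Finset.card_erase_of_mem hbs]
          have : 1 ≤ s.card := Finset.card_pos.2 ⟨b, hbs⟩
          omega
        have hsum : (l2.map fun m : ℕ => 1 / (m : ℚ)).sum =
            1 / (b : ℚ) + (l'.map fun m : ℕ => 1 / (m : ℚ)).sum := by
          rw [← hs3, ← Finset.add_sum_erase s _ hbs]
          simp only [l2, Multiset.map_cons, Multiset.sum_cons, Finset.sum]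
          rw [← add_assoc]
          congr 1
          have hr0 : (r : ℚ) ≠ 0 := by
            have : r ≠ 0 := by omega
            exact_mod_cast this
          subst hr
          push_cast
          field_simp
        obtain ⟨t, ht1, ht2, ht3⟩ := ih l2 hlt' (by
          intro m hm
          rcases Multiset.mem_cons.1 hm with h | h
          · omega
          · have := hs2 m (Finset.mem_of_mem_erase h); omega) (by rw [hsum]; exact hlt)
        exact ⟨t, by omega, ht2, by rw [ht3, hsum]⟩
      · let l2 : Multiset ℕ := (r + 1) ::ₘ ((2 * r + 1) * (r + 1)) ::ₘ (s.erase b).val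
        have hcard : l2.card = (s.erase b).card + 2 := by
          simp only [l2, Multiset.card_cons]; rfl
        have hle : l2.card ≤ k := by
          rw [hcard, Finset.card_erase_of_mem hbs]
          have : 1 ≤ s.card := Finset.card_pos.2 ⟨b, hbs⟩
          omega
        have hsum : (l2.map fun m : ℕ => 1 / (m : ℚ)).sum =
            1 / (b : ℚ) + (l'.map fun m : ℕ => 1 / (m : ℚ)).sum := by
          rw [← hs3, ← Finset.add_sum_erase s _ hbs]
          simp only [l2, Multiset.map_cons, Multiset.sum_cons, Finset.sum]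
          rw [← add_assoc, ← add_assoc]
          congr 1
          subst hr
          have h2 : (2 * (r : ℚ) + 1) ≠ 0 := by positivity
          have h3 : ((r : ℚ) + 1) ≠ 0 := by positivity
          push_cast
          field_simp
          ring
        have h12 : ∀ m ∈ l2, 1 ≤ m := by
          intro m hm
          rcases Multiset.mem_cons.1 hm with h | h
          · omega
          rcases Multiset.mem_cons.1 h with h | h
          · subst h; exact Nat.one_le_iff_ne_zero.2 (by positivity)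
          · have := hs2 m (Finset.mem_of_mem_erase h); omega
        rcases lt_or_eq_of_le hle with hlt' | heq
        · obtain ⟨t, ht1, ht2, ht3⟩ := ih l2 hlt' h12 (by rw [hsum]; exact hlt)
          exact ⟨t, by omega, ht2, by rw [ht3, hsum]⟩
        · obtain ⟨t, ht1, ht2, ht3⟩ := ihb (r + 1) (by omega) l2 (Multiset.mem_cons_self _ _)
            heq h12 (by rw [hsum]; exact hlt)
          exact ⟨t, ht1, ht2, by rw [ht3, hsum]⟩
    · refine ⟨insert b s, ?_, ?_, ?_⟩
      · rw [Finset.card_insert_of_notMem hbs]; omega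
      · intro m hm
        rcases Finset.mem_insert.1 hm with h | h
        · omega
        · exact hs2 m h
      · rw [Finset.sum_insert hbs, hs3]

/-- Repetitions can be removed without increasing the number of terms. -/
theorem distinct_of_multiset : ∀ k : ℕ, ∀ l : Multiset ℕ, l.card = k → (∀ m ∈ l, 1 ≤ m) →
      (l.map fun m : ℕ => 1 / (m : ℚ)).sum < 1 →
      ∃ s : Finset ℕ, s.card ≤ k ∧ (∀ m ∈ s, 2 ≤ m) ∧
        ∑ m ∈ s, 1 / (m : ℚ) = (l.map fun m : ℕ => 1 / (m : ℚ)).sum := by
  intro k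
  induction k using Nat.strong_induction_on with
  | _ k ih =>
    intro l hk h1 hlt
    rcases Multiset.empty_or_exists_mem l with rfl | ⟨b, hb⟩
    · exact ⟨∅, by simp, by simp, by simp⟩
    · exact distinct_aux k (fun l' h => ih _ h l' rfl) b l hb hk h1 hlt

theorem Rep.distinct {x : ℚ} {k : ℕ} (h : Rep x k) (hx : x < 1) :
    ∃ s : Finset ℕ, s.card ≤ k ∧ (∀ m ∈ s, 2 ≤ m) ∧ x = ∑ m ∈ s, 1 / (m : ℚ) := by
  obtain ⟨l, h1, h2, h3⟩ := h
  obtain ⟨s, hs1, hs2, hs3⟩ := distinct_of_multiset l.card l rfl h2 (by rw [h3]; exact hx)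
  exact ⟨s, hs1.trans h1, hs2, by rw [hs3, h3]⟩

end Vale.Agent.P012
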