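import Mathlib

/- P012: few small divisors, by the Rankin trick. -/

namespace Vale.Agent.P012

open Finset Real

theorem sum_divisors_rpow_le {α : ℝ} (hα : 0 < α) (s : Finset ℕ) (e : ℕ → ℕ)
    (hs : ∀ p ∈ s, p.Prime) :
    ∑ q ∈ (∏ p ∈ s, p ^ e p).divisors, (q : ℝ) ^ (-α) ≤
      ∏ p ∈ s, exp (1 / ((p : ℝ) ^ α - 1)) := by
  classical
  induction s using Finset.induction_on with
  | empty => simp
  | @insert a s ha ih =>
    have hap : a.Prime := hs a (mem_insert_self a s)
    rw [prod_insert ha, prod_insert ha, Nat.divisors_mul]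
    have h1 : ∑ q ∈ (a ^ e a).divisors, (q : ℝ) ^ (-α) ≤ exp (1 / ((a : ℝ) ^ α - 1)) := by
      rw [Nat.sum_divisors_prime_pow hap]
      have ha1 : (1 : ℝ) < (a : ℝ) := by exact_mod_cast hap.one_lt
      have hA : (1 : ℝ) < (a : ℝ) ^ α := Real.one_lt_rpow ha1 hα
      have hr0 : (0 : ℝ) ≤ (a : ℝ) ^ (-α) := by positivity
      have hr1 : (a : ℝ) ^ (-α) < 1 :=
        Real.rpow_lt_one_of_one_lt_of_neg ha1 (by linarith)
      calc ∑ i ∈ range (e a + 1), (((a ^ i : ℕ)) : ℝ) ^ (-α)
          = ∑ i ∈ Finset.Ico 0 (e a + 1), ((a : ℝ) ^ (-α)) ^ i := by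
            rw [Finset.range_eq_Ico]
            refine Finset.sum_congr rfl fun i _ => ?_
            push_cast
            rw [← Real.rpow_natCast, ← Real.rpow_natCast, ← Real.rpow_mul (by positivity),
              ← Real.rpow_mul (by positivity), mul_comm]
        _ ≤ ((a : ℝ) ^ (-α)) ^ 0 / (1 - (a : ℝ) ^ (-α)) := geom_sum_Ico_le_of_lt_one hr0 hr1
        _ = 1 / ((a : ℝ) ^ α - 1) + 1 := by
            rw [Real.rpow_neg (by positivity), pow_zero]
            have h1 : (a : ℝ) ^ α - 1 ≠ 0 := by linarith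
            have h0 : (a : ℝ) ^ α ≠ 0 := by positivity
            generalize (a : ℝ) ^ α = t at h1 h0 ⊢
            rw [show (1 : ℝ) - t⁻¹ = (t - 1) / t by field_simp]
            field_simp
            ring
        _ ≤ exp (1 / ((a : ℝ) ^ α - 1)) := Real.add_one_le_exp _
    have h2 := ih fun p hp => hs p (mem_insert_of_mem hp)
    rw [Finset.mul_def]
    refine (Finset.sum_image_le_of_nonneg fun q _ => by positivity).trans ?_
    calc ∑ x ∈ (a ^ e a).divisors ×ˢ (∏ p ∈ s, p ^ e p).divisors,
          (((x.1 * x.2 : ℕ)) : ℝ) ^ (-α)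
        = (∑ q ∈ (a ^ e a).divisors, (q : ℝ) ^ (-α)) *
            ∑ q ∈ (∏ p ∈ s, p ^ e p).divisors, (q : ℝ) ^ (-α) := by
          rw [Finset.sum_mul_sum, Finset.sum_product]
          refine Finset.sum_congr rfl fun x _ => Finset.sum_congr rfl fun y _ => ?_
          push_cast
          exact Real.mul_rpow (by positivity) (by positivity)
      _ ≤ _ := mul_le_mul h1 h2 (sum_nonneg fun q _ => by positivity) (exp_nonneg _)

/-- The number of divisors of `N` that are at most `exp s`, where `N ≤ exp S`. -/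
theorem divisor_count {N : ℕ} (hN : 1 ≤ N) {s S : ℝ} (hs : 2 ≤ s) (hsS : s ≤ S)
    (hNS : Real.log N ≤ S) :
    ((N.divisors.filter fun q : ℕ => Real.log q ≤ s).card : ℝ) ≤
      exp (24 * (s * (1 + Real.log (S / s)) / Real.log s)) := by
  classical
  set L := Real.log (S / s) with hL
  have hs0 : 0 < s := by linarith
  have hL0 : 0 ≤ L := Real.log_nonneg (by rw [le_div_iff₀ hs0]; linarith)
  set ls := Real.log s with hls
  have hls0 : 0 < ls := Real.log_pos (by linarith)
  set z := Real.sqrt s with hz
  have hz1 : 1 < z := by rw [hz, Real.lt_sqrt zero_le_one]; linarith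
  have hlz : Real.log z = ls / 2 := Real.log_sqrt hs0.le
  set α := (1 + L) / (ls / 2) with hαdef
  have hα : 0 < α := by positivity
  set P := N.primeFactors with hP
  have hPp : ∀ p ∈ P, p.Prime := fun p hp => Nat.prime_of_mem_primeFactors hp
  have hprod : ∏ p ∈ P, p ^ N.factorization p = N := by
    rw [hP, ← Nat.support_factorization]
    exact Nat.prod_factorization_pow_eq_self (by omega)
  have h1 := sum_divisors_rpow_le hα P (fun p => N.factorization p) hPp
  rw [hprod, ← Real.exp_sum] at h1
  have hcount : ((N.divisors.filter fun q : ℕ => Real.log q ≤ s).card : ℝ) * exp (-(α * s)) ≤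
      ∑ q ∈ N.divisors, (q : ℝ) ^ (-α) := by
    refine le_trans ?_ (sum_le_sum_of_subset_of_nonneg
      (filter_subset (fun q : ℕ => Real.log q ≤ s) _) fun q _ _ => by positivity)
    rw [← nsmul_eq_mul]
    refine card_nsmul_le_sum _ _ _ fun q hq => ?_
    rw [mem_filter, Nat.mem_divisors] at hq
    have hq0 : (0 : ℝ) < q := by
      exact_mod_cast Nat.pos_of_ne_zero (by rintro rfl; simp at hq)
    rw [Real.rpow_def_of_pos hq0]
    refine exp_le_exp.2 ?_
    have := mul_le_mul_of_nonneg_left hq.2 hα.le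
    linarith
  have hsum : ∑ p ∈ P, 1 / ((p : ℝ) ^ α - 1) ≤ 22 * (s * (1 + L) / ls) := by
    rw [← sum_filter_add_sum_filter_not P (fun p : ℕ => (p : ℝ) ≤ z)]
    have hsmall : ∑ p ∈ P.filter (fun p : ℕ => (p : ℝ) ≤ z), 1 / ((p : ℝ) ^ α - 1) ≤
        z * (1 / (α * Real.log 2)) := by
      have hc : ((P.filter (fun p : ℕ => (p : ℝ) ≤ z)).card : ℝ) ≤ z := by
        have hsub : P.filter (fun p : ℕ => (p : ℝ) ≤ z) ⊆ Finset.Icc 1 ⌊z⌋₊ := by
          intro p hp
          rw [mem_filter] at hp
          exact Finset.mem_Icc.2 ⟨(hPp p hp.1).one_lt.le, Nat.le_floor hp.2⟩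
        calc ((P.filter (fun p : ℕ => (p : ℝ) ≤ z)).card : ℝ) ≤ (⌊z⌋₊ : ℝ) := by
              exact_mod_cast (card_le_card hsub).trans (by simp)
          _ ≤ z := Nat.floor_le (by positivity)
      have hl2 := Real.log_pos (show (1 : ℝ) < 2 by norm_num)
      refine (sum_le_card_nsmul _ _ (1 / (α * Real.log 2)) fun p hp => ?_).trans ?_
      · have hp2 : (2 : ℝ) ≤ p := by exact_mod_cast (hPp p (mem_filter.1 hp).1).two_le
        have h2α : (2 : ℝ) ^ α ≤ (p : ℝ) ^ α := Real.rpow_le_rpow (by norm_num) hp2 hα.le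
        have h3 : α * Real.log 2 + 1 ≤ (2 : ℝ) ^ α := by
          rw [Real.rpow_def_of_pos (by norm_num : (0 : ℝ) < 2), mul_comm α]
          exact Real.add_one_le_exp _
        exact one_div_le_one_div_of_le (by positivity) (by linarith)
      · rw [nsmul_eq_mul]
        exact mul_le_mul_of_nonneg_right hc (by positivity)
    have hbig : ∑ p ∈ P.filter (fun p : ℕ => ¬ (p : ℝ) ≤ z), 1 / ((p : ℝ) ^ α - 1) ≤
        2 * (s / ls) := by
      have hc : ((P.filter (fun p : ℕ => ¬ (p : ℝ) ≤ z)).card : ℝ) * (ls / 2) ≤ S := by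
        refine le_trans ?_ hNS
        rw [← nsmul_eq_mul]
        refine (card_nsmul_le_sum _ (fun p : ℕ => Real.log p) _ fun p hp => ?_).trans ?_
        · rw [mem_filter, not_le] at hp
          rw [← hlz]
          exact Real.log_le_log (by linarith) hp.2.le
        · rw [← Real.log_prod]
          · refine Real.log_le_log ?_ ?_
            · exact prod_pos fun p hp => by
                exact_mod_cast (hPp p (mem_filter.1 hp).1).pos
            · rw [← Nat.cast_prod]
              have : ∏ p ∈ P.filter (fun p : ℕ => ¬ (p : ℝ) ≤ z), p ≤ N :=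
                Nat.le_of_dvd (by omega) ((prod_dvd_prod_of_subset _ _ _ (filter_subset _ _)).trans
                  (Nat.prod_primeFactors_dvd N))
              exact_mod_cast this
          · intro p hp
            have := (hPp p (mem_filter.1 hp).1).pos
            positivity
      refine (sum_le_card_nsmul _ _ (s / S) fun p hp => ?_).trans ?_
      · rw [mem_filter, not_le] at hp
        have hzα : exp (1 + L) ≤ (p : ℝ) ^ α := by
          refine le_trans ?_ (Real.rpow_le_rpow (by linarith) hp.2.le hα.le)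
          rw [Real.rpow_def_of_pos (by linarith), hlz, hαdef, mul_div_cancel₀ _ (by positivity)]
        have hS : exp L = S / s := Real.exp_log (div_pos (by linarith) hs0)
        rw [exp_add, hS] at hzα
        have he := Real.exp_one_gt_d9
        have hSs : 1 ≤ S / s := by rw [le_div_iff₀ hs0]; linarith
        have hge : S / s ≤ (p : ℝ) ^ α - 1 := by nlinarith
        refine (one_div_le_one_div_of_le (by positivity) hge).trans (le_of_eq ?_)
        rw [one_div_div]
      · rw [nsmul_eq_mul]
        have hS0 : 0 < S := by linarith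
        have h' := mul_le_mul_of_nonneg_right hc (show (0 : ℝ) ≤ 2 * s / (ls * S) by positivity)
        calc ((P.filter (fun p : ℕ => ¬ (p : ℝ) ≤ z)).card : ℝ) * (s / S)
            = ((P.filter (fun p : ℕ => ¬ (p : ℝ) ≤ z)).card : ℝ) * (ls / 2) *
              (2 * s / (ls * S)) := by field_simp
          _ ≤ S * (2 * s / (ls * S)) := h'
          _ = 2 * (s / ls) := by field_simp
    have hz2 : z * (1 / (α * Real.log 2)) ≤ 20 * (s * (1 + L) / ls) := by
      have h4 : ls ≤ 4 * s ^ ((1 : ℝ) / 4) := by
        have := Real.log_le_rpow_div hs0.le (show (0 : ℝ) < 1 / 4 by norm_num)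
        rw [hls]; linarith
      have h5 : ls * ls ≤ 16 * z := by
        have : s ^ ((1 : ℝ) / 4) * s ^ ((1 : ℝ) / 4) = z := by
          rw [← Real.rpow_add hs0, hz, Real.sqrt_eq_rpow]; norm_num
        nlinarith
      have hl2 := Real.log_two_gt_d9
      calc z * (1 / (α * Real.log 2)) = z * ls / (2 * Real.log 2 * (1 + L)) := by
            rw [hαdef]; field_simp
        _ ≤ z * ls / 1 := by
            refine div_le_div_of_nonneg_left (by positivity) (by norm_num) ?_
            nlinarith
        _ ≤ 20 * (s / ls) := by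
            rw [div_one, mul_div, le_div_iff₀ hls0]
            have := Real.mul_self_sqrt hs0.le
            rw [← hz] at this
            nlinarith [mul_le_mul_of_nonneg_left h5 (show (0 : ℝ) ≤ z by positivity)]
        _ ≤ 20 * (s * (1 + L) / ls) := by gcongr; nlinarith
    have h6 : s / ls ≤ s * (1 + L) / ls := by gcongr; nlinarith
    linarith
  have h2 := hcount.trans h1
  rw [← le_div_iff₀ (exp_pos _), ← exp_sub] at h2
  refine h2.trans (exp_le_exp.2 ?_)
  have : α * s = 2 * (s * (1 + L) / ls) := by rw [hαdef]; field_simp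
  linarith

end Vale.Agent.P012
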