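import Vale.Agent.P012.Tree
import Vale.Agent.P012.Assembly

/- P012: the root, residues modulo a prime, and the core construction. -/

namespace Vale.Agent.P012

open Finset Real
open scoped Pointwise

theorem sum_inv_sq {Qs : Finset ℕ} (hQ : ∀ d ∈ Qs, 0 < d) :
    ∑ d ∈ Qs, ((d : ℝ) ^ 2)⁻¹ ≤ 2 := by
  obtain ⟨N, hN⟩ : ∃ N, ∀ d ∈ Qs, d < N :=
    ⟨Qs.sup id + 1, fun d hd => Nat.lt_succ_of_le (Finset.le_sup (f := id) hd)⟩
  refine (sum_le_sum_of_subset_of_nonneg (t := Finset.Ioo 0 N) (fun d hd => ?_)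
    (fun d _ _ => by positivity)).trans ((sum_Ioo_inv_sq_le 0 N).trans (by norm_num))
  exact Finset.mem_Ioo.2 ⟨hQ d hd, hN d hd⟩

/-- pointwise bound at the root. -/
theorem root_pointwise {C G L D : ℕ} (hG : 0 < G) (hC : 1 ≤ C) (hLG : L ≤ G) (hD : D.Prime)
    (hLD : L < D) (Δ : Fin C → ℤ) (hΔ : ∀ j, (Δ j).natAbs ≤ L) {a : ℝ}
    {Q : Finset ℕ} {I : Finset ℕ}
    (hQ : ∀ g : ℕ, 0 < g → g ≤ L → a ≤ Real.log g → g ∈ Q)
    (hI : ∀ i : ℕ, a ≤ (i : ℝ) → (i : ℝ) ≤ Real.log L → i ∈ I) :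
    avg (fun ν : Fin C → Fin G => ind ((D : ℤ) ∣ lin ν Δ)) ≤
      ind (∀ j, Δ j = 0) + 2 ^ (C + 2) * C / (D : ℝ) + 2 ^ (C + 1) / ((G : ℝ) * L) *
        (exp (2 * a) + ∑ d ∈ Q, (d : ℝ) ^ 2 * ∏ j, ind ((d : ℤ) ∣ Δ j) +
          (exp (2 * a + 2) + ∑ i ∈ I, exp (2 * (i : ℝ) + 2) *
            ∏ j, ind (|(Δ j : ℝ)| * exp i ≤ L))) := by
  classical
  have hDr : (0 : ℝ) < D := by exact_mod_cast hD.pos
  have hGr : (0 : ℝ) < G := by exact_mod_cast hG
  have hQ0 : ∀ d ∈ Q, 0 ≤ (d : ℝ) ^ 2 * ∏ j, ind ((d : ℤ) ∣ Δ j) := fun d _ =>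
    mul_nonneg (by positivity) (prod_nonneg fun j _ => ind_nonneg _)
  have hI0 : ∀ i ∈ I, 0 ≤ exp (2 * (i : ℝ) + 2) * ∏ j, ind (|(Δ j : ℝ)| * exp i ≤ L) :=
    fun i _ => mul_nonneg (by positivity) (prod_nonneg fun j _ => ind_nonneg _)
  set R := exp (2 * a) + ∑ d ∈ Q, (d : ℝ) ^ 2 * ∏ j, ind ((d : ℤ) ∣ Δ j) +
    (exp (2 * a + 2) + ∑ i ∈ I, exp (2 * (i : ℝ) + 2) * ∏ j, ind (|(Δ j : ℝ)| * exp i ≤ L)) with hR
  have hR0 : 0 ≤ R := by
    have := sum_nonneg hQ0
    have := sum_nonneg hI0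
    positivity
  by_cases h0 : ∀ j, Δ j = 0
  · rw [ind_pos h0]
    refine (avg_le_of_le zero_le_one fun _ => ind_le_one _).trans ?_
    have : (0 : ℝ) ≤ 2 ^ (C + 2) * C / (D : ℝ) := by positivity
    have : (0 : ℝ) ≤ 2 ^ (C + 1) / ((G : ℝ) * L) * R := by positivity
    linarith
  rw [ind_neg h0, zero_add]
  obtain ⟨j₁, hj₁⟩ := not_forall.1 h0
  obtain ⟨p, -, hp⟩ := exists_max_image univ (fun j => (Δ j).natAbs) ⟨j₁, mem_univ _⟩
  set m := (Δ p).natAbs with hm
  have hm0 : 0 < m := lt_of_lt_of_le (Int.natAbs_pos.2 hj₁) (hp j₁ (mem_univ _))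
  have hmL : m ≤ L := hΔ p
  have hL0 : (0 : ℝ) < L := by exact_mod_cast lt_of_lt_of_le hm0 hmL
  have hpne : Δ p ≠ 0 := Int.natAbs_pos.1 hm0
  set g := gq m Δ with hg
  have hg0 : 0 < g := gq_pos hm0 Δ
  have hgm : g ≤ m := Nat.le_of_dvd hm0 (gq_dvd_left m Δ)
  have hcop : Nat.Coprime g D :=
    (Nat.coprime_comm.1 ((Nat.Prime.coprime_iff_not_dvd hD).2 fun h => by
      have := Nat.le_of_dvd hg0 h
      omega))
  set H := ⌊(C : ℝ) * G * m / (g * D)⌋₊ with hH
  have hmr : (0 : ℝ) < m := by exact_mod_cast hm0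
  have hgr : (0 : ℝ) < g := by exact_mod_cast hg0
  have hcover : ∀ ν : Fin C → Fin G, ind ((D : ℤ) ∣ lin ν Δ) ≤
      ∑ h ∈ Finset.Icc (-(H : ℤ)) H, ind (lin ν Δ = h * ((g : ℤ) * D)) := by
    intro ν
    by_cases hd : (D : ℤ) ∣ lin ν Δ
    · have hgd : (g : ℤ) ∣ lin ν Δ := dvd_sum fun j _ => dvd_mul_of_dvd_right (gq_dvd m Δ j) _
      obtain ⟨t, ht⟩ := (Int.isCoprime_iff_gcd_eq_one.2
        (by rw [Int.gcd_natCast_natCast]; exact hcop)).mul_dvd hgd hd
      have habs : |lin ν Δ| ≤ ((C * (G * m) : ℕ) : ℤ) := by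
        refine (abs_sum_le_sum_abs _ _).trans ?_
        refine (sum_le_card_nsmul _ _ (((G * m : ℕ)) : ℤ) fun j _ => ?_).trans_eq (by simp)
        rw [abs_mul, Int.abs_eq_natAbs (Δ j), abs_of_nonneg (by positivity), Nat.cast_mul]
        exact mul_le_mul (by exact_mod_cast (ν j).isLt) (Int.ofNat_le.2 (hp j (mem_univ _)))
          (by positivity) (by positivity)
      have htH : t.natAbs ≤ H := by
        refine Nat.le_floor ?_
        rw [le_div_iff₀ (by positivity)]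
        have h1 : (g * D) * t.natAbs ≤ C * (G * m) := by
          have : ((lin ν Δ).natAbs : ℤ) ≤ ((C * (G * m) : ℕ) : ℤ) := by
            rw [← Int.abs_eq_natAbs]; exact habs
          have h2 : (lin ν Δ).natAbs ≤ C * (G * m) := by exact_mod_cast this
          rwa [ht, Int.natAbs_mul, Int.natAbs_mul, Int.natAbs_natCast, Int.natAbs_natCast] at h2
        have h1r : ((g : ℝ) * D) * (t.natAbs : ℝ) ≤ C * (G * m) := by exact_mod_cast h1
        linarith
      refine le_trans (le_of_eq ?_) (single_le_sum (f := fun h => ind (lin ν Δ = h * ((g : ℤ) * D)))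
        (fun h _ => ind_nonneg _) (Finset.mem_Icc.2 (⟨by omega, by omega⟩ : -(H : ℤ) ≤ t ∧ t ≤ H)))
      rw [ind_pos hd, ind_pos (by rw [ht]; ring)]
    · rw [ind_neg hd]; exact sum_nonneg fun h _ => ind_nonneg _
  refine (avg_mono hcover).trans ?_
  rw [avg_sum]
  have heq : ∀ h ∈ Finset.Icc (-(H : ℤ)) H,
      avg (fun ν : Fin C → Fin G => ind (lin ν Δ = h * ((g : ℤ) * D))) ≤
        2 ^ (C + 1) * g / (G * m) := by
    intro h _
    cases C with
    | zero => omega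
    | succ C' =>
      refine (linear_form_eq hG Δ p hpne _).trans ?_
      rw [← hm, ← hg]
      have h1 : 1 / (G : ℝ) ≤ g / m := by
        rw [div_le_div_iff₀ hGr hmr]
        have : 1 * m ≤ g * G := Nat.mul_le_mul hg0 (hmL.trans hLG)
        exact_mod_cast this
      calc 1 / (G : ℝ) * (2 ^ (C' + 1) * (1 / (G : ℝ) + g / m))
          ≤ 1 / (G : ℝ) * (2 ^ (C' + 1) * (g / m + g / m)) := by gcongr
        _ = _ := by rw [pow_succ 2 (C' + 1)]; field_simp; ring
  refine (sum_le_card_nsmul _ _ _ heq).trans ?_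
  rw [nsmul_eq_mul, Int.card_Icc]
  have hcard : (((H : ℤ) + 1 - -(H : ℤ)).toNat : ℝ) = 2 * H + 1 := by
    have : ((H : ℤ) + 1 - -(H : ℤ)).toNat = 2 * H + 1 := by omega
    rw [this]; push_cast; ring
  rw [hcard]
  have hHle : (H : ℝ) ≤ C * G * m / (g * D) := Nat.floor_le (by positivity)
  have hgL : (g : ℝ) * L / m ≤ R := by
    have h1 : (g : ℝ) * L / m ≤ (g : ℝ) ^ 2 + (L / m) ^ 2 := by
      rw [mul_div_assoc]; nlinarith [sq_nonneg ((g : ℝ) - L / m), sq_nonneg ((g : ℝ) + L / m)]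
    have h2 : (g : ℝ) ^ 2 ≤ exp (2 * a) + ∑ d ∈ Q, (d : ℝ) ^ 2 * ∏ j, ind ((d : ℤ) ∣ Δ j) := by
      rcases lt_or_ge (Real.log g) a with h | h
      · refine le_trans ?_ (le_add_of_nonneg_right (sum_nonneg hQ0))
        rw [← exp_log (pow_pos hgr 2), Real.log_pow]
        exact exp_le_exp.2 (by push_cast; linarith)
      · refine le_trans ?_ (le_add_of_nonneg_left (exp_pos _).le)
        refine le_trans (le_of_eq ?_) (single_le_sum hQ0 (hQ g hg0 (hgm.trans hmL) h))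
        rw [prod_eq_one fun j _ => ind_pos (gq_dvd m Δ j), mul_one]
    have h3 : (L / m : ℝ) ^ 2 ≤ exp (2 * a + 2) + ∑ i ∈ I, exp (2 * (i : ℝ) + 2) *
        ∏ j, ind (|(Δ j : ℝ)| * exp i ≤ L) := by
      have hLm : 1 ≤ (L : ℝ) / m := by rw [le_div_iff₀ hmr, one_mul]; exact_mod_cast hmL
      have hlog0 : 0 ≤ Real.log (L / m) := Real.log_nonneg hLm
      set i := ⌊Real.log (L / m)⌋₊ with hi
      have hi1 := Nat.floor_le hlog0
      have hi2 := (Nat.lt_floor_add_one (Real.log (L / m))).le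
      rw [← hi] at hi1 hi2
      rw [← exp_log (pow_pos (by linarith : (0 : ℝ) < L / m) 2), Real.log_pow]
      push_cast
      rcases lt_or_ge (i : ℝ) a with h | h
      · exact le_trans (exp_le_exp.2 (by linarith)) (le_add_of_nonneg_right (sum_nonneg hI0))
      · refine le_trans ?_ (le_add_of_nonneg_left (exp_pos _).le)
        have hmem : i ∈ I := hI i h (hi1.trans
          (Real.log_le_log (by positivity) (div_le_self hL0.le (by exact_mod_cast hm0))))
        refine le_trans ?_ (single_le_sum hI0 hmem)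
        rw [prod_eq_one fun j _ => ind_pos ?_, mul_one]
        · exact exp_le_exp.2 (by linarith)
        · have h4 : exp (i : ℝ) ≤ L / m := by
            rw [← exp_log (by linarith : (0 : ℝ) < L / m)]; exact exp_le_exp.2 hi1
          rw [le_div_iff₀ hmr] at h4
          refine le_trans ?_ h4
          rw [mul_comm (exp (i : ℝ))]
          gcongr
          rw [← Int.cast_abs, Int.abs_eq_natAbs]
          exact_mod_cast hp j (mem_univ _)
    rw [hR]; linarith
  calc (2 * (H : ℝ) + 1) * (2 ^ (C + 1) * g / (G * m))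
      ≤ (2 * (C * G * m / (g * D)) + 1) * (2 ^ (C + 1) * g / (G * m)) := by gcongr
    _ = 2 ^ (C + 2) * C / (D : ℝ) + 2 ^ (C + 1) / ((G : ℝ) * L) * ((g : ℝ) * L / m) := by
        field_simp; ring
    _ ≤ _ := by gcongr

/-- iterated sums cover all residues. -/
theorem cover_residues {D : ℕ} (hD : D.Prime) (X : RV) {k W : ℕ} {M : ℕ}
    (hY : ∀ ω, X.Y ω ≤ W)
    (hrep : ∀ ω, ∃ l : List ℕ, l.length ≤ k ∧ (∀ d ∈ l, d ∣ M) ∧ l.sum = X.Y ω) {K : ℕ}
    (hK : 1 ≤ K) (hP : X.P D ≤ (K : ℝ) / D) (hDK : 2 * K ≤ D) :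
    ∀ r < D, ∃ l : List ℕ, l.length ≤ (2 * K + 1) * k ∧ (∀ d ∈ l, d ∣ M) ∧
      l.sum ≤ (2 * K + 1) * W ∧ l.sum % D = r := by
  classical
  have : Fact D.Prime := ⟨hD⟩
  set f : X.Ω → ZMod D := fun ω => (X.Y ω : ZMod D) with hf
  set A := univ.image f with hA
  have hAne : A.Nonempty := univ_nonempty.image _
  have hA0 : (0 : ℝ) < A.card := by exact_mod_cast card_pos.2 hAne
  have hΩ : (0 : ℝ) < Fintype.card X.Ω := by exact_mod_cast Fintype.card_pos
  have hDr : (0 : ℝ) < D := by exact_mod_cast hD.pos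
  have hcard : D ≤ K * A.card := by
    set c := fun x : ZMod D => ((univ.filter fun ω => f ω = x).card : ℝ) with hc
    have hsum : ∑ x ∈ A, c x = Fintype.card X.Ω := by
      simp only [hc]
      rw [← card_univ, card_eq_sum_card_image f univ, Nat.cast_sum]
    have hsq : X.P D * (Fintype.card X.Ω : ℝ) ^ 2 = ∑ x ∈ A, c x ^ 2 := by
      unfold RV.P avg
      rw [Fintype.card_prod, Fintype.sum_prod_type, Nat.cast_mul, ← sq,
        div_mul_cancel₀ _ (by positivity)]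
      have h1 : ∀ ω, ∑ ω', ind ((D : ℤ) ∣ X.diff (ω, ω')) = c (f ω) := by
        intro ω
        change _ = ((univ.filter fun ω' => f ω' = f ω).card : ℝ)
        rw [← sum_ind univ (fun ω' => f ω' = f ω)]
        refine sum_congr rfl fun ω' _ => ind_congr ?_
        rw [← ZMod.intCast_zmod_eq_zero_iff_dvd]
        simp only [RV.diff, hf]
        push_cast
        rw [sub_eq_zero]
        exact eq_comm
      simp only [h1]
      rw [← sum_fiberwise_of_maps_to (t := A) (g := f) fun ω _ => mem_image_of_mem f (mem_univ ω)]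
      refine sum_congr rfl fun x _ => ?_
      rw [sum_congr rfl (g := fun _ => c x) fun ω hω => by rw [(mem_filter.1 hω).2],
        sum_const, nsmul_eq_mul, sq]
    have hcs := sq_sum_le_card_mul_sum_sq (s := A) (f := c)
    rw [hsum, ← hsq] at hcs
    have h2 : (1 : ℝ) ≤ A.card * X.P D := by
      have h3 : 0 < (Fintype.card X.Ω : ℝ) ^ 2 := by positivity
      refine le_of_mul_le_mul_right ?_ h3
      linarith
    have h4 : (1 : ℝ) ≤ A.card * ((K : ℝ) / D) := h2.trans (by gcongr)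
    rw [mul_div_assoc', le_div_iff₀ hDr, one_mul] at h4
    rw [Nat.mul_comm]
    exact_mod_cast h4
  have hA2 : 2 ≤ A.card := by
    by_contra h
    have h1 : K * A.card ≤ K * 1 := Nat.mul_le_mul_left _ (by omega)
    omega
  have hiter : ∀ h : ℕ, 1 ≤ h → ∃ Sh : Finset (ZMod D), min D (h * (A.card - 1) + 1) ≤ Sh.card ∧
      Sh.Nonempty ∧ ∀ x ∈ Sh, ∃ l : List ℕ, l.length ≤ h * k ∧ (∀ d ∈ l, d ∣ M) ∧
        l.sum ≤ h * W ∧ (l.sum : ZMod D) = x := by
    intro h hh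
    induction h, hh using Nat.le_induction with
    | base =>
      refine ⟨A, le_trans (min_le_right _ _) (by omega), hAne, fun x hx => ?_⟩
      obtain ⟨ω, -, rfl⟩ := mem_image.1 hx
      obtain ⟨l, h1, h2, h3⟩ := hrep ω
      exact ⟨l, by simpa using h1, h2, by rw [h3, one_mul]; exact hY ω, by rw [h3]⟩
    | succ h _ ih =>
      obtain ⟨Sh, h1, h2, h3⟩ := ih
      refine ⟨Sh + A, le_trans ?_ (ZMod.cauchy_davenport hD h2 hAne), h2.add hAne, fun x hx => ?_⟩
      · have hm : (h + 1) * (A.card - 1) = h * (A.card - 1) + (A.card - 1) := Nat.succ_mul _ _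
        rw [hm]
        omega
      · obtain ⟨x1, hx1, x2, hx2, rfl⟩ := Finset.mem_add.1 hx
        obtain ⟨ω, -, rfl⟩ := mem_image.1 hx2
        obtain ⟨l1, a1, a2, a3, a4⟩ := h3 x1 hx1
        obtain ⟨l2, b1, b2, b3⟩ := hrep ω
        refine ⟨l1 ++ l2, ?_, ?_, ?_, ?_⟩
        · rw [List.length_append, Nat.succ_mul]; omega
        · intro d hd
          rcases List.mem_append.1 hd with hd | hd
          exacts [a2 d hd, b2 d hd]
        · rw [List.sum_append, b3, Nat.succ_mul]; have := hY ω; omega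
        · rw [List.sum_append, Nat.cast_add, a4, b3]
  obtain ⟨Sh, h1, -, h3⟩ := hiter (2 * K + 1) (by omega)
  have hfull : Sh = univ := by
    refine eq_univ_of_card _ (le_antisymm (card_le_univ _) ?_)
    rw [ZMod.card]
    refine le_trans (le_min le_rfl ?_) h1
    have hle : A.card ≤ 2 * (A.card - 1) := by omega
    calc D ≤ K * (2 * (A.card - 1)) := hcard.trans (Nat.mul_le_mul_left _ hle)
      _ = 2 * K * (A.card - 1) := by ring
      _ ≤ (2 * K + 1) * (A.card - 1) + 1 :=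
          (Nat.mul_le_mul_right _ (Nat.le_succ _)).trans (Nat.le_succ _)
  intro r hr
  obtain ⟨l, a1, a2, a3, a4⟩ := h3 (r : ZMod D) (by rw [hfull]; exact mem_univ _)
  refine ⟨l, a1, a2, a3, ?_⟩
  have := (ZMod.natCast_eq_natCast_iff' l.sum r D).1 a4
  rwa [Nat.mod_eq_of_lt hr] at this

theorem root_avg {C G L D J : ℕ} {ρ a σ : ℝ} (Z : Fin C → RV) (hG0 : 0 < G) (hC : 4000 ≤ C)
    (hLG : L ≤ G) (hD : D.Prime) (hLD : L < D) (hLr : (0 : ℝ) < L)
    (hY : ∀ t ω, (Z t).Y ω ≤ L) (hLb : Real.log L ≤ 5 * scale J)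
    (hP : ∀ q : ℕ, 0 < q → a ≤ Real.log q → Real.log q ≤ top J →
      ∏ t, (Z t).P q ≤ exp (-(C * ee J 1 ρ (Real.log q))))
    (hI : ∀ t, ∀ s, a ≤ s → s ≤ top J → (Z t).I L s ≤ exp (-ee J 1 ρ s))
    (hP0 : ∀ t, (Z t).P0 ≤ exp (-(2 * UU J 1 ρ)))
    (hρ : (J : ℝ) ≤ ρ) (ha1 : low J ≤ a) (hbig : 100 * (J : ℝ) ^ 3 ≤ low J)
    (hJr : (100 : ℝ) ≤ J) (hσ : σ = 2 * a + 10)
    (hDQ : (D : ℝ) ≤ 4 * ((G : ℝ) * L / exp σ)) (hDexp : (D : ℝ) ≤ exp (18 * scale J))
    (hprod : ∀ s, low J ≤ s → s ≤ top J → exp (-((C : ℝ) * ee J 1 ρ s)) ≤ exp (-(4 * s))) :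
    avg (fun ν : Fin C → Fin G => (comb ν Z).P D) ≤
      ((2 ^ (C + 2) * C + 2 ^ (C + 1) + 1 : ℕ) : ℝ) / D := by
  have hn := scale_pos J
  have hlow := low_pos J
  have hJ3 := le_self_pow₀ (by linarith : (1 : ℝ) ≤ J) (by norm_num : 3 ≠ 0)
  have htop : top J = 12 * scale J := rfl
  have hCr : (4000 : ℝ) ≤ C := by exact_mod_cast hC
  have hDr : (0 : ℝ) < D := by exact_mod_cast hD.pos
  have : Nonempty (Fin G) := ⟨⟨0, hG0⟩⟩
  set Q := (G : ℝ) * L / exp σ with hQ
  set K1 := 2 ^ (C + 2) * C + 2 ^ (C + 1) + 1 with hK1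
  set Qs := qRange a (top J) with hQs
  set Is := (Finset.range (⌊top J⌋₊ + 1)).filter (fun i : ℕ => a ≤ (i : ℝ) ∧ (i : ℝ) ≤ top J)
    with hIs
  set R0 := exp (2 * a) + 2 + (exp (2 * a + 2) + (top J + 1) * exp 2) with hR0
  have e1 : avg (fun ν : Fin C → Fin G => (comb ν Z).P D) =
      avg (fun w : ∀ j, (Z j).Ω × (Z j).Ω =>
        avg (fun ν : Fin C → Fin G => ind ((D : ℤ) ∣ lin ν (dvec Z w)))) := by
    rw [avg_comm]
    exact avg_congr fun ν => avg_comb_pairs Z ν (fun z => ind ((D : ℤ) ∣ z))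
  rw [e1]
  refine (avg_mono fun w => root_pointwise hG0 (by omega) hLG hD hLD (dvec Z w)
    (fun j => by
      have h1 := hY j (w j).1
      have h2 := hY j (w j).2
      simp only [dvec, RV.diff]
      omega)
    (a := a) (Q := Qs) (I := Is)
    (fun g h1 h2 h3 => mem_qRange h1 h3
      (((Real.log_le_log (by exact_mod_cast h1) (by exact_mod_cast h2)).trans hLb).trans
        (by linarith)))
    (fun i h1 h2 => by
      rw [hIs, mem_filter, mem_range]
      have : (i : ℝ) ≤ top J := by linarith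
      exact ⟨Nat.lt_succ_of_le (Nat.le_floor this), h1, this⟩)).trans ?_
  rw [avg_add, avg_add, avg_const, avg_mul_left, avg_add, avg_add, avg_const, avg_add, avg_const,
    avg_sum, avg_sum]
  have h1 : avg (fun w : ∀ j, (Z j).Ω × (Z j).Ω => ind (∀ j, dvec Z w j = 0)) ≤ 1 / (D : ℝ) := by
    have e : avg (fun w : ∀ j, (Z j).Ω × (Z j).Ω => ind (∀ j, dvec Z w j = 0)) =
        ∏ j, (Z j).P0 := by
      rw [avg_congr fun w => ind_forall_prod fun j => dvec Z w j = 0]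
      exact avg_pi fun j (p : (Z j).Ω × (Z j).Ω) => ind ((Z j).diff p = 0)
    rw [e]
    refine (prod_le_prod (fun j _ => (Z j).P0_nonneg) fun j _ => hP0 j).trans ?_
    rw [prod_const, card_univ, Fintype.card_fin, ← exp_nat_mul]
    refine le_trans ?_ (one_div_le_one_div_of_le hDr hDexp)
    rw [one_div, ← exp_neg]
    refine exp_le_exp.2 ?_
    have hUU : 0.012 * scale J ≤ UU J 1 ρ := by
      unfold UU top
      calc 0.012 * scale J = 1 / 1000 * ((J : ℝ) * (12 * scale J / J)) := by field_simp; ring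
        _ ≤ _ := by gcongr
    nlinarith [mul_le_mul hCr hUU (by positivity) (by positivity)]
  have h2 : ∑ d ∈ Qs, avg (fun w : ∀ j, (Z j).Ω × (Z j).Ω =>
      (d : ℝ) ^ 2 * ∏ j, ind ((d : ℤ) ∣ dvec Z w j)) ≤ 2 := by
    refine (sum_le_sum fun d hd => ?_).trans (sum_inv_sq fun d hd => (qRange_spec hd).1)
    obtain ⟨hd0, hd1, hd2⟩ := qRange_spec hd
    simp only [dvec]
    rw [avg_mul_left, avg_pi fun j (p : (Z j).Ω × (Z j).Ω) => ind ((d : ℤ) ∣ (Z j).diff p)]
    refine (mul_le_mul_of_nonneg_left ((hP d hd0 hd1 hd2).trans (hprod _ (by linarith) hd2))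
      (by positivity)).trans (le_of_eq ?_)
    have hd' : (0 : ℝ) < d := by exact_mod_cast hd0
    rw [exp_neg, show (4 : ℝ) * Real.log d = ((4 : ℕ) : ℝ) * Real.log d by norm_num, exp_nat_mul,
      exp_log hd']
    field_simp
  have h3 : ∑ i ∈ Is, avg (fun w : ∀ j, (Z j).Ω × (Z j).Ω =>
      exp (2 * (i : ℝ) + 2) * ∏ j, ind (|(dvec Z w j : ℝ)| * exp i ≤ L)) ≤
      (top J + 1) * exp 2 := by
    refine (sum_le_card_nsmul _ _ (exp 2) fun i hi => ?_).trans ?_
    · rw [hIs, mem_filter] at hi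
      simp only [dvec]
      rw [avg_mul_left,
        avg_pi fun j (p : (Z j).Ω × (Z j).Ω) => ind (|((Z j).diff p : ℝ)| * exp i ≤ L)]
      refine (mul_le_mul_of_nonneg_left ((prod_le_prod (fun j _ => (Z j).I_nonneg L i)
        fun j _ => hI j i hi.2.1 hi.2.2).trans (le_trans (le_of_eq ?_)
          (hprod _ (by linarith [hi.2.1]) hi.2.2))) (exp_pos _).le).trans ?_
      · rw [prod_const, card_univ, Fintype.card_fin, ← exp_nat_mul, mul_neg]
      · rw [← exp_add]; exact exp_le_exp.2 (by linarith [(Nat.cast_nonneg i : (0 : ℝ) ≤ i)])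
    · rw [nsmul_eq_mul]
      refine mul_le_mul_of_nonneg_right ?_ (exp_pos _).le
      have h : Is.card ≤ ⌊top J⌋₊ + 1 := (card_filter_le _ _).trans_eq (card_range _)
      calc (Is.card : ℝ) ≤ (⌊top J⌋₊ : ℝ) + 1 := by exact_mod_cast h
        _ ≤ top J + 1 := by gcongr; exact Nat.floor_le (by linarith)
  have hR0le : R0 ≤ exp (2 * a + 6) := by
    have h5 : top J + 1 ≤ exp (2 * a) := by
      have h1 : scale J ≤ exp J := by
        rw [scale, ← exp_one_pow]; exact pow_le_pow_left₀ (by norm_num)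
          (by linarith [Real.exp_one_gt_d9]) _
      have h2 : (13 : ℝ) * exp J ≤ exp (2 * a) := by
        calc (13 : ℝ) * exp J ≤ exp J * exp J := by
              gcongr; linarith [Real.add_one_le_exp (J : ℝ)]
          _ = exp (J + J) := (exp_add _ _).symm
          _ ≤ _ := exp_le_exp.2 (by linarith)
      have hs1 : 1 ≤ scale J := one_le_pow₀ (by norm_num)
      linarith
    have he1 : 1 ≤ exp (2 * a) := Real.one_le_exp (by linarith)
    have he2 : 3 ≤ exp 2 := by linarith [Real.add_one_le_exp (2 : ℝ)]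
    have he6 : exp 2 * exp 2 * exp 2 = exp 6 := by rw [← exp_add, ← exp_add]; norm_num
    have he6' : 9 * exp 2 ≤ exp 6 := by
      rw [← he6]
      exact mul_le_mul_of_nonneg_right (by nlinarith) (exp_pos _).le
    rw [hR0, exp_add, exp_add]
    nlinarith [mul_le_mul_of_nonneg_right h5 (exp_pos 2).le,
      mul_le_mul_of_nonneg_left he6' (exp_pos (2 * a)).le]
  have hkey : R0 / ((G : ℝ) * L) ≤ 1 / (D : ℝ) := by
    refine le_trans ?_ (one_div_le_one_div_of_le hDr hDQ)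
    have e : 1 / (4 * Q) = exp σ / 4 / ((G : ℝ) * L) := by rw [hQ]; field_simp
    rw [e]
    gcongr
    refine hR0le.trans ?_
    rw [le_div_iff₀ (by norm_num : (0 : ℝ) < 4)]
    calc exp (2 * a + 6) * 4 ≤ exp (2 * a + 6) * exp 4 := by
          gcongr; linarith [Real.add_one_le_exp (4 : ℝ)]
      _ = exp σ := by rw [← exp_add, hσ]; ring_nf
  have hGL : 0 ≤ 2 ^ (C + 1) / ((G : ℝ) * L) := by positivity
  calc _ ≤ 1 / (D : ℝ) + 2 ^ (C + 2) * C / (D : ℝ) + 2 ^ (C + 1) / ((G : ℝ) * L) * R0 := by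
        rw [hR0]; gcongr
    _ ≤ 1 / (D : ℝ) + 2 ^ (C + 2) * C / (D : ℝ) + 2 ^ (C + 1) * (1 / (D : ℝ)) := by
        have h := mul_le_mul_of_nonneg_left hkey (show (0 : ℝ) ≤ 2 ^ (C + 1) by positivity)
        have e : (2 : ℝ) ^ (C + 1) / ((G : ℝ) * L) * R0 = 2 ^ (C + 1) * (R0 / ((G : ℝ) * L)) :=
          div_mul_eq_mul_div _ _ _ |>.trans (mul_div_assoc _ _ _)
        linarith
    _ = (K1 : ℝ) / D := by rw [hK1]; push_cast; ring

/-- facts needed about the root level. -/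
def RootLevel (C K0 J : ℕ) : Prop :=
  ∃ ρ a : ℝ, ∃ k : ℕ, Level J C 1 ρ a (K0 * scale J) (5 * scale J) k ∧ (J : ℝ) ≤ ρ ∧
    low J ≤ a ∧ a ≤ 2 * J * low J ∧ k ≤ 4 * J

set_option maxHeartbeats 1000000 in
theorem core_of_root (C K0 J0 : ℕ) (hC : 4000 ≤ C) (hroot : ∀ J, J0 ≤ J → RootLevel C K0 J) :
    ∃ K J1, ∀ J, J1 ≤ J → CoreData K J := by
  obtain ⟨JG, hgrow⟩ := grow 100 3
  set K1 := 2 ^ (C + 2) * C + 2 ^ (C + 1) + 1 with hK1
  refine ⟨2 * (K0 + 30 + 13 * C) + (2 * K1 + 1) * (C * 4),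
    max (max J0 JG) (max 100 (2 * (2 * K1 + 1) * C)), fun J hJJ => ?_⟩
  have hJ100 : 100 ≤ J := le_trans (le_max_left _ _) (le_of_max_le_right hJJ)
  have hJK : 2 * (2 * K1 + 1) * C ≤ J := le_trans (le_max_right _ _) (le_of_max_le_right hJJ)
  have hgJ := hgrow J (le_of_max_le_right (le_of_max_le_left hJJ))
  have hbig : 100 * (J : ℝ) ^ 3 ≤ low J := hgJ.trans (low_ge J)
  obtain ⟨ρ, a, k, ⟨Z, M, L, hM, hL, hMb, hLb, hY, hrep, hP, hI, hP0⟩, hρ, ha1, ha2, hk⟩ :=
    hroot J (le_of_max_le_left (le_of_max_le_left hJJ))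
  have hJr : (100 : ℝ) ≤ J := by exact_mod_cast hJ100
  have hn := scale_pos J
  have hlow := low_pos J
  have hJ3 := le_self_pow₀ (by linarith : (1 : ℝ) ≤ J) (by norm_num : 3 ≠ 0)
  have htop : top J = 12 * scale J := rfl
  have hCr : (4000 : ℝ) ≤ C := by exact_mod_cast hC
  have hlowsc : low J * (2 : ℝ) ^ (2 * (J / 20)) = scale J := by
    rw [low, pow_mul]; norm_num
  have ha_small : 2 * a + 10 ≤ scale J := by
    have h1 : 100 * (J : ℝ) ≤ (2 : ℝ) ^ (2 * (J / 20)) := by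
      have : (2 : ℝ) ^ (J / 20) ≤ (2 : ℝ) ^ (2 * (J / 20)) :=
        pow_le_pow_right₀ (by norm_num) (by omega)
      linarith
    calc 2 * a + 10 ≤ low J * (100 * J) := by nlinarith
      _ ≤ low J * (2 : ℝ) ^ (2 * (J / 20)) := by gcongr
      _ = scale J := hlowsc
  set σ := 2 * a + 10 with hσ
  have hσ0 : 0 ≤ σ := by linarith
  set G := ⌈exp (top J)⌉₊ with hG
  have hG0 : 0 < G := Nat.ceil_pos.2 (exp_pos _)
  have hGr : exp (top J) ≤ (G : ℝ) := Nat.le_ceil _
  have hLr : (0 : ℝ) < L := by exact_mod_cast hL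
  have hLexp : (L : ℝ) ≤ exp (5 * scale J) := by
    rw [← exp_log hLr]; exact exp_le_exp.2 hLb
  have hLG : L ≤ G := by
    have h1 : (L : ℝ) ≤ G := hLexp.trans ((exp_le_exp.2 (by linarith)).trans hGr)
    exact_mod_cast h1
  have hG2 : (G : ℝ) ≤ 2 * exp (top J) := by
    have h1 : (G : ℝ) ≤ exp (top J) + 1 := (Nat.ceil_lt_add_one (exp_pos _).le).le
    linarith [Real.one_le_exp (show 0 ≤ top J by linarith)]
  set Q := (G : ℝ) * L / exp σ with hQ
  have hQbig : exp (11 * scale J) * L ≤ Q := by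
    rw [hQ, le_div_iff₀ (exp_pos _)]
    calc exp (11 * scale J) * L * exp σ = exp (11 * scale J + σ) * L := by
          rw [exp_add (11 * scale J) σ, mul_right_comm]
      _ ≤ G * L := by
          gcongr
          exact le_trans (exp_le_exp.2 (by linarith)) hGr
  have hL1 : (1 : ℝ) ≤ L := by exact_mod_cast hL
  have hQ1 : exp (11 * scale J) ≤ Q := (le_mul_of_one_le_right (exp_pos _).le hL1).trans hQbig
  have hQ2 : (2 : ℝ) ≤ Q := by
    refine le_trans ?_ hQ1
    linarith [Real.add_one_le_exp (11 * scale J), (one_le_pow₀ (show (1 : ℝ) ≤ 2 by norm_num) : 1 ≤ scale J)]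
  set D0 := ⌈Q⌉₊ with hD0
  obtain ⟨D, hD, hD1, hD2⟩ := Nat.exists_prime_lt_and_le_two_mul D0
    (Nat.ceil_pos.2 (by linarith)).ne'
  have hQD : Q ≤ (D : ℝ) := (Nat.le_ceil Q).trans (by exact_mod_cast hD1.le)
  have hDQ : (D : ℝ) ≤ 4 * Q := by
    have h1 : (D : ℝ) ≤ 2 * (D0 : ℝ) := by exact_mod_cast hD2
    have h2 := (Nat.ceil_lt_add_one (by linarith : (0 : ℝ) ≤ Q)).le
    rw [← hD0] at h2
    linarith
  have hLD : L < D := by
    have : (L : ℝ) < D := by
      have h3 : (L : ℝ) < exp (11 * scale J) * L := lt_mul_of_one_lt_left hLr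
        (Real.one_lt_exp_iff.2 (by linarith))
      linarith
    exact_mod_cast this
  have hDGL : D ≤ G * L := by
    have h1 : (D : ℝ) ≤ (G : ℝ) * L := by
      have h2 : 4 * Q ≤ (G : ℝ) * L := by
        rw [hQ, ← mul_div_assoc, div_le_iff₀ (exp_pos _), mul_comm ((G : ℝ) * L)]
        gcongr
        linarith [Real.add_one_le_exp σ]
      linarith
    exact_mod_cast h1
  have hDr : (0 : ℝ) < D := by exact_mod_cast hD.pos
  have hDexp : (D : ℝ) ≤ exp (18 * scale J) := by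
    have h1 : (D : ℝ) ≤ G * L := by exact_mod_cast hDGL
    refine h1.trans ((mul_le_mul hG2 hLexp hLr.le (by positivity)).trans ?_)
    rw [mul_assoc, ← exp_add]
    exact exp_two_le (by linarith [(one_le_pow₀ (show (1 : ℝ) ≤ 2 by norm_num) : 1 ≤ scale J)])
  have hee : ∀ s, low J ≤ s → s ≤ top J → ee J 1 ρ s = s / 1000 := by
    intro s h1 h2
    obtain ⟨-, hp⟩ := phi_le_self (by omega) (by linarith : low J - 1 ≤ s) hbig h2
    have h3 : s ≤ ρ * phi J s := by
      calc s = (J : ℝ) * (s / J) := by field_simp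
        _ ≤ ρ * phi J s := mul_le_mul hρ hp (div_nonneg (by linarith) (by linarith)) (by linarith)
    unfold ee
    rw [min_eq_left h3]
    ring
  have hprod : ∀ s, low J ≤ s → s ≤ top J → exp (-((C : ℝ) * ee J 1 ρ s)) ≤ exp (-(4 * s)) := by
    intro s h1 h2
    rw [hee s h1 h2]
    exact exp_le_exp.2 (by nlinarith)
  have : Nonempty (Fin G) := ⟨⟨0, hG0⟩⟩
  have hEP : avg (fun ν : Fin C → Fin G => (comb ν Z).P D) ≤ (K1 : ℝ) / D :=
    root_avg Z hG0 hC hLG hD hLD hLr hY hLb hP hI hP0 hρ ha1 hbig hJr hσ hDQ hDexp hprod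
  obtain ⟨ν, hν⟩ := exists_le_avg (fun ν : Fin C → Fin G => (comb ν Z).P D)
  set X := comb ν Z with hX
  set MX := M * ∏ j, ((ν j : ℕ) + 1) with hMX
  have hYX : ∀ ω, X.Y ω ≤ C * G * L := by
    intro ω
    change ∑ j, ((ν j : ℕ) + 1) * (Z j).Y (ω j) ≤ C * G * L
    refine (sum_le_card_nsmul _ _ (G * L) fun j _ => ?_).trans_eq (by simp [mul_assoc])
    exact Nat.mul_le_mul (ν j).isLt (hY j _)
  have hrepX : ∀ ω, ∃ l : List ℕ, l.length ≤ C * k ∧ (∀ d ∈ l, d ∣ MX) ∧ l.sum = X.Y ω := by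
    intro ω
    choose l hl using fun j => hrep j (ω j)
    refine ⟨(List.finRange C).flatMap fun j => (l j).map fun d => ((ν j : ℕ) + 1) * d, ?_, ?_, ?_⟩
    · rw [List.length_flatMap]
      refine (List.sum_le_card_nsmul _ k fun x hx => ?_).trans_eq (by simp)
      obtain ⟨j, -, rfl⟩ := List.mem_map.1 hx
      simpa using (hl j).1
    · intro d hd
      obtain ⟨j, -, hd⟩ := List.mem_flatMap.1 hd
      obtain ⟨d', hd', rfl⟩ := List.mem_map.1 hd
      rw [Nat.mul_comm]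
      exact mul_dvd_mul ((hl j).2.1 d' hd') (dvd_prod_of_mem (fun j => (ν j : ℕ) + 1) (mem_univ j))
    · have hs : ∀ j, ((l j).map fun d => ((ν j : ℕ) + 1) * d).sum =
          ((ν j : ℕ) + 1) * (Z j).Y (ω j) := fun j => by
        rw [List.sum_map_mul_left, List.map_id', (hl j).2.2]
      rw [List.flatMap_def, List.sum_flatten, List.map_map]
      simp only [Function.comp_def, hs]
      rw [← Fin.sum_univ_def]
      rfl
  have hC0 : 1 ≤ C := by omega
  have hK1J : 2 * (2 * K1 + 1) ≤ J := le_trans (Nat.le_mul_of_pos_right _ hC0) hJK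
  have hexp2 : 2 ^ 2 ^ J ≤ D := by
    have h1 : ((2 : ℝ)) ^ (2 ^ J) ≤ (D : ℝ) := by
      refine le_trans ?_ (hQ1.trans hQD)
      rw [← exp_log (by positivity : (0 : ℝ) < (2 : ℝ) ^ (2 ^ J)), Real.log_pow, ← scale_eq_cast]
      exact exp_le_exp.2 (by nlinarith [Real.log_two_lt_d9, Real.log_two_gt_d9])
    exact_mod_cast h1
  have h2J : J ≤ D := le_trans (Nat.lt_two_pow_self.le.trans Nat.lt_two_pow_self.le) hexp2
  have hres := cover_residues hD X hYX hrepX (Nat.le_add_left 1 _) (hν.trans hEP) (by omega)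
  have hMX0 : 0 < MX := Nat.mul_pos hM (prod_pos fun j _ => Nat.succ_pos _)
  refine ⟨D * MX, D, (2 * K1 + 1) * (C * G * L),
    Nat.mul_pos hD.pos hMX0, hD, dvd_mul_right _ _, ?_, hexp2, ?_, ?_, ?_⟩
  · have hprodle : ∏ j, ((ν j : ℕ) + 1) ≤ G ^ C :=
      (prod_le_pow_card _ _ G fun j _ => (ν j).isLt).trans_eq (by simp)
    have hMexp : (M : ℝ) ≤ exp (K0 * scale J) := by
      rw [← exp_log (by exact_mod_cast hM : (0 : ℝ) < M)]; exact exp_le_exp.2 hMb
    have hG13 : (G : ℝ) ≤ exp (13 * scale J) :=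
      hG2.trans (exp_two_le (by linarith [(one_le_pow₀ (show (1 : ℝ) ≤ 2 by norm_num) : 1 ≤ scale J)]))
    have hb : ((D * MX : ℕ) : ℝ) ≤ exp (((K0 + 30 + 13 * C : ℕ) : ℝ) * scale J) := by
      rw [hMX]
      push_cast
      have hp : (∏ j, (((ν j : ℕ) : ℝ) + 1)) ≤ exp ((C : ℝ) * (13 * scale J)) := by
        rw [exp_nat_mul]
        refine le_trans ?_ (pow_le_pow_left₀ (Nat.cast_nonneg G) hG13 C)
        exact_mod_cast hprodle
      calc (D : ℝ) * ((M : ℝ) * ∏ j, (((ν j : ℕ) : ℝ) + 1))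
          ≤ exp (18 * scale J) * (exp (K0 * scale J) * exp ((C : ℝ) * (13 * scale J))) := by gcongr
        _ ≤ _ := by rw [← exp_add, ← exp_add]; exact exp_le_exp.2 (by linarith)
    have hfin : exp (((K0 + 30 + 13 * C : ℕ) : ℝ) * scale J) ≤
        (((2 : ℕ) ^ ((2 * (K0 + 30 + 13 * C) + (2 * K1 + 1) * (C * 4)) * 2 ^ J) : ℕ) : ℝ) := by
      push_cast
      rw [← exp_log (by positivity : (0 : ℝ) < (2 : ℝ) ^ ((2 * (K0 + 30 + 13 * C) +
        (2 * K1 + 1) * (C * 4)) * 2 ^ J)), Real.log_pow]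
      refine exp_le_exp.2 ?_
      push_cast
      rw [show ((2 : ℝ) ^ J) = scale J from rfl]
      have hl2 := Real.log_two_gt_d9
      have hx : 0 ≤ ((K0 : ℝ) + 30 + 13 * C) * scale J := by positivity
      have hy : 0 ≤ (2 * (K1 : ℝ) + 1) * ((C : ℝ) * 4) * scale J * Real.log 2 := by positivity
      nlinarith [mul_le_mul_of_nonneg_left (show (1 : ℝ) ≤ 2 * Real.log 2 by linarith) hx]
    exact_mod_cast hb.trans hfin
  · have h1 : G * L ≤ (2 * K1 + 1) * (C * G * L) := by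
      calc G * L = 1 * (1 * G * L) := by ring
        _ ≤ (2 * K1 + 1) * (C * G * L) := by gcongr; omega
    omega
  · have hreal : 2 * (((2 * K1 + 1 : ℕ) : ℝ) * ((C : ℝ) * G * L)) ≤
        (D : ℝ) * (2 : ℝ) ^ (2 ^ (J - J / 20)) := by
      have hGL : (G : ℝ) * L ≤ D * exp σ := by
        have : (G : ℝ) * L = Q * exp σ := by rw [hQ]; field_simp
        rw [this]
        gcongr
      have hcst : 2 * ((2 * K1 + 1 : ℕ) : ℝ) * C ≤ (J : ℝ) := by exact_mod_cast hJK
      have hexp : (J : ℝ) * exp σ ≤ (2 : ℝ) ^ (2 ^ (J - J / 20)) := by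
        rw [← exp_log (by positivity : (0 : ℝ) < (2 : ℝ) ^ (2 ^ (J - J / 20))), Real.log_pow]
        calc (J : ℝ) * exp σ ≤ exp J * exp σ := by
              gcongr; linarith [Real.add_one_le_exp (J : ℝ)]
          _ = exp (J + σ) := (exp_add _ _).symm
          _ ≤ _ := by
              refine exp_le_exp.2 ?_
              have e : ((2 ^ (J - J / 20) : ℕ) : ℝ) = low J * (2 : ℝ) ^ (J / 20) := by
                push_cast
                rw [low, scale, div_mul_eq_mul_div, eq_div_iff (by positivity),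
                  show (4 : ℝ) = 2 ^ 2 by norm_num, ← pow_mul, ← pow_add, ← pow_add]
                congr 1
                omega
              rw [e]
              have h10 : 11 * (J : ℝ) * low J ≤ low J * (2 : ℝ) ^ (J / 20) * Real.log 2 := by
                have h11 : 11 * (J : ℝ) ≤ (2 : ℝ) ^ (J / 20) * Real.log 2 := by
                  nlinarith [Real.log_two_gt_d9]
                nlinarith
              have h12 : (J : ℝ) ≤ low J := by linarith
              nlinarith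
      calc 2 * (((2 * K1 + 1 : ℕ) : ℝ) * ((C : ℝ) * G * L))
          = 2 * ((2 * K1 + 1 : ℕ) : ℝ) * C * ((G : ℝ) * L) := by ring
        _ ≤ (J : ℝ) * ((D : ℝ) * exp σ) := by gcongr
        _ = (D : ℝ) * ((J : ℝ) * exp σ) := by ring
        _ ≤ _ := by gcongr
    exact_mod_cast hreal
  · intro r hr
    obtain ⟨l, h1, h2, h3, h4⟩ := hres r hr
    refine ⟨l, h1.trans ?_, fun d hd => (h2 d hd).trans (dvd_mul_left _ _), h3, h4⟩
    calc (2 * K1 + 1) * (C * k) ≤ (2 * K1 + 1) * (C * (4 * J)) := by gcongr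
      _ = (2 * K1 + 1) * (C * 4) * J := by ring
      _ ≤ _ := Nat.mul_le_mul_right _ (Nat.le_add_left _ _)

theorem core_exists : ∃ K J1, ∀ J, J1 ≤ J → CoreData K J := by
  obtain ⟨K, J0, hJ⟩ := tree_exists
  refine core_of_root (2 ^ cc) K J0 ?_ fun J h => ?_
  · calc 4000 ≤ 2 ^ 12 := by norm_num
      _ ≤ 2 ^ cc := Nat.pow_le_pow_right (by norm_num) (by simp only [cc]; norm_num)
  · obtain ⟨h1, h2, h3, h4⟩ := hJ J h
    refine ⟨_, _, _, h1, ?_, le_mul_of_one_le_left (low_pos J).le (one_le_pow₀ (by norm_num)),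
      mul_le_mul_of_nonneg_right h4 (low_pos J).le, by omega⟩
    exact_mod_cast h2

end Vale.Agent.P012
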