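import Mathlib

/- P012: scales. -/

namespace Vale.Agent.P012

open Real

/-- the scale `2 ^ J` as a real number. -/
noncomputable def scale (J : ℕ) : ℝ := (2 : ℝ) ^ J

/-- the bound on logarithms of the values. -/
noncomputable def top (J : ℕ) : ℝ := 12 * scale J

/-- the exponent profile. -/
noncomputable def phi (J : ℕ) (s : ℝ) : ℝ := s * (1 + Real.log (top J / s)) / J

/-- the lower end of the leaf range. -/
noncomputable def low (J : ℕ) : ℝ := scale J / (4 : ℝ) ^ (J / 20)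

theorem scale_pos (J : ℕ) : 0 < scale J := by unfold scale; positivity

theorem scale_eq_cast (J : ℕ) : scale J = ((2 ^ J : ℕ) : ℝ) := by simp [scale]

theorem low_ge (J : ℕ) : (2 : ℝ) ^ (J / 20) ≤ low J := by
  rw [low, scale, le_div_iff₀ (by positivity), show (4 : ℝ) = 2 ^ 2 by norm_num, ← pow_mul,
    ← pow_add]
  exact pow_le_pow_right₀ (by norm_num) (by omega)

theorem low_pos (J : ℕ) : 0 < low J := lt_of_lt_of_le (by positivity) (low_ge J)

/-- polynomials lose against exponentials. -/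
theorem grow (C : ℝ) (d : ℕ) :
    ∃ J0 : ℕ, ∀ J, J0 ≤ J → C * (J : ℝ) ^ d ≤ (2 : ℝ) ^ (J / 20) := by
  set C' := |C| * 20 ^ d with hC'
  have hC0 : 0 ≤ C' := by positivity
  have h := (tendsto_pow_const_div_const_pow_of_one_lt d
    (show (1 : ℝ) < 2 by norm_num)).eventually
    (eventually_le_nhds (show (0 : ℝ) < 1 / (2 * (C' + 1)) by positivity))
  obtain ⟨N, hN⟩ := Filter.eventually_atTop.1 h
  refine ⟨20 * (N + 1), fun J hJ => ?_⟩
  set m := J / 20 with hm
  have hJm : (J : ℝ) ≤ 20 * ((m + 1 : ℕ) : ℝ) := by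
    have : J ≤ 20 * (m + 1) := by omega
    exact_mod_cast this
  have h2 := hN (m + 1) (by omega)
  rw [div_le_div_iff₀ (by positivity) (by positivity), one_mul, pow_succ] at h2
  have h4 : (0 : ℝ) ≤ ((m + 1 : ℕ) : ℝ) ^ d := by positivity
  calc C * (J : ℝ) ^ d ≤ |C| * (J : ℝ) ^ d :=
        mul_le_mul_of_nonneg_right (le_abs_self C) (by positivity)
    _ ≤ |C| * (20 * ((m + 1 : ℕ) : ℝ)) ^ d := by gcongr
    _ = C' * ((m + 1 : ℕ) : ℝ) ^ d := by rw [hC', mul_pow]; ring
    _ ≤ (2 : ℝ) ^ m := by nlinarith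

end Vale.Agent.P012
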