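import Vale.Agent.P012.Pool
import Vale.Agent.P012.Params

/- P012: the bottom level, sums of two products of primes. -/

namespace Vale.Agent.P012

open Finset Real

/-- number of groups in chunk `j`. -/
def wj (J j : ℕ) : ℕ := 2 ^ J / (J * 4 ^ j) + 1

/-- size of each group in chunk `j`. -/
def mj (j : ℕ) : ℕ := 2 ^ (j + 1)

/-- first index of chunk `j`. -/
def stj (J off j : ℕ) : ℕ := off + ∑ l ∈ Finset.range j, wj J l * mj l

/-- groups. -/
abbrev GIdx (J : ℕ) : Type := Σ j : Fin (J / 20 + 1), Fin (wj J j)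

/-- elements of a group. -/
abbrev GEl (J : ℕ) (g : GIdx J) : Type := Fin (mj g.1)

/-- the index of a prime. -/
def idx (J off : ℕ) (g : GIdx J) (r : GEl J g) : ℕ := stj J off g.1 + (g.2 : ℕ) * mj g.1 + r

theorem mj_pos (j : ℕ) : 0 < mj j := by unfold mj; positivity

instance (J : ℕ) (g : GIdx J) : Nonempty (GEl J g) := ⟨⟨0, mj_pos _⟩⟩

theorem stj_succ (J off j : ℕ) : stj J off (j + 1) = stj J off j + wj J j * mj j := by
  unfold stj; rw [sum_range_succ]; ring

theorem stj_mono (J off : ℕ) {j k : ℕ} (h : j ≤ k) : stj J off j ≤ stj J off k := by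
  unfold stj
  gcongr

theorem inner_lt (J : ℕ) (g : GIdx J) (r : GEl J g) :
    (g.2 : ℕ) * mj g.1 + r < wj J g.1 * mj g.1 := by
  have h2 : ((g.2 : ℕ) + 1) * mj g.1 ≤ wj J g.1 * mj g.1 := Nat.mul_le_mul_right _ g.2.isLt
  have h1 := r.isLt
  rw [Nat.succ_mul] at h2
  omega

theorem idx_bounds (J off : ℕ) (g : GIdx J) (r : GEl J g) :
    stj J off g.1 ≤ idx J off g r ∧ idx J off g r < stj J off (g.1 + 1) := by
  rw [stj_succ]
  have := inner_lt J g r
  unfold idx
  omega

theorem idx_inj (J off : ℕ) (g : GIdx J) (r : GEl J g) (g' : GIdx J) (r' : GEl J g')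
    (h : idx J off g r = idx J off g' r') : g = g' ∧ HEq r r' := by
  obtain ⟨h1, h2⟩ := idx_bounds J off g r
  obtain ⟨h3, h4⟩ := idx_bounds J off g' r'
  rcases g with ⟨j, i⟩
  rcases g' with ⟨j', i'⟩
  simp only at h1 h2 h3 h4
  have hj : j = j' := by
    rcases lt_trichotomy (j : ℕ) (j' : ℕ) with hlt | heq | hgt
    · have := stj_mono J off (j := (j : ℕ) + 1) (k := (j' : ℕ)) hlt
      omega
    · exact Fin.ext heq
    · have := stj_mono J off (j := (j' : ℕ) + 1) (k := (j : ℕ)) hgt
      omega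
  subst hj
  simp only [idx] at h
  have h5 : (i : ℕ) * mj j + r = (i' : ℕ) * mj j + r' := by omega
  have hi : i = i' := by
    refine Fin.ext ?_
    have hr : (r : ℕ) < mj j := r.isLt
    have hr' : (r' : ℕ) < mj j := r'.isLt
    have e1 : ((i : ℕ) * mj j + r) / mj j = i := by
      rw [Nat.add_comm, Nat.add_mul_div_right _ _ (mj_pos _), Nat.div_eq_of_lt hr, zero_add]
    have e2 : ((i' : ℕ) * mj j + r') / mj j = i' := by
      rw [Nat.add_comm, Nat.add_mul_div_right _ _ (mj_pos _), Nat.div_eq_of_lt hr', zero_add]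
    rw [← e1, h5, e2]
  subst hi
  exact ⟨rfl, heq_of_eq (Fin.ext (by omega))⟩

theorem pr_mono : Monotone (Nat.nth Nat.Prime) := (Nat.nth_strictMono Nat.infinite_setOfPred_prime).monotone

/-- the pool starting at index `off`. -/
noncomputable def pool (J off : ℕ) : Pool (GIdx J) (GEl J) where
  p g r := Nat.nth Nat.Prime (idx J off g r)
  hp g r := Nat.prime_nth_prime _
  hinj g r g' r' h := idx_inj J off g r g' r'
    ((Nat.nth_strictMono Nat.infinite_setOfPred_prime).injective h)

/-- the smallest product. -/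
noncomputable def botv (J off : ℕ) : ℕ :=
  ∏ g : GIdx J, Nat.nth Nat.Prime (stj J off g.1 + (g.2 : ℕ) * mj g.1)

/-- the largest product. -/
noncomputable def topv (J off : ℕ) : ℕ :=
  ∏ g : GIdx J, Nat.nth Nat.Prime (stj J off g.1 + (g.2 : ℕ) * mj g.1 + (mj g.1 - 1))

theorem botv_le (J off : ℕ) (w : ∀ g, GEl J g) : botv J off ≤ (pool J off).val w :=
  prod_le_prod' fun g _ => pr_mono (Nat.le_add_right _ _)

theorem le_topv (J off : ℕ) (w : ∀ g, GEl J g) : (pool J off).val w ≤ topv J off :=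
  prod_le_prod' fun g _ => pr_mono (by
    have := (w g).isLt
    simp only [idx]
    omega)

theorem topv_mono (J : ℕ) {off off' : ℕ} (h : off ≤ off') : topv J off ≤ topv J off' :=
  prod_le_prod' fun g _ => pr_mono (by simp only [stj]; omega)

theorem botv_pos (J off : ℕ) : 0 < botv J off := prod_pos fun g _ => (Nat.prime_nth_prime _).pos

theorem tele (f : ℕ → ℕ) (w : ℕ) :
    (∏ i ∈ range w, f (i + 1)) * f 0 = (∏ i ∈ range w, f i) * f w := by
  rw [← prod_range_succ', prod_range_succ]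

theorem topv_mul_le (J off : ℕ) :
    topv J off * Nat.nth Nat.Prime off ≤
      botv J off * Nat.nth Nat.Prime (stj J off (J / 20 + 1)) := by
  set pr := Nat.nth Nat.Prime with hpr
  set g := fun j => pr (stj J off j) with hg
  set T := fun j => ∏ i ∈ range (wj J j), pr (stj J off j + i * mj j + (mj j - 1)) with hT
  set B := fun j => ∏ i ∈ range (wj J j), pr (stj J off j + i * mj j) with hB
  have hTB : ∀ j, T j * g j ≤ B j * g (j + 1) := by
    intro j
    have h := tele (fun i => pr (stj J off j + i * mj j)) (wj J j)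
    simp only [Nat.zero_mul, Nat.add_zero] at h
    simp only [hT, hg, hB]
    rw [stj_succ, ← h]
    refine Nat.mul_le_mul_right _ (prod_le_prod' fun i _ => pr_mono ?_)
    rw [Nat.succ_mul]
    omega
  have e1 : topv J off = ∏ j ∈ range (J / 20 + 1), T j := by
    rw [topv, Fintype.prod_sigma, ← Fin.prod_univ_eq_prod_range]
    refine prod_congr rfl fun j _ => ?_
    simp only [hT]
    exact Fin.prod_univ_eq_prod_range (fun i => pr (stj J off j + i * mj j + (mj j - 1))) _
  have e2 : botv J off = ∏ j ∈ range (J / 20 + 1), B j := by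
    rw [botv, Fintype.prod_sigma, ← Fin.prod_univ_eq_prod_range]
    refine prod_congr rfl fun j _ => ?_
    simp only [hB]
    exact Fin.prod_univ_eq_prod_range (fun i => pr (stj J off j + i * mj j)) _
  have hpos : 0 < ∏ j ∈ range (J / 20 + 1), g j := prod_pos fun j _ => (Nat.prime_nth_prime _).pos
  refine Nat.le_of_mul_le_mul_right ?_ hpos
  have h0 : g 0 = pr off := by simp [hg, stj]
  have h1 := tele g (J / 20 + 1)
  rw [h0] at h1
  calc topv J off * pr off * ∏ j ∈ range (J / 20 + 1), g j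
      = (∏ j ∈ range (J / 20 + 1), T j * g j) * pr off := by rw [prod_mul_distrib, e1]; ring
    _ ≤ (∏ j ∈ range (J / 20 + 1), B j * g (j + 1)) * pr off :=
        Nat.mul_le_mul_right _ (prod_le_prod' fun j _ => hTB j)
    _ = _ := by rw [prod_mul_distrib, mul_assoc, h1, e2, hg]; ring

/-- the chosen set of groups: the first `v` in chunk `j`. -/
def chosen (J : ℕ) (j : Fin (J / 20 + 1)) (v : ℕ) : Finset (GIdx J) :=
  (univ.filter fun i : Fin (wj J j) => (i : ℕ) < v).map
    ⟨Sigma.mk j, sigma_mk_injective⟩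

theorem chosen_card (J : ℕ) (j : Fin (J / 20 + 1)) {v : ℕ} (hv : v ≤ wj J j) :
    (chosen J j v).card = v := by
  rw [chosen, card_map]
  have : (univ.filter fun i : Fin (wj J j) => (i : ℕ) < v) =
      (univ : Finset (Fin v)).map (Fin.castLEEmb hv) := by
    ext i
    simp only [mem_filter, mem_univ, true_and, mem_map]
    constructor
    · intro h; exact ⟨⟨i, h⟩, rfl⟩
    · rintro ⟨a, rfl⟩; exact a.isLt
  rw [this, card_map, card_univ, Fintype.card_fin]

theorem chosen_prod (J : ℕ) (j : Fin (J / 20 + 1)) {v : ℕ} (hv : v ≤ wj J j) :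
    ∏ g ∈ chosen J j v, (1 / (Fintype.card (GEl J g) : ℝ)) =
      exp (-((v : ℝ) * ((j : ℕ) + 1) * Real.log 2)) := by
  rw [prod_congr rfl (g := fun _ => exp (-(((j : ℕ) + 1) * Real.log 2))) fun g hg => ?_]
  · rw [prod_const, chosen_card J j hv, ← exp_nat_mul]; ring_nf
  · simp only [chosen, mem_map] at hg
    obtain ⟨i, -, rfl⟩ := hg
    simp only [Function.Embedding.coeFn_mk, Fintype.card_fin, mj]
    rw [exp_neg, ← Nat.cast_succ, exp_nat_mul, exp_log two_pos]
    push_cast
    rw [one_div]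

theorem log_y_le {J : ℕ} (hJ : 14 ≤ J) : Real.log ((2 : ℝ) ^ (J + 6)) ≤ J := by
  rw [Real.log_pow]
  push_cast
  have h1 := Real.log_two_lt_d9
  have : (14 : ℝ) ≤ J := by exact_mod_cast hJ
  nlinarith

theorem count_bounds {J : ℕ} (hJ : 14 ≤ J) (hg : 100 * (J : ℝ) ^ 3 ≤ (2 : ℝ) ^ (J / 20)) :
    (stj J 0 (J / 20 + 1) : ℝ) * J ≤ 5 * scale J ∧
      (Fintype.card (GIdx J) : ℝ) * J ≤ 3 * scale J ∧
      2 * stj J 0 (J / 20 + 1) < Nat.count Nat.Prime (2 ^ (J + 6) + 1) := by
  have hJ' : (14 : ℝ) ≤ J := by exact_mod_cast hJ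
  set Jc := J / 20 with hJc
  have hn : scale J = ((2 : ℝ) ^ J) := rfl
  have h2 : (2 : ℝ) ^ Jc * (2 : ℝ) ^ Jc ≤ (2 : ℝ) ^ J := by
    rw [← pow_add]; exact pow_le_pow_right₀ (by norm_num) (by omega)
  have hw : ∀ j : ℕ, (wj J j : ℝ) * J ≤ scale J / 4 ^ j + J := by
    intro j
    unfold wj
    push_cast
    rw [add_mul, one_mul]
    gcongr
    calc (((2 ^ J / (J * 4 ^ j) : ℕ)) : ℝ) * J ≤ ((2 ^ J : ℕ) : ℝ) / ((J * 4 ^ j : ℕ) : ℝ) * J := by
          gcongr; exact Nat.cast_div_le
      _ = _ := by rw [← scale_eq_cast]; push_cast; field_simp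
  have hgeo := sum_geometric_two_le (Jc + 1)
  have h1 : (stj J 0 (Jc + 1) : ℝ) * J ≤ 5 * scale J := by
    unfold stj
    push_cast
    rw [zero_add, sum_mul]
    calc ∑ j ∈ range (Jc + 1), (wj J j : ℝ) * (mj j : ℝ) * J
        ≤ ∑ j ∈ range (Jc + 1), (scale J * 2 * (1 / 2 : ℝ) ^ j + J * 2 * 2 ^ Jc) := by
          refine sum_le_sum fun j hj => ?_
          have hm : (mj j : ℝ) = 2 * 2 ^ j := by simp [mj, pow_succ]; ring
          rw [hm, mul_right_comm]
          refine (mul_le_mul_of_nonneg_right (hw j) (by positivity)).trans ?_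
          rw [add_mul]
          refine add_le_add (le_of_eq ?_) ?_
          · rw [show (4 : ℝ) = 2 * 2 by norm_num, mul_pow, div_pow, one_pow]
            field_simp
          · rw [← mul_assoc]
            gcongr
            · norm_num
            · rw [mem_range] at hj; omega
      _ ≤ 5 * scale J := by
          rw [sum_add_distrib, ← mul_sum, sum_const, card_range, nsmul_eq_mul]
          push_cast
          have hc : (Jc : ℝ) + 1 ≤ J := by
            have : Jc + 1 ≤ J := by omega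
            exact_mod_cast this
          have h3 : ((Jc : ℝ) + 1) * (J * 2 * 2 ^ Jc) ≤ (2 : ℝ) ^ Jc * 2 ^ Jc := by
            have : ((Jc : ℝ) + 1) * (J * 2) ≤ (2 : ℝ) ^ Jc := by
              have := mul_le_mul_of_nonneg_right hc (show (0 : ℝ) ≤ J * 2 by positivity)
              have := pow_le_pow_right₀ (by linarith : (1 : ℝ) ≤ J) (by norm_num : 2 ≤ 3)
              nlinarith
            nlinarith [show (0 : ℝ) < (2 : ℝ) ^ Jc by positivity]
          have := scale_pos J
          rw [hn] at this ⊢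
          nlinarith
  have h3 : (Fintype.card (GIdx J) : ℝ) * J ≤ 3 * scale J := by
    rw [Fintype.card_sigma]
    push_cast
    simp only [Fintype.card_fin]
    rw [Fin.sum_univ_eq_sum_range (fun j => (wj J j : ℝ)), sum_mul]
    calc ∑ j ∈ range (Jc + 1), (wj J j : ℝ) * J
        ≤ ∑ j ∈ range (Jc + 1), (scale J * (1 / 2 : ℝ) ^ j + J) := by
          refine sum_le_sum fun j _ => (hw j).trans ?_
          gcongr
          rw [div_pow, one_pow, mul_one_div]
          have := scale_pos J
          gcongr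
          norm_num
      _ ≤ 3 * scale J := by
          rw [sum_add_distrib, ← mul_sum, sum_const, card_range, nsmul_eq_mul]
          push_cast
          have hc : (Jc : ℝ) + 1 ≤ J := by
            have : Jc + 1 ≤ J := by omega
            exact_mod_cast this
          rw [hn]
          have : (2 : ℝ) ^ Jc ≤ (2 : ℝ) ^ J := pow_le_pow_right₀ (by norm_num) (by omega)
          have hs := scale_pos J
          rw [hn] at hs
          have h5 : ((Jc : ℝ) + 1) * J ≤ (2 : ℝ) ^ Jc := by
            have := mul_le_mul_of_nonneg_right hc (show (0 : ℝ) ≤ (J : ℝ) by positivity)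
            have := pow_le_pow_right₀ (by linarith : (1 : ℝ) ≤ J) (by norm_num : 2 ≤ 3)
            nlinarith
          nlinarith
  refine ⟨h1, h3, ?_⟩
  have h4 := Chebyshev.pi_ge (2 ^ (J + 6))
  have hly := log_y_le hJ
  have hly0 : 0 < Real.log ((2 : ℝ) ^ (J + 6)) :=
    Real.log_pos (one_lt_pow₀ (by norm_num) (by omega))
  push_cast at h4
  rw [div_le_iff₀ hly0] at h4
  have hlog : Real.log ((2 : ℝ) ^ (J + 6) + 1) ≤ J + 1 := by
    calc Real.log ((2 : ℝ) ^ (J + 6) + 1) ≤ Real.log ((2 : ℝ) ^ (J + 6) * 2) := by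
          refine Real.log_le_log (by positivity) ?_
          nlinarith [one_le_pow₀ (show (1 : ℝ) ≤ 2 by norm_num) (n := J + 6)]
      _ = Real.log ((2 : ℝ) ^ (J + 6)) + Real.log 2 := Real.log_mul (by positivity) (by norm_num)
      _ ≤ J + 1 := by linarith [Real.log_two_lt_d9]
  have hkey : ((2 * stj J 0 (Jc + 1) : ℕ) : ℝ) < (Nat.primeCounting (2 ^ (J + 6)) : ℝ) := by
    by_contra hcon
    rw [not_lt] at hcon
    have e : (2 : ℝ) ^ (J + 6) = 64 * scale J := by rw [hn, pow_add]; ring
    push_cast at hcon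
    have h5 : (Nat.primeCounting (2 ^ (J + 6)) : ℝ) * Real.log ((2 : ℝ) ^ (J + 6)) ≤
        10 * scale J := by
      calc _ ≤ 2 * (stj J 0 (Jc + 1) : ℝ) * J := by gcongr
        _ ≤ _ := by linarith
    rw [e] at h4 h5 hlog
    have hJn : (J : ℝ) + 1 ≤ scale J := by
      rw [hn]
      have : J + 1 ≤ 2 ^ J := Nat.lt_two_pow_self
      exact_mod_cast this
    nlinarith [Real.log_two_gt_d9, scale_pos J]
  exact_mod_cast hkey

theorem idx_lt_end (J off : ℕ) (g : GIdx J) (r : GEl J g) :
    idx J off g r < stj J off (J / 20 + 1) :=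
  lt_of_lt_of_le (idx_bounds J off g r).2 (stj_mono J off (by have := g.1.isLt; omega))

/-- choice of chunk and of the number of groups. -/
theorem choice {J : ℕ} (hJ : 14 ≤ J) (hg : 100 * (J : ℝ) ^ 3 ≤ (2 : ℝ) ^ (J / 20)) {s : ℝ}
    (hs1 : low J ≤ s) (hs2 : s ≤ top J) :
    ∃ (j : Fin (J / 20 + 1)) (v : ℕ), v ≤ wj J j ∧ (v : ℝ) * J ≤ s / 6 ∧
      phi J s / 500 ≤ (v : ℝ) * ((j : ℕ) + 1) * Real.log 2 := by
  have hJ' : (14 : ℝ) ≤ J := by exact_mod_cast hJ
  have hn0 := scale_pos J
  have hl := low_ge J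
  have hs0 : 0 < s := lt_of_lt_of_le (low_pos J) hs1
  have hbig : 100 * (J : ℝ) ≤ s := by
    have := le_self_pow₀ (by linarith : (1 : ℝ) ≤ J) (by norm_num : 3 ≠ 0)
    linarith
  have hl2 := Real.log_two_gt_d9
  have hl2' := Real.log_two_lt_d9
  set u := min s (scale J) with hu
  have hu1 : 100 * (J : ℝ) ≤ u := le_min hbig (by
    have : (2 : ℝ) ^ (J / 20) ≤ scale J := pow_le_pow_right₀ (by norm_num) (by omega)
    linarith [le_self_pow₀ (by linarith : (1 : ℝ) ≤ J) (by norm_num : 3 ≠ 0)])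
  have hu0 : 0 < u := by linarith
  set v := ⌊u / (6 * J)⌋₊ with hv
  have hv1 : (v : ℝ) ≤ u / (6 * J) := Nat.floor_le (by positivity)
  have hv2 : u / (7 * J) ≤ (v : ℝ) := by
    have h := Nat.lt_floor_add_one (u / (6 * J))
    rw [← hv] at h
    have : u / (7 * J) + 1 ≤ u / (6 * J) := by
      field_simp
      linarith
    linarith
  set x := scale J / u with hx
  have hx1 : 1 ≤ x := by rw [hx, le_div_iff₀ hu0, one_mul]; exact min_le_right _ _
  have hx2 : x ≤ (4 : ℝ) ^ (J / 20) := by
    rw [hx, div_le_iff₀ hu0]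
    rcases min_choice s (scale J) with h | h
    · rw [hu, h]
      rw [low, div_le_iff₀ (by positivity)] at hs1
      linarith
    · rw [hu, h]
      nlinarith [one_le_pow₀ (show (1 : ℝ) ≤ 4 by norm_num) (n := J / 20)]
  set j := Nat.log 4 ⌊x⌋₊ with hj
  have hfx : ⌊x⌋₊ ≠ 0 := (Nat.floor_pos.2 hx1).ne'
  have hj1 : (4 : ℝ) ^ j ≤ x := by
    have : ((4 ^ j : ℕ) : ℝ) ≤ x :=
      le_trans (by exact_mod_cast Nat.pow_log_le_self 4 hfx) (Nat.floor_le (by linarith))
    exact_mod_cast this
  have hj2 : x < (4 : ℝ) ^ (j + 1) := by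
    have := Nat.lt_pow_succ_log_self (by norm_num : 1 < 4) ⌊x⌋₊
    have h' : x < ((4 ^ (j + 1) : ℕ) : ℝ) := by
      rw [← Nat.floor_lt (by linarith)]
      exact this
    exact_mod_cast h'
  have hjlt : j < J / 20 + 1 := by
    by_contra h
    rw [not_lt] at h
    have h1 := pow_le_pow_right₀ (show (1 : ℝ) ≤ 4 by norm_num) h
    have h2 : (4 : ℝ) ^ (J / 20) < (4 : ℝ) ^ (J / 20 + 1) :=
      pow_lt_pow_right₀ (by norm_num) (by omega)
    linarith
  refine ⟨⟨j, hjlt⟩, v, ?_, ?_, ?_⟩
  · have h1 : u / (6 * J) < ((2 ^ J / (J * 4 ^ j) : ℕ) : ℝ) + 1 := by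
      have h2 : u * (4 : ℝ) ^ j ≤ scale J := by
        rw [hx, le_div_iff₀ hu0] at hj1
        linarith
      have h3 : (2 ^ J : ℕ) < (2 ^ J / (J * 4 ^ j) + 1) * (J * 4 ^ j) := by
        have hpos : 0 < J * 4 ^ j := Nat.mul_pos (by omega) (by positivity)
        have := Nat.lt_mul_div_succ (2 ^ J) hpos
        linarith
      have h3' : scale J < (((2 ^ J / (J * 4 ^ j) : ℕ) : ℝ) + 1) * ((J : ℝ) * 4 ^ j) := by
        rw [scale_eq_cast]; exact_mod_cast h3
      rw [div_lt_iff₀ (by positivity)]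
      have h4 : u * (4 : ℝ) ^ j < (((2 ^ J / (J * 4 ^ j) : ℕ) : ℝ) + 1) * (6 * J) * 4 ^ j := by
        nlinarith [show (0 : ℝ) ≤ (((2 ^ J / (J * 4 ^ j) : ℕ) : ℝ) + 1) * ((J : ℝ) * 4 ^ j) by
          positivity]
      exact lt_of_mul_lt_mul_right h4 (by positivity)
    have h5 : (v : ℝ) < (wj J j : ℝ) := by
      unfold wj; push_cast; linarith
    exact_mod_cast h5.le
  · have : (v : ℝ) * J ≤ u / (6 * J) * J := by gcongr
    calc (v : ℝ) * J ≤ u / (6 * J) * J := this
      _ = u / 6 := by field_simp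
      _ ≤ s / 6 := by have := min_le_left s (scale J); linarith
  · simp only
    have hjx : Real.log x ≤ ((j : ℝ) + 1) * (2 * Real.log 2) := by
      have h1 := Real.log_le_log (by linarith) hj2.le
      rw [Real.log_pow, show (4 : ℝ) = 2 ^ 2 by norm_num, Real.log_pow] at h1
      push_cast at h1
      linarith
    have hlx0 : 0 ≤ Real.log x := Real.log_nonneg hx1
    have hj3 : 1 + Real.log x ≤ 3 * ((j : ℝ) + 1) := by
      nlinarith [show (0 : ℝ) ≤ (j : ℝ) by positivity]
    have hmain : phi J s ≤ 13 * (u * (1 + Real.log x)) / J := by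
      unfold phi top
      refine div_le_div_of_nonneg_right ?_ (Nat.cast_nonneg J)
      rcases min_choice s (scale J) with h | h
      · rw [hu, h] at hx
        rw [hu, h, mul_div_assoc 12, ← hx, Real.log_mul (by norm_num) (by linarith)]
        have : Real.log 12 ≤ 11 := by
          have := Real.log_le_sub_one_of_pos (show (0 : ℝ) < 12 by norm_num)
          linarith
        nlinarith
      · have h1 := Real.log_le_sub_one_of_pos (show 0 < 12 * scale J / s by positivity)
        have h2 : s * (1 + Real.log (12 * scale J / s)) ≤ 12 * scale J := by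
          have := mul_le_mul_of_nonneg_left h1 hs0.le
          rw [mul_sub, mul_one, mul_div_cancel₀ _ hs0.ne'] at this
          linarith
        rw [hu, h]
        nlinarith
    calc phi J s / 500 ≤ 13 * (u * (1 + Real.log x)) / J / 500 := by gcongr
      _ ≤ 13 * (u * (3 * ((j : ℝ) + 1))) / J / 500 := by gcongr
      _ ≤ u / (7 * J) * ((j : ℝ) + 1) * Real.log 2 := by
          field_simp
          nlinarith
      _ ≤ (v : ℝ) * ((j : ℝ) + 1) * Real.log 2 := by gcongr

theorem leaf_exists : ∃ J0 : ℕ, ∀ J, J0 ≤ J → ∃ (Z : RV) (M L : ℕ),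
    1 ≤ M ∧ 0 < L ∧ Real.log M ≤ 10 * scale J ∧ Real.log L ≤ 4 * scale J ∧
    (∀ ω, Z.Y ω ≤ L) ∧
    (∀ ω, ∃ l : List ℕ, l.length ≤ 2 ∧ (∀ d ∈ l, d ∣ M) ∧ l.sum = Z.Y ω) ∧
    (∀ q : ℕ, 0 < q → low J ≤ Real.log q → Real.log q ≤ top J →
      Z.P q ≤ exp (-(phi J (Real.log q) / 500))) ∧
    (∀ s, low J ≤ s → s ≤ top J → Z.I L s ≤ exp (-(phi J s / 500))) ∧
    Z.P0 ≤ exp (-(scale J / (2 * J))) := by
  obtain ⟨J0, hJ0⟩ := grow 100 3
  refine ⟨max J0 14, fun J hJJ => ?_⟩
  have hJ : 14 ≤ J := le_of_max_le_right hJJ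
  have hg := hJ0 J (le_of_max_le_left hJJ)
  obtain ⟨hN, hW, hcount⟩ := count_bounds hJ hg
  have hJ' : (14 : ℝ) ≤ J := by exact_mod_cast hJ
  have hly := log_y_le hJ
  have hl2 := Real.log_two_gt_d9
  have hl2' := Real.log_two_lt_d9
  set y := 2 ^ (J + 6) with hy
  have hyr : (y : ℝ) = (2 : ℝ) ^ (J + 6) := by simp [hy]
  set Nt := stj J 0 (J / 20 + 1) with hNt
  have hend : stj J Nt (J / 20 + 1) = 2 * Nt := by
    rw [hNt]; simp only [stj, Nat.zero_add]; ring
  have hpy : ∀ k, k ≤ 2 * Nt → Nat.nth Nat.Prime k ≤ y := fun k hk =>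
    Nat.lt_succ_iff.1 (Nat.nth_lt_of_lt_count (lt_of_le_of_lt hk hcount))
  set P1 := pool J 0 with hP1
  set P2 := pool J Nt with hP2
  have hy1 : ∀ g r, P1.p g r ≤ y := fun g r =>
    hpy _ (by have := idx_lt_end J 0 g r; omega)
  have hy2 : ∀ g r, P2.p g r ≤ y := fun g r =>
    hpy _ (by have := idx_lt_end J Nt g r; omega)
  have hcard : ∑ g : GIdx J, Fintype.card (GEl J g) = Nt := by
    rw [hNt, stj, Fintype.sum_sigma, ← Fin.sum_univ_eq_sum_range, Nat.zero_add]
    simp
  set L := 2 * topv J Nt with hL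
  have htot : ∀ off, (∀ g r, (pool J off).p g r ≤ y) → (pool J off).total ≤ y ^ Nt := by
    intro off h
    rw [← hcard, ← prod_pow_eq_pow_sum]
    exact prod_le_prod' fun g _ => (prod_le_pow_card _ _ _ fun r _ => h g r).trans_eq (by simp)
  have htop : topv J Nt ≤ y ^ Fintype.card (GIdx J) := by
    refine (prod_le_pow_card _ _ _ fun g _ => hpy _ ?_).trans_eq (by simp)
    have := idx_lt_end J Nt g ⟨mj g.1 - 1, by have := mj_pos g.1; omega⟩
    simp only [idx] at this
    omega
  have htb : topv J Nt ≤ botv J Nt * y := by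
    refine le_trans ?_ ((topv_mul_le J Nt).trans (Nat.mul_le_mul_left _ (hpy _ hend.le)))
    exact Nat.le_mul_of_pos_right _ (Nat.prime_nth_prime _).pos
  refine ⟨pair P1.val P2.val, P1.total * P2.total, L,
    Nat.one_le_iff_ne_zero.2 (Nat.mul_ne_zero P1.total_pos.ne' P2.total_pos.ne'),
    by
      have h : 0 < topv J Nt :=
        lt_of_lt_of_le (botv_pos J Nt) ((botv_le J Nt fun g => ⟨0, mj_pos _⟩).trans
          (le_topv J Nt _))
      omega, ?_, ?_, ?_, ?_, ?_, ?_, ?_⟩
  · have h1 : ((P1.total * P2.total : ℕ) : ℝ) ≤ (y : ℝ) ^ (2 * Nt) := by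
      have : P1.total * P2.total ≤ y ^ Nt * y ^ Nt := Nat.mul_le_mul (htot 0 hy1) (htot Nt hy2)
      rw [two_mul, pow_add]
      exact_mod_cast this
    refine (Real.log_le_log (by exact_mod_cast Nat.mul_pos P1.total_pos P2.total_pos) h1).trans ?_
    rw [Real.log_pow, hyr]
    push_cast
    nlinarith
  · have h1 : (L : ℝ) ≤ 2 * (y : ℝ) ^ Fintype.card (GIdx J) := by
      have : L ≤ 2 * y ^ Fintype.card (GIdx J) := by omega
      exact_mod_cast this
    have hL0 : (0 : ℝ) < L := by
      have : 0 < L := by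
        have h : 0 < topv J Nt :=
          lt_of_lt_of_le (botv_pos J Nt) ((botv_le J Nt fun g => ⟨0, mj_pos _⟩).trans
            (le_topv J Nt _))
        omega
      exact_mod_cast this
    refine (Real.log_le_log hL0 h1).trans ?_
    rw [Real.log_mul (by norm_num) (by rw [hyr]; positivity), Real.log_pow, hyr]
    have hn1 : (1 : ℝ) ≤ scale J := one_le_pow₀ (by norm_num)
    nlinarith
  · intro ω
    have h1 := le_topv J 0 ω.1
    have h2 := le_topv J Nt ω.2
    have h3 := topv_mono J (Nat.zero_le Nt)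
    change P1.val ω.1 + P2.val ω.2 ≤ L
    rw [hP1, hP2, hL]
    omega
  · intro ω
    refine ⟨[P1.val ω.1, P2.val ω.2], le_rfl, ?_, by simp [pair]⟩
    intro d hd
    simp only [List.mem_cons, List.not_mem_nil, or_false] at hd
    rcases hd with rfl | rfl
    · exact (P1.val_dvd_total _).trans (dvd_mul_right _ _)
    · exact (P2.val_dvd_total _).trans (dvd_mul_left _ _)
  · intro q hq hlo hhi
    set s := Real.log q with hs
    obtain ⟨j, v, hv1, hv2, hv3⟩ := choice hJ hg hlo hhi
    have hs0 : 0 < s := lt_of_lt_of_le (low_pos J) hlo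
    refine le_trans (pair_event P1.val P2.val (fun z => (q : ℤ) ∣ z)
      (exp_pos (-((v : ℝ) * ((j : ℕ) + 1) * Real.log 2))).le ?_) (exp_le_exp.2 (by linarith))
    have hcop : Nat.Coprime P1.total P2.total := by
      refine Nat.Coprime.prod_left fun g _ => Nat.Coprime.prod_left fun r _ =>
        Nat.Coprime.prod_right fun g' _ => Nat.Coprime.prod_right fun r' _ => ?_
      refine (Nat.coprime_primes (P1.hp g r) (P2.hp g' r')).2 fun h => ?_
      have h1 := (Nat.nth_strictMono Nat.infinite_setOfPred_prime).injective h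
      have h2 := idx_lt_end J 0 g r
      have h3 := (idx_bounds J Nt g' r').1
      have h4 : Nt ≤ stj J Nt g'.1 := Nat.le_add_right _ _
      omega
    set g1 := Nat.gcd q P1.total with hg1
    set g2 := Nat.gcd q P2.total with hg2
    have hgg : g1 * g2 ≤ q := Nat.le_of_dvd hq
      (Nat.Coprime.mul_dvd_of_dvd_of_dvd
        ((hcop.coprime_dvd_left (Nat.gcd_dvd_right _ _)).coprime_dvd_right (Nat.gcd_dvd_right _ _))
        (Nat.gcd_dvd_left _ _) (Nat.gcd_dvd_left _ _))
    have hsmall : ∀ g : ℕ, 0 < g → g * g ≤ q → y ^ v * g < q := by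
      intro g hg0 hg'
      have h2 : 2 * Real.log g ≤ s := by
        rw [two_mul, ← Real.log_mul (by exact_mod_cast hg0.ne') (by exact_mod_cast hg0.ne')]
        refine Real.log_le_log (by positivity) ?_
        exact_mod_cast hg'
      have hvy : (v : ℝ) * Real.log ((2 : ℝ) ^ (J + 6)) ≤ s / 6 :=
        le_trans (mul_le_mul_of_nonneg_left hly (by positivity)) hv2
      have hposl : (0 : ℝ) < (y : ℝ) ^ v * g := by
        rw [hyr]; have : (0 : ℝ) < g := by exact_mod_cast hg0
        positivity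
      have h3 : Real.log ((y : ℝ) ^ v * g) < Real.log q := by
        rw [Real.log_mul (by rw [hyr]; positivity) (by exact_mod_cast hg0.ne'), Real.log_pow, hyr,
          ← hs]
        linarith
      have h4 := (Real.log_lt_log_iff hposl (by exact_mod_cast hq)).1 h3
      exact_mod_cast h4
    rcases Nat.le_total g1 g2 with h | h
    · refine Or.inl fun c => ?_
      have h1 : g1 * g1 ≤ q := le_trans (Nat.mul_le_mul_left _ h) hgg
      refine (P1.mod_event hy1 (chosen J j v) (q := q) ?_ c).trans_eq (chosen_prod J j hv1)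
      rw [chosen_card J j hv1]
      exact hsmall g1 (Nat.gcd_pos_of_pos_left _ hq) h1
    · refine Or.inr fun c => ?_
      have h1 : g2 * g2 ≤ q := le_trans (Nat.mul_le_mul_right _ h) hgg
      refine (P2.mod_event hy2 (chosen J j v) (q := q) ?_ c).trans_eq (chosen_prod J j hv1)
      rw [chosen_card J j hv1]
      exact hsmall g2 (Nat.gcd_pos_of_pos_left _ hq) h1
  · intro s hlo hhi
    obtain ⟨j, v, hv1, hv2, hv3⟩ := choice hJ hg hlo hhi
    have hs0 : 0 < s := lt_of_lt_of_le (low_pos J) hlo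
    refine le_trans (pair_event P1.val P2.val (fun z => |(z : ℝ)| * exp s ≤ L)
      (exp_pos (-((v : ℝ) * ((j : ℕ) + 1) * Real.log 2))).le (Or.inr fun c => ?_))
      (exp_le_exp.2 (by linarith))
    refine le_trans (avg_mono fun w => ind_mono fun h => ?_)
      ((P2.interval_event hy2 (chosen J j v) (A := botv J Nt) (botv_le J Nt)
        (X := (L : ℝ) / exp s) ?_ c).trans_eq (chosen_prod J j hv1))
    · exact (le_div_iff₀ (exp_pos _)).2 h
    · rw [chosen_card J j hv1]
      have hbot : (0 : ℝ) < (botv J Nt : ℝ) := by exact_mod_cast botv_pos J Nt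
      have hLb : (L : ℝ) ≤ 2 * (botv J Nt * y) := by
        have : L ≤ 2 * (botv J Nt * y) := by omega
        exact_mod_cast this
      have hkey : 4 * (y : ℝ) ^ (v + 1) < exp s := by
        have hpos : (0 : ℝ) < 4 * (y : ℝ) ^ (v + 1) := by rw [hyr]; positivity
        rw [← exp_log hpos]
        refine exp_lt_exp.2 ?_
        rw [Real.log_mul (by norm_num) (by rw [hyr]; positivity), Real.log_pow, hyr]
        have h4 : Real.log 4 ≤ 2 := by
          rw [show (4 : ℝ) = 2 ^ 2 by norm_num, Real.log_pow]; push_cast; linarith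
        have hbig : 100 * (J : ℝ) ≤ s := by
          have := le_self_pow₀ (by linarith : (1 : ℝ) ≤ J) (by norm_num : 3 ≠ 0)
          linarith [low_ge J]
        have := mul_le_mul_of_nonneg_left hly (show (0 : ℝ) ≤ v by positivity)
        push_cast
        nlinarith
      calc 2 * ((L : ℝ) / exp s) * (y : ℝ) ^ v
          ≤ 2 * (2 * (botv J Nt * y) / exp s) * (y : ℝ) ^ v := by gcongr
        _ = (botv J Nt : ℝ) * (4 * (y : ℝ) ^ (v + 1)) / exp s := by field_simp; ring
        _ < (botv J Nt : ℝ) := by rw [div_lt_iff₀ (exp_pos _)]; gcongr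
  · set j0 : Fin (J / 20 + 1) := ⟨0, Nat.succ_pos _⟩ with hj0
    refine le_trans (pair_event P1.val P2.val (fun z => z = 0)
      (exp_pos (-((wj J j0 : ℝ) * ((j0 : ℕ) + 1) * Real.log 2))).le (Or.inr fun c => ?_)) ?_
    · refine le_trans (avg_mono fun w => ind_mono fun h => ?_)
        ((P2.interval_event hy2 (chosen J j0 (wj J j0)) (A := botv J Nt) (botv_le J Nt)
          (X := 0) ?_ c).trans_eq (chosen_prod J j0 le_rfl))
      · simp [h]
      · simp only [mul_zero, zero_mul]
        exact_mod_cast botv_pos J Nt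
    · refine exp_le_exp.2 ?_
      have h1 : scale J / J < (wj J j0 : ℝ) := by
        rw [div_lt_iff₀ (by linarith), scale_eq_cast]
        have : 2 ^ J < (2 ^ J / (J * 4 ^ 0) + 1) * J := by
          rw [pow_zero, mul_one, Nat.mul_comm]
          exact Nat.lt_mul_div_succ _ (by omega)
        simp only [wj, hj0]
        exact_mod_cast this
      simp only [hj0, Nat.cast_zero, zero_add, mul_one] at h1 ⊢
      have h2 : scale J / (2 * J) = scale J / J * (1 / 2) := by field_simp
      rw [h2]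
      have h3 : 0 ≤ scale J / J := div_nonneg (scale_pos J).le (Nat.cast_nonneg _)
      nlinarith

end Vale.Agent.P012
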