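import Vale.Agent.P012.Avg

/- P012: random linear forms modulo an integer and in short intervals. -/

namespace Vale.Agent.P012

open Finset

/-- the value of the linear form with coefficients `μ j + 1`. -/
def lin {C G : ℕ} (μ : Fin C → Fin G) (Δ : Fin C → ℤ) : ℤ := ∑ j, ((μ j : ℕ) + 1 : ℤ) * Δ j

/-- the gcd of `q` and all the entries. -/
def gq {C : ℕ} (q : ℕ) (Δ : Fin C → ℤ) : ℕ := Nat.gcd q (univ.gcd fun j => (Δ j).natAbs)

theorem gq_dvd_left {C : ℕ} (q : ℕ) (Δ : Fin C → ℤ) : gq q Δ ∣ q := Nat.gcd_dvd_left _ _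

theorem gq_dvd {C : ℕ} (q : ℕ) (Δ : Fin C → ℤ) (j : Fin C) : (gq q Δ : ℤ) ∣ Δ j :=
  Int.natCast_dvd.2 ((Nat.gcd_dvd_right _ _).trans (Finset.gcd_dvd (mem_univ j)))

theorem dvd_gq {C : ℕ} {q d : ℕ} {Δ : Fin C → ℤ} (h1 : d ∣ q) (h2 : ∀ j, (d : ℤ) ∣ Δ j) :
    d ∣ gq q Δ :=
  Nat.dvd_gcd h1 (Finset.dvd_gcd fun j _ => Int.natCast_dvd.1 (h2 j))

theorem gq_pos {C : ℕ} {q : ℕ} (hq : 0 < q) (Δ : Fin C → ℤ) : 0 < gq q Δ :=
  Nat.pos_of_dvd_of_pos (gq_dvd_left q Δ) hq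

theorem one_coord {G g' : ℕ} (hg : 0 < g') (hG : 0 < G) (c d : ℤ) :
    avg (fun a : Fin G => ind ((g' : ℤ) ∣ c + ((a : ℕ) + 1 : ℤ) * d)) ≤
      1 / (G : ℝ) + ((Int.gcd g' d : ℕ) : ℝ) / g' := by
  classical
  set g := Int.gcd g' d with hgdef
  have hgg : g ∣ g' := by
    have := Int.gcd_dvd_left (g' : ℤ) d
    exact_mod_cast this
  have hg0 : 0 < g := Nat.pos_of_dvd_of_pos hgg hg
  obtain ⟨h, hh⟩ := hgg
  have hh0 : 0 < h := Nat.pos_of_mul_pos_left (hh ▸ hg)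
  set S := univ.filter fun a : Fin G => (g' : ℤ) ∣ c + ((a : ℕ) + 1 : ℤ) * d with hS
  obtain ⟨d', hd'⟩ : (g : ℤ) ∣ d := Int.gcd_dvd_right _ _
  have hcop : IsCoprime (h : ℤ) d' := by
    rw [Int.isCoprime_iff_gcd_eq_one]
    have h1 : g * Int.gcd h d' = g * 1 := by
      rw [mul_one]
      conv_rhs => rw [hgdef, hh, hd']
      push_cast
      rw [Int.gcd_mul_left, Int.natAbs_natCast]
    exact Nat.eq_of_mul_eq_mul_left hg0 h1
  have hinj : Set.InjOn (fun a : Fin G => (a : ℕ) / h) S := by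
    intro a ha b hb hab
    simp only [hS, coe_filter, mem_univ, true_and, Set.mem_ofPred_eq] at ha hb
    have h1 : (g' : ℤ) ∣ (((a : ℕ) : ℤ) - ((b : ℕ) : ℤ)) * d := by
      rw [show (((a : ℕ) : ℤ) - ((b : ℕ) : ℤ)) * d =
        (c + ((a : ℕ) + 1 : ℤ) * d) - (c + ((b : ℕ) + 1 : ℤ) * d) by ring]
      exact dvd_sub ha hb
    rw [hd', show ((g' : ℕ) : ℤ) = (g : ℤ) * h by exact_mod_cast hh] at h1
    rw [show (((a : ℕ) : ℤ) - ((b : ℕ) : ℤ)) * ((g : ℤ) * d') =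
      (g : ℤ) * ((((a : ℕ) : ℤ) - ((b : ℕ) : ℤ)) * d') by ring] at h1
    have h2 := hcop.dvd_of_dvd_mul_right (Int.dvd_of_mul_dvd_mul_left (by positivity) h1)
    have h3 : (b : ℕ) ≡ (a : ℕ) [MOD h] := Nat.modEq_iff_dvd.2 h2
    have e1 := Nat.div_add_mod (a : ℕ) h
    have e2 := Nat.div_add_mod (b : ℕ) h
    simp only at hab
    rw [hab] at e1
    rw [Nat.ModEq] at h3
    exact Fin.ext (by omega)
  have hc : S.card ≤ G / h + 1 := by
    refine (card_le_card_of_injOn (fun a : Fin G => (a : ℕ) / h) (fun a _ => ?_) hinj).trans_eq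
      (card_range _)
    simp only [mem_range, mem_coe]
    have : (a : ℕ) / h ≤ G / h := Nat.div_le_div_right a.isLt.le
    omega
  unfold avg
  rw [sum_ind, Fintype.card_fin, div_le_iff₀ (by exact_mod_cast hG)]
  calc (S.card : ℝ) ≤ ((G / h : ℕ) : ℝ) + 1 := by exact_mod_cast hc
    _ ≤ (G : ℝ) / h + 1 := by gcongr; exact Nat.cast_div_le
    _ = (1 / (G : ℝ) + (g : ℝ) / g') * G := by
      rw [hh]
      push_cast
      field_simp
      ring

theorem gq_succ {C : ℕ} (q : ℕ) (Δ : Fin (C + 1) → ℤ) :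
    gq q Δ = Int.gcd (gq q (Fin.tail Δ)) (Δ 0) := by
  refine Nat.dvd_antisymm ?_ ?_
  · refine Int.dvd_gcd ?_ (gq_dvd q Δ 0)
    exact Int.natCast_dvd_natCast.2
      (dvd_gq (gq_dvd_left q Δ) fun j => gq_dvd q Δ j.succ)
  · refine dvd_gq ?_ ?_
    · exact (Int.natCast_dvd_natCast.1 (Int.gcd_dvd_left _ _)).trans (gq_dvd_left _ _)
    · refine Fin.cases ?_ ?_
      · exact Int.gcd_dvd_right _ _
      · intro j
        exact (Int.gcd_dvd_left _ _).trans (gq_dvd q (Fin.tail Δ) j)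

theorem lin_cons {C G : ℕ} (a : Fin G) (w : Fin C → Fin G) (Δ : Fin (C + 1) → ℤ) :
    lin (Fin.cons a w) Δ = ((a : ℕ) + 1 : ℤ) * Δ 0 + lin w (Fin.tail Δ) := by
  simp [lin, Fin.sum_univ_succ, Fin.tail]

/-- The linear form lemma. -/
theorem linear_form {G : ℕ} (hG : 0 < G) : ∀ (C q : ℕ), 0 < q → ∀ (Δ : Fin C → ℤ) (c : ℤ),
    avg (fun μ : Fin C → Fin G => ind ((q : ℤ) ∣ c + lin μ Δ)) ≤
      2 ^ C * (1 / (G : ℝ) + (gq q Δ : ℝ) / q) := by
  intro C
  induction C with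
  | zero =>
    intro q hq Δ c
    have hg : gq q Δ = q := Nat.dvd_antisymm (gq_dvd_left q Δ)
      (dvd_gq dvd_rfl fun j => j.elim0)
    have hq1 : (gq q Δ : ℝ) / q = 1 := by
      rw [hg]; exact div_self (by exact_mod_cast hq.ne')
    rw [hq1, pow_zero, one_mul]
    refine (avg_le_of_le zero_le_one fun μ => ind_le_one _).trans ?_
    have : (0 : ℝ) ≤ 1 / G := by positivity
    linarith
  | succ C ih =>
    intro q hq Δ c
    set g' := gq q (Fin.tail Δ) with hg'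
    have hg'0 : 0 < g' := gq_pos hq _
    rw [avg_fin_succ]
    have hpt : ∀ a : Fin G,
        avg (fun w : Fin C → Fin G => ind ((q : ℤ) ∣ c + lin (Fin.cons a w : Fin (C + 1) → Fin G) Δ))
          ≤ 2 ^ C * (1 / (G : ℝ)) +
            2 ^ C * ((g' : ℝ) / q) * ind ((g' : ℤ) ∣ c + ((a : ℕ) + 1 : ℤ) * Δ 0) := by
      intro a
      by_cases h : (g' : ℤ) ∣ c + ((a : ℕ) + 1 : ℤ) * Δ 0
      · rw [ind_pos h, mul_one, ← mul_add]
        refine le_trans (le_of_eq ?_) (ih q hq (Fin.tail Δ) (c + ((a : ℕ) + 1 : ℤ) * Δ 0))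
        refine avg_congr fun w => ind_congr ?_
        rw [lin_cons, add_assoc]
      · rw [ind_neg h, mul_zero, add_zero]
        refine avg_le_of_le (by positivity) fun w => ?_
        rw [ind_neg]
        · positivity
        · intro hd
          apply h
          have h1 : (g' : ℤ) ∣ c + lin (Fin.cons a w : Fin (C + 1) → Fin G) Δ :=
            (Int.natCast_dvd_natCast.2 (gq_dvd_left q _)).trans hd
          have h2 : (g' : ℤ) ∣ lin w (Fin.tail Δ) :=
            dvd_sum fun j _ => dvd_mul_of_dvd_right (gq_dvd q _ j) _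
          have h3 := dvd_sub h1 h2
          rw [lin_cons] at h3
          rw [show c + ((a : ℕ) + 1 : ℤ) * Δ 0 =
            c + (((a : ℕ) + 1 : ℤ) * Δ 0 + lin w (Fin.tail Δ)) - lin w (Fin.tail Δ) by ring]
          exact h3
    refine (avg_mono hpt).trans ?_
    have : Nonempty (Fin G) := ⟨⟨0, hG⟩⟩
    rw [avg_add, avg_const, avg_mul_left]
    refine (add_le_add_right (mul_le_mul_of_nonneg_left
      (one_coord hg'0 hG c (Δ 0)) (show (0 : ℝ) ≤ 2 ^ C * ((g' : ℝ) / q) by positivity)) _).trans ?_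
    rw [← gq_succ]
    have hq' : (0 : ℝ) < q := by exact_mod_cast hq
    have hg'r : (0 : ℝ) < g' := by exact_mod_cast hg'0
    have hle : (g' : ℝ) / q ≤ 1 := by
      rw [div_le_one hq']
      exact_mod_cast Nat.le_of_dvd hq (gq_dvd_left q _)
    have e : (2 : ℝ) ^ C * ((g' : ℝ) / q) * (1 / (G : ℝ) + (gq q Δ : ℝ) / g') =
        2 ^ C * (1 / (G : ℝ)) * ((g' : ℝ) / q) + 2 ^ C * ((gq q Δ : ℝ) / q) := by
      field_simp
    rw [e, pow_succ]
    have h1 : 2 ^ C * (1 / (G : ℝ)) * ((g' : ℝ) / q) ≤ 2 ^ C * (1 / (G : ℝ)) :=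
      mul_le_of_le_one_right (by positivity) hle
    have h2 : (0 : ℝ) ≤ 2 ^ C * ((gq q Δ : ℝ) / q) := by positivity
    nlinarith

theorem lin_insertNth {C G : ℕ} (p : Fin (C + 1)) (a : Fin G) (w : Fin C → Fin G)
    (Δ : Fin (C + 1) → ℤ) :
    lin (Fin.insertNth p a w) Δ =
      ((a : ℕ) + 1 : ℤ) * Δ p + lin w (fun j => Δ (p.succAbove j)) := by
  simp [lin, Fin.sum_univ_succAbove _ p]

/-- A prescribed value, with one distinguished coordinate. -/
theorem linear_form_eq {G C : ℕ} (hG : 0 < G) (Δ : Fin (C + 1) → ℤ) (p : Fin (C + 1))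
    (hp : Δ p ≠ 0) (c : ℤ) :
    avg (fun μ : Fin (C + 1) → Fin G => ind (lin μ Δ = c)) ≤
      (1 / (G : ℝ)) * (2 ^ (C + 1) *
        (1 / (G : ℝ) + (gq (Δ p).natAbs Δ : ℝ) / (Δ p).natAbs)) := by
  have : Nonempty (Fin G) := ⟨⟨0, hG⟩⟩
  refine le_trans ?_ (mul_le_mul_of_nonneg_left
    (linear_form hG (C + 1) (Δ p).natAbs (Int.natAbs_pos.2 hp) Δ (-c)) (by positivity))
  rw [avg_insertNth p, avg_insertNth p (fun μ => ind _), ← avg_mul_left]
  refine avg_mono fun w => ?_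
  set r := lin w (fun j => Δ (p.succAbove j)) with hr
  by_cases h : ∃ a : Fin G, lin (Fin.insertNth p a w : Fin (C + 1) → Fin G) Δ = c
  · obtain ⟨a₀, ha₀⟩ := h
    have h1 : avg (fun a : Fin G => ind (lin (Fin.insertNth p a w : Fin (C + 1) → Fin G) Δ = c))
        ≤ 1 / (G : ℝ) := by
      classical
      unfold avg
      rw [sum_ind, Fintype.card_fin]
      gcongr
      exact_mod_cast card_le_one.2 fun a ha b hb => by
        rw [mem_filter, lin_insertNth] at ha hb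
        have : (((a : ℕ) : ℤ) - ((b : ℕ) : ℤ)) * Δ p = 0 := by linear_combination ha.2 - hb.2
        rcases mul_eq_zero.1 this with h | h
        · exact Fin.ext (by omega)
        · exact absurd h hp
    refine h1.trans (le_mul_of_one_le_right (by positivity) ?_)
    rw [← avg_const (α := Fin G) (1 : ℝ)]
    refine avg_mono fun a => le_of_eq (ind_pos ?_).symm
    rw [Int.natAbs_dvd, lin_insertNth]
    refine ⟨((a : ℕ) : ℤ) - ((a₀ : ℕ) : ℤ), ?_⟩
    rw [lin_insertNth] at ha₀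
    linear_combination ha₀
  · refine (avg_le_of_le le_rfl fun a => ?_).trans ?_
    · rw [ind_neg fun h' => h ⟨a, h'⟩]
    · exact mul_nonneg (by positivity) (avg_nonneg fun a => ind_nonneg _)

/-- A short interval, with one distinguished coordinate. -/
theorem linear_form_interval {G C : ℕ} (hG : 0 < G) (Δ : Fin (C + 1) → ℤ) (p : Fin (C + 1))
    (hp : Δ p ≠ 0) (X : ℝ) (hX : 0 ≤ X) :
    avg (fun μ : Fin (C + 1) → Fin G => ind (|(lin μ Δ : ℝ)| ≤ X)) ≤
      2 * X / (G * |(Δ p : ℝ)|) + 1 / (G : ℝ) := by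
  classical
  rw [avg_insertNth p]
  refine avg_le_of_le (by positivity) fun w => ?_
  unfold avg
  rw [sum_ind, Fintype.card_fin]
  set S := univ.filter fun a : Fin G =>
    |(lin (Fin.insertNth p a w : Fin (C + 1) → Fin G) Δ : ℝ)| ≤ X with hS
  have hd : (0 : ℝ) < |(Δ p : ℝ)| := abs_pos.2 (by exact_mod_cast hp)
  rcases S.eq_empty_or_nonempty with h | h
  · rw [h]; simp only [card_empty, Nat.cast_zero, zero_div]; positivity
  obtain ⟨a₀, ha₀, hmin⟩ := exists_min_image S (fun a : Fin G => (a : ℕ)) h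
  have hsub : ∀ a ∈ S, (a : ℕ) - (a₀ : ℕ) ≤ ⌊2 * X / |(Δ p : ℝ)|⌋₊ := by
    intro a ha
    refine Nat.le_floor ?_
    rw [Nat.cast_sub (hmin a ha), le_div_iff₀ hd]
    have h1 := (mem_filter.1 ha).2
    have h2 := (mem_filter.1 ha₀).2
    rw [lin_insertNth] at h1 h2
    push_cast at h1 h2
    have hnn : (0 : ℝ) ≤ ((a : ℕ) : ℝ) - ((a₀ : ℕ) : ℝ) := by
      have : ((a₀ : ℕ) : ℝ) ≤ ((a : ℕ) : ℝ) := by exact_mod_cast hmin a ha
      linarith
    rw [← abs_of_nonneg hnn, ← abs_mul]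
    refine abs_le.2 ⟨?_, ?_⟩ <;>
      nlinarith [abs_le.1 h1, abs_le.1 h2]
  have hc : S.card ≤ ⌊2 * X / |(Δ p : ℝ)|⌋₊ + 1 := by
    refine (card_le_card_of_injOn (fun a : Fin G => (a : ℕ) - (a₀ : ℕ)) (fun a ha => ?_)
      ?_).trans_eq (card_range _)
    · simp only [mem_coe, mem_range]; have := hsub a ha; omega
    · intro a ha b hb hab
      simp only at hab
      have := hmin a ha
      have := hmin b hb
      exact Fin.ext (by omega)
  rw [div_le_iff₀ (by exact_mod_cast hG)]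
  calc (S.card : ℝ) ≤ (⌊2 * X / |(Δ p : ℝ)|⌋₊ : ℝ) + 1 := by exact_mod_cast hc
    _ ≤ 2 * X / |(Δ p : ℝ)| + 1 := by gcongr; exact Nat.floor_le (by positivity)
    _ = _ := by field_simp

end Vale.Agent.P012
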