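import Vale.Agent.P012.RV

/- P012: products of one prime from each of several pools. -/

namespace Vale.Agent.P012

open Finset Real

variable {ι : Type} [Fintype ι] [DecidableEq ι] {κ : ι → Type} [∀ g, Fintype (κ g)]
  [∀ g, Nonempty (κ g)]

/-- an event on which coordinates in `S` are determined by the others is unlikely. -/
theorem determined_event (S : Finset ι) (E : (∀ g, κ g) → Prop)
    (hE : ∀ w w', E w → E w' → (∀ g ∉ S, w g = w' g) → w = w') :
    avg (fun w : ∀ g, κ g => ind (E w)) ≤ ∏ g ∈ S, (1 / (Fintype.card (κ g) : ℝ)) := by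
  classical
  unfold avg
  rw [sum_ind, Fintype.card_pi, Nat.cast_prod]
  have hc : (univ.filter E).card ≤ ∏ g ∈ Sᶜ, Fintype.card (κ g) := by
    refine (card_le_card_of_injOn (t := Fintype.piFinset fun g : {g // g ∈ Sᶜ} =>
      (univ : Finset (κ g.1))) (fun w g => w g.1) (fun w _ => by simp) ?_).trans_eq ?_
    · intro w hw w' hw' h
      simp only [coe_filter, mem_univ, true_and, Set.mem_ofPred_eq] at hw hw'
      exact hE w w' hw hw' fun g hg => congrFun h ⟨g, mem_compl.2 hg⟩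
    · rw [Fintype.card_piFinset]
      simp only [card_univ]
      exact prod_coe_sort Sᶜ fun g => Fintype.card (κ g)
  have hpos : ∀ g, (0 : ℝ) < (Fintype.card (κ g) : ℝ) := fun g => by
    exact_mod_cast Fintype.card_pos
  rw [← prod_mul_prod_compl S (fun g => (Fintype.card (κ g) : ℝ)),
    div_le_iff₀ (mul_pos (prod_pos fun g _ => hpos g) (prod_pos fun g _ => hpos g))]
  have e : (∏ g ∈ S, (1 / (Fintype.card (κ g) : ℝ))) *
      ((∏ g ∈ S, (Fintype.card (κ g) : ℝ)) * ∏ g ∈ Sᶜ, (Fintype.card (κ g) : ℝ)) =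
      ∏ g ∈ Sᶜ, (Fintype.card (κ g) : ℝ) := by
    rw [← mul_assoc, ← prod_mul_distrib]
    rw [prod_eq_one fun g _ => one_div_mul_cancel (hpos g).ne', one_mul]
  rw [e]
  exact_mod_cast hc

/-- a family of distinct primes indexed by pairs. -/
structure Pool (ι : Type) (κ : ι → Type) : Type where
  /-- the primes. -/
  p : ∀ g, κ g → ℕ
  hp : ∀ g r, (p g r).Prime
  hinj : ∀ g r g' r', p g r = p g' r' → g = g' ∧ HEq r r'

namespace Pool

variable (P : Pool ι κ)

/-- the product of one prime from each group. -/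
def val (w : ∀ g, κ g) : ℕ := ∏ g, P.p g (w g)

/-- the product of all primes. -/
def total : ℕ := ∏ g, ∏ r, P.p g r

omit [DecidableEq ι] [∀ g, Fintype (κ g)] [∀ g, Nonempty (κ g)] in
theorem val_pos (w : ∀ g, κ g) : 0 < val P w := prod_pos fun g _ => (P.hp g _).pos

omit [DecidableEq ι] [∀ g, Nonempty (κ g)] in
theorem val_dvd_total (w : ∀ g, κ g) : P.val w ∣ P.total :=
  prod_dvd_prod_of_dvd _ _ fun g _ => Finset.dvd_prod_of_mem _ (mem_univ (w g))

omit [DecidableEq ι] [∀ g, Nonempty (κ g)] in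
theorem total_pos : 0 < P.total := prod_pos fun g _ => prod_pos fun r _ => (P.hp g r).pos

omit [Fintype ι] [DecidableEq ι] [∀ g, Fintype (κ g)] [∀ g, Nonempty (κ g)] in
theorem prod_inj (S : Finset ι) (w w' : ∀ g, κ g)
    (h : ∏ g ∈ S, P.p g (w g) = ∏ g ∈ S, P.p g (w' g)) : ∀ g ∈ S, w g = w' g := by
  intro g hg
  have h1 : P.p g (w g) ∣ ∏ g ∈ S, P.p g (w' g) := h ▸ Finset.dvd_prod_of_mem _ hg
  obtain ⟨g', _, hg'⟩ := ((P.hp g (w g)).prime.dvd_finsetProd_iff _).1 h1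
  obtain ⟨rfl, h3⟩ := P.hinj _ _ _ _ ((Nat.prime_dvd_prime_iff_eq (P.hp _ _) (P.hp _ _)).1 hg')
  exact eq_of_heq h3

omit [Fintype ι] [∀ g, Fintype (κ g)] [∀ g, Nonempty (κ g)] in
theorem eq_of_agree (S : Finset ι) {w w' : ∀ g, κ g} (hag : ∀ g ∉ S, w g = w' g)
    (h : ∏ g ∈ S, P.p g (w g) = ∏ g ∈ S, P.p g (w' g)) : w = w' := by
  funext g
  by_cases hg : g ∈ S
  · exact P.prod_inj S w w' h g hg
  · exact hag g hg

variable {y : ℕ} (hy : ∀ g r, P.p g r ≤ y)

include hy in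
/-- residues of the product are spread. -/
theorem mod_event (S : Finset ι) {q : ℕ}
    (hS : y ^ S.card * Nat.gcd q P.total < q) (c : ℤ) :
    avg (fun w : ∀ g, κ g => ind ((q : ℤ) ∣ (P.val w : ℤ) - c)) ≤
      ∏ g ∈ S, (1 / (Fintype.card (κ g) : ℝ)) := by
  refine determined_event S _ fun w w' hw hw' hag => ?_
  refine P.eq_of_agree S hag ?_
  set a := ∏ g ∈ S, P.p g (w g) with ha
  set a' := ∏ g ∈ S, P.p g (w' g) with ha'
  set rest := ∏ g ∈ Sᶜ, P.p g (w g) with hrest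
  have hv : P.val w = a * rest := (prod_mul_prod_compl S _).symm
  have hv' : P.val w' = a' * rest := by
    rw [Pool.val, ← prod_mul_prod_compl S, hrest]
    exact congrArg _ (prod_congr rfl fun g hg => by rw [hag g (mem_compl.1 hg)])
  have hd : (q : ℤ) ∣ (rest : ℤ) * ((a : ℤ) - a') := by
    have := dvd_sub hw hw'
    rw [hv, hv'] at this
    rw [show (rest : ℤ) * ((a : ℤ) - a') =
      ((a * rest : ℕ) : ℤ) - c - (((a' * rest : ℕ) : ℤ) - c) by push_cast; ring]
    exact this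
  have hab : a ≤ y ^ S.card ∧ a' ≤ y ^ S.card :=
    ⟨prod_le_pow_card _ _ _ fun g _ => hy _ _, prod_le_pow_card _ _ _ fun g _ => hy _ _⟩
  have hrd : rest ∣ P.total :=
    (prod_dvd_prod_of_subset _ _ _ (subset_univ Sᶜ)).trans (P.val_dvd_total w)
  have hq0 : 0 < q := lt_of_le_of_lt (Nat.zero_le _) hS
  set d := Nat.gcd q rest with hdd
  have hd0 : 0 < d := Nat.gcd_pos_of_pos_left _ hq0
  obtain ⟨q', hq'⟩ : d ∣ q := Nat.gcd_dvd_left _ _
  obtain ⟨r', hr'⟩ : d ∣ rest := Nat.gcd_dvd_right _ _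
  have hlt : y ^ S.card < q' := by
    have h1 : d ≤ Nat.gcd q P.total :=
      Nat.le_of_dvd (Nat.gcd_pos_of_pos_left _ hq0) (Nat.gcd_dvd_gcd_of_dvd_right _ hrd)
    have h2 : y ^ S.card * d < q' * d := by
      rw [Nat.mul_comm q' d, ← hq']
      exact lt_of_le_of_lt (Nat.mul_le_mul_left _ h1) hS
    exact Nat.lt_of_mul_lt_mul_right h2
  have hcop : IsCoprime (q' : ℤ) (r' : ℤ) := by
    rw [Int.isCoprime_iff_gcd_eq_one, Int.gcd_natCast_natCast]
    have h1 : d * Nat.gcd q' r' = d * 1 := by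
      rw [mul_one, ← Nat.gcd_mul_left, ← hq', ← hr']
    exact Nat.eq_of_mul_eq_mul_left hd0 h1
  rw [hq', hr'] at hd
  push_cast at hd
  rw [mul_assoc] at hd
  have h2 : (q' : ℤ) ∣ (a : ℤ) - a' :=
    hcop.dvd_of_dvd_mul_left (Int.dvd_of_mul_dvd_mul_left (by positivity) hd)
  have h3 : (a : ℤ) - a' = 0 :=
    Int.eq_zero_of_abs_lt_dvd h2 (abs_lt.2 ⟨by omega, by omega⟩)
  omega

include hy in
/-- the product avoids short intervals. -/
theorem interval_event (S : Finset ι) {A : ℕ} (hA : ∀ w, A ≤ P.val w) {X : ℝ}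
    (hS : 2 * X * (y : ℝ) ^ S.card < A) (c : ℤ) :
    avg (fun w : ∀ g, κ g => ind (|(((P.val w : ℤ) - c : ℤ) : ℝ)| ≤ X)) ≤
      ∏ g ∈ S, (1 / (Fintype.card (κ g) : ℝ)) := by
  refine determined_event S _ fun w w' hw hw' hag => ?_
  refine P.eq_of_agree S hag ?_
  by_contra hne
  set a := ∏ g ∈ S, P.p g (w g) with ha
  set a' := ∏ g ∈ S, P.p g (w' g) with ha'
  set rest := ∏ g ∈ Sᶜ, P.p g (w g) with hrest
  have hv : P.val w = a * rest := (prod_mul_prod_compl S _).symm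
  have hv' : P.val w' = a' * rest := by
    rw [Pool.val, ← prod_mul_prod_compl S, hrest]
    exact congrArg _ (prod_congr rfl fun g hg => by rw [hag g (mem_compl.1 hg)])
  have hrA : (A : ℝ) ≤ (y : ℝ) ^ S.card * rest := by
    have h1 : A ≤ y ^ S.card * rest :=
      (hA w).trans (hv.le.trans (Nat.mul_le_mul_right _
        (prod_le_pow_card _ _ _ fun g _ => hy _ _)))
    exact_mod_cast h1
  have h1 : (1 : ℝ) ≤ |(a : ℝ) - a'| := by
    have : (1 : ℤ) ≤ |(a : ℤ) - a'| := Int.one_le_abs (by omega)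
    exact_mod_cast this
  push_cast [hv] at hw
  push_cast [hv'] at hw'
  have h2 : (rest : ℝ) * |(a : ℝ) - a'| ≤ 2 * X := by
    rw [← abs_of_nonneg (by positivity : (0 : ℝ) ≤ rest), ← abs_mul]
    refine abs_le.2 ⟨?_, ?_⟩ <;> nlinarith [abs_le.1 hw, abs_le.1 hw']
  have h3 : (rest : ℝ) ≤ rest * |(a : ℝ) - a'| := le_mul_of_one_le_right (by positivity) h1
  have h4 : (0 : ℝ) ≤ (y : ℝ) ^ S.card := by positivity
  nlinarith [mul_le_mul_of_nonneg_right (h3.trans h2) h4]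

end Pool

/-- the sum of two independent functions. -/
def pair {A B : Type} [Fintype A] [Fintype B] [Nonempty A] [Nonempty B] (f : A → ℕ) (g : B → ℕ) :
    RV where
  Ω := A × B
  Y w := f w.1 + g w.2

theorem pair_event {A B : Type} [Fintype A] [Fintype B] [Nonempty A] [Nonempty B] (f : A → ℕ)
    (g : B → ℕ) (R : ℤ → Prop) {β : ℝ} (hβ : 0 ≤ β)
    (h : (∀ c : ℤ, avg (fun a => ind (R ((f a : ℤ) - c))) ≤ β) ∨
      (∀ c : ℤ, avg (fun b => ind (R ((g b : ℤ) - c))) ≤ β)) :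
    avg (fun p : (pair f g).Ω × (pair f g).Ω => ind (R ((pair f g).diff p))) ≤ β := by
  change avg (fun p : (A × B) × (A × B) =>
    ind (R (((f p.1.1 + g p.1.2 : ℕ) : ℤ) - ((f p.2.1 + g p.2.2 : ℕ) : ℤ)))) ≤ β
  rw [avg_prod_type, avg_comm]
  refine avg_le_of_le hβ fun p' => ?_
  rw [avg_prod_type]
  rcases h with h | h
  · rw [avg_comm]
    refine avg_le_of_le hβ fun b => ?_
    refine le_trans (le_of_eq (avg_congr fun a => ?_))
      (h ((f p'.1 : ℤ) + g p'.2 - g b))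
    congr 2
    push_cast
    ring
  · refine avg_le_of_le hβ fun a => ?_
    refine le_trans (le_of_eq (avg_congr fun b => ?_))
      (h ((f p'.1 : ℤ) + g p'.2 - f a))
    congr 2
    push_cast
    ring

end Vale.Agent.P012
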