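import Vale.Agent.P012.LinearForm

/- P012: finite random variables and the amplification step. -/

namespace Vale.Agent.P012

open Finset Real

/-- a natural valued function on a nonempty finite type. -/
structure RV : Type 1 where
  Ω : Type
  [fin : Fintype Ω]
  [ne : Nonempty Ω]
  Y : Ω → ℕ

attribute [instance] RV.fin RV.ne

/-- difference of two values. -/
def RV.diff (X : RV) (p : X.Ω × X.Ω) : ℤ := (X.Y p.1 : ℤ) - X.Y p.2

/-- probability that the difference is divisible by `q`. -/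
noncomputable def RV.P (X : RV) (q : ℕ) : ℝ := avg fun p => ind ((q : ℤ) ∣ X.diff p)

/-- probability that the difference is a nonzero multiple of `q`. -/
noncomputable def RV.Pne (X : RV) (q : ℕ) : ℝ :=
  avg fun p => ind ((q : ℤ) ∣ X.diff p ∧ X.diff p ≠ 0)

/-- collision probability. -/
noncomputable def RV.P0 (X : RV) : ℝ := avg fun p => ind (X.diff p = 0)

/-- probability that the difference is small compared with `L`. -/
noncomputable def RV.I (X : RV) (L : ℕ) (s : ℝ) : ℝ :=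
  avg fun p => ind (|(X.diff p : ℝ)| * exp s ≤ L)

theorem RV.P_nonneg (X : RV) (q : ℕ) : 0 ≤ X.P q := avg_nonneg fun _ => ind_nonneg _

theorem RV.Pne_nonneg (X : RV) (q : ℕ) : 0 ≤ X.Pne q := avg_nonneg fun _ => ind_nonneg _

theorem RV.P0_nonneg (X : RV) : 0 ≤ X.P0 := avg_nonneg fun _ => ind_nonneg _

theorem RV.I_nonneg (X : RV) (L : ℕ) (s : ℝ) : 0 ≤ X.I L s := avg_nonneg fun _ => ind_nonneg _

theorem RV.P_le_one (X : RV) (q : ℕ) : X.P q ≤ 1 :=
  avg_le_of_le zero_le_one fun _ => ind_le_one _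

theorem RV.P_le_add (X : RV) (q : ℕ) : X.P q ≤ X.P0 + X.Pne q := by
  unfold RV.P RV.P0 RV.Pne
  rw [← avg_add]
  refine avg_mono fun p => ?_
  by_cases h : X.diff p = 0
  · rw [ind_pos h]
    linarith [ind_le_one ((q : ℤ) ∣ X.diff p), ind_nonneg ((q : ℤ) ∣ X.diff p ∧ X.diff p ≠ 0)]
  · rw [ind_neg h, zero_add]
    exact ind_mono fun h' => ⟨h', h⟩

theorem RV.I_anti (X : RV) (L : ℕ) {s t : ℝ} (h : s ≤ t) : X.I L t ≤ X.I L s :=
  avg_mono fun p => ind_mono fun h' =>
    (mul_le_mul_of_nonneg_left (exp_le_exp.2 h) (abs_nonneg _)).trans h'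

/-- random combination of independent variables. -/
def comb {C G : ℕ} (μ : Fin C → Fin G) (Z : Fin C → RV) : RV where
  Ω := ∀ j, (Z j).Ω
  Y ω := ∑ j, ((μ j : ℕ) + 1) * (Z j).Y (ω j)

variable {C G : ℕ} (Z : Fin C → RV)

/-- vector of differences. -/
def dvec (w : ∀ j, (Z j).Ω × (Z j).Ω) (j : Fin C) : ℤ := (Z j).diff (w j)

theorem avg_comb_pairs (μ : Fin C → Fin G) (F : ℤ → ℝ) :
    avg (fun p : (comb μ Z).Ω × (comb μ Z).Ω => F ((comb μ Z).diff p)) =
      avg (fun w : ∀ j, (Z j).Ω × (Z j).Ω => F (lin μ (dvec Z w))) := by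
  let e : ((∀ j, (Z j).Ω) × (∀ j, (Z j).Ω)) ≃ (∀ j, (Z j).Ω × (Z j).Ω) :=
    { toFun := fun p j => (p.1 j, p.2 j)
      invFun := fun w => (fun j => (w j).1, fun j => (w j).2)
      left_inv := fun _ => rfl
      right_inv := fun _ => rfl }
  rw [← avg_equiv e (fun w => F (lin μ (dvec Z w)))]
  refine avg_congr fun p => ?_
  congr 1
  change (((∑ j, ((μ j : ℕ) + 1) * (Z j).Y (p.1 j)) : ℕ) : ℤ) -
    (((∑ j, ((μ j : ℕ) + 1) * (Z j).Y (p.2 j)) : ℕ) : ℤ) = lin μ (dvec Z (e p))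
  push_cast
  rw [← sum_sub_distrib]
  refine sum_congr rfl fun j _ => ?_
  change _ = _ * ((Z j).diff (p.1 j, p.2 j))
  simp only [RV.diff]
  ring

theorem avg_comb_P (hG : 0 < G) {q : ℕ} (hq : 0 < q) :
    avg (fun μ : Fin C → Fin G => (comb μ Z).P q) ≤
      2 ^ C * (1 / (G : ℝ) + ∑ d ∈ q.divisors, (d : ℝ) / q * ∏ j, (Z j).P d) := by
  have e1 : avg (fun μ : Fin C → Fin G => (comb μ Z).P q) =
      avg (fun w : ∀ j, (Z j).Ω × (Z j).Ω =>
        avg (fun μ : Fin C → Fin G => ind ((q : ℤ) ∣ 0 + lin μ (dvec Z w)))) := by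
    rw [avg_comm]
    refine avg_congr fun μ => ?_
    simp only [zero_add]
    exact avg_comb_pairs Z μ (fun z => ind ((q : ℤ) ∣ z))
  rw [e1]
  refine (avg_mono (g := fun w => 2 ^ C * (1 / (G : ℝ) +
    ∑ d ∈ q.divisors, (d : ℝ) / q * ∏ j, ind ((d : ℤ) ∣ dvec Z w j))) fun w => ?_).trans ?_
  · refine (linear_form hG C q hq (dvec Z w) 0).trans ?_
    gcongr
    set g := gq q (dvec Z w) with hg
    refine le_trans (le_of_eq ?_) (single_le_sum (f := fun d : ℕ => (d : ℝ) / q *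
      ∏ j, ind ((d : ℤ) ∣ dvec Z w j))
      (fun d _ => mul_nonneg (by positivity) (prod_nonneg fun j _ => ind_nonneg _))
      (Nat.mem_divisors.2 ⟨gq_dvd_left q (dvec Z w), hq.ne'⟩))
    rw [prod_eq_one fun j _ => ind_pos (gq_dvd q (dvec Z w) j), mul_one]
  · have : Nonempty (∀ j, (Z j).Ω × (Z j).Ω) := inferInstance
    rw [avg_mul_left, avg_add, avg_const, avg_sum]
    gcongr with d
    rw [avg_mul_left]
    gcongr
    exact (avg_pi fun j (p : (Z j).Ω × (Z j).Ω) => ind ((d : ℤ) ∣ (Z j).diff p)).le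

theorem avg_comb_P0 (hG : 0 < G) :
    avg (fun μ : Fin C → Fin G => (comb μ Z).P0) ≤ (∏ j, (Z j).P0) + 1 / (G : ℝ) := by
  have e1 : avg (fun μ : Fin C → Fin G => (comb μ Z).P0) =
      avg (fun w : ∀ j, (Z j).Ω × (Z j).Ω =>
        avg (fun μ : Fin C → Fin G => ind (lin μ (dvec Z w) = 0))) := by
    rw [avg_comm]
    exact avg_congr fun μ => avg_comb_pairs Z μ (fun z => ind (z = 0))
  rw [e1]
  refine (avg_mono (g := fun w => (∏ j, ind (dvec Z w j = 0)) + 1 / (G : ℝ)) fun w => ?_).trans ?_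
  · by_cases h : ∀ j, dvec Z w j = 0
    · rw [prod_eq_one fun j _ => ind_pos (h j)]
      refine (avg_le_of_le zero_le_one fun μ => ind_le_one _).trans ?_
      exact le_add_of_nonneg_right (by positivity)
    · obtain ⟨p, hp⟩ := not_forall.1 h
      cases C with
      | zero => exact p.elim0
      | succ C' =>
        refine le_trans ?_ (le_add_of_nonneg_left (prod_nonneg fun j _ => ind_nonneg _))
        have := linear_form_interval hG (dvec Z w) p hp 0 le_rfl
        simp only [mul_zero, zero_div, zero_add] at this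
        refine le_trans (avg_mono fun μ => ind_mono fun h0 => ?_) this
        simp [h0]
  · rw [avg_add, avg_const]
    exact add_le_add_left (avg_pi fun j (p : (Z j).Ω × (Z j).Ω) => ind ((Z j).diff p = 0)).le _

theorem avg_comb_I (hG : 0 < G) (hC : 1 ≤ C) {L : ℕ} (hL : 0 < L) {k k₀ : ℕ} (hk : k₀ ≤ k) :
    avg (fun μ : Fin C → Fin G => (comb μ Z).I (C * G * L) k) ≤
      1 / (G : ℝ) + 2 * C * exp ((k₀ : ℝ) + 1 - k) +
        ∑ i ∈ Finset.Icc k₀ k, 2 * C * exp ((i : ℝ) + 1 - k) * ∏ j, (Z j).I L i := by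
  have e1 : avg (fun μ : Fin C → Fin G => (comb μ Z).I (C * G * L) k) =
      avg (fun w : ∀ j, (Z j).Ω × (Z j).Ω => avg (fun μ : Fin C → Fin G =>
        ind (|(lin μ (dvec Z w) : ℝ)| * exp k ≤ ((C * G * L : ℕ) : ℝ)))) := by
    rw [avg_comm]
    exact avg_congr fun μ =>
      avg_comb_pairs Z μ (fun z => ind (|(z : ℝ)| * exp k ≤ ((C * G * L : ℕ) : ℝ)))
  rw [e1]
  have hGr : (0 : ℝ) < G := by exact_mod_cast hG
  have hCr : (1 : ℝ) ≤ C := by exact_mod_cast hC
  have hLr : (0 : ℝ) < L := by exact_mod_cast hL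
  refine (avg_mono (g := fun w => 1 / (G : ℝ) + 2 * C * exp ((k₀ : ℝ) + 1 - k) +
    ∑ i ∈ Finset.Icc k₀ k, 2 * C * exp ((i : ℝ) + 1 - k) *
      ∏ j, ind (|(dvec Z w j : ℝ)| * exp i ≤ L)) fun w => ?_).trans ?_
  · have hterm : ∀ i ∈ Finset.Icc k₀ k,
        0 ≤ 2 * C * exp ((i : ℝ) + 1 - k) * ∏ j, ind (|(dvec Z w j : ℝ)| * exp i ≤ L) :=
      fun i _ => mul_nonneg (by positivity) (prod_nonneg fun j _ => ind_nonneg _)
    have hpick : ∀ i ∈ Finset.Icc k₀ k, (∀ j, |(dvec Z w j : ℝ)| * exp i ≤ L) →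
        2 * C * exp ((i : ℝ) + 1 - k) ≤ ∑ i ∈ Finset.Icc k₀ k,
          2 * C * exp ((i : ℝ) + 1 - k) * ∏ j, ind (|(dvec Z w j : ℝ)| * exp i ≤ L) := by
      intro i hi h
      refine le_trans (le_of_eq ?_) (single_le_sum hterm hi)
      rw [prod_eq_one fun j _ => ind_pos (h j), mul_one]
    have hk2 : ∀ x : ℝ, 1 ≤ 2 * C * exp ((k : ℝ) + 1 - k) + (1 / (G : ℝ) + 2 * C * exp x) := by
      intro x
      have h1 : 1 ≤ 2 * (C : ℝ) * exp ((k : ℝ) + 1 - k) := by
        rw [show (k : ℝ) + 1 - k = 1 by ring]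
        have := Real.exp_one_gt_d9
        nlinarith
      have h2 : 0 ≤ 1 / (G : ℝ) + 2 * C * exp x := by positivity
      linarith
    by_cases h0 : ∀ j, dvec Z w j = 0
    · refine (avg_le_of_le zero_le_one fun μ => ind_le_one _).trans ((hk2 ((k₀ : ℝ) + 1 - k)).trans ?_)
      rw [add_comm _ (1 / (G : ℝ) + _)]
      refine add_le_add_right (hpick k (mem_Icc.2 ⟨hk, le_rfl⟩) fun j => ?_) _
      simp [h0 j]
    obtain ⟨j₁, hj₁⟩ := not_forall.1 h0
    obtain ⟨p, -, hp⟩ := exists_max_image univ (fun j => |(dvec Z w j : ℝ)|) ⟨j₁, mem_univ _⟩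
    set m := |(dvec Z w p : ℝ)| with hm
    have hm0 : 0 < m :=
      lt_of_lt_of_le (abs_pos.2 (by exact_mod_cast hj₁)) (hp j₁ (mem_univ _))
    have hpne : dvec Z w p ≠ 0 := by
      intro h; simp [hm, h] at hm0
    have hbase : avg (fun μ : Fin C → Fin G =>
        ind (|(lin μ (dvec Z w) : ℝ)| * exp k ≤ ((C * G * L : ℕ) : ℝ))) ≤
        2 * C * (L / m) / exp k + 1 / (G : ℝ) := by
      cases C with
      | zero => omega
      | succ C' =>
        refine le_trans (le_trans (avg_mono fun μ => ind_mono fun h => ?_)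
          (linear_form_interval hG (dvec Z w) p hpne
            ((((C' + 1) * G * L : ℕ) : ℝ) / exp k) (by positivity))) (le_of_eq ?_)
        · exact (le_div_iff₀ (exp_pos _)).2 h
        · rw [← hm]
          push_cast
          field_simp
    rcases lt_or_ge (L / m : ℝ) (exp ((k₀ : ℝ) + 1)) with hsmall | hbig
    · refine hbase.trans ?_
      have hsum : 0 ≤ ∑ i ∈ Finset.Icc k₀ k,
          2 * C * exp ((i : ℝ) + 1 - k) * ∏ j, ind (|(dvec Z w j : ℝ)| * exp i ≤ L) :=
        sum_nonneg hterm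
      have : 2 * C * (L / m) / exp k ≤ 2 * C * exp ((k₀ : ℝ) + 1 - k) := by
        rw [exp_sub, mul_div_assoc (2 * (C : ℝ))]
        gcongr
      linarith
    · have hf0 : 0 < (L : ℝ) / m := by positivity
      have hlog : (k₀ : ℝ) + 1 ≤ Real.log (L / m) := (Real.le_log_iff_exp_le hf0).2 hbig
      rcases Nat.lt_or_ge ⌊Real.log (L / m)⌋₊ k with hlt | hge
      · set i := ⌊Real.log (L / m)⌋₊ with hi
        have hi1 : k₀ ≤ i := Nat.le_floor (by linarith)
        have h1 : exp (i : ℝ) ≤ L / m := by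
          rw [← exp_log hf0]
          exact exp_le_exp.2 (Nat.floor_le (by linarith))
        have h2 : (L / m : ℝ) ≤ exp ((i : ℝ) + 1) := by
          rw [← exp_log hf0]
          exact exp_le_exp.2 (Nat.lt_floor_add_one _).le
        have h3 := hpick i (mem_Icc.2 ⟨hi1, hlt.le⟩) fun j => by
          rw [le_div_iff₀ hm0] at h1
          calc |(dvec Z w j : ℝ)| * exp i ≤ m * exp i :=
                mul_le_mul_of_nonneg_right (hp j (mem_univ _)) (exp_pos _).le
            _ ≤ L := by linarith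
        have h4 : 2 * C * (L / m) / exp k ≤ 2 * C * exp ((i : ℝ) + 1 - k) := by
          rw [exp_sub, mul_div_assoc (2 * (C : ℝ))]
          gcongr
        have h5 : 0 ≤ 2 * (C : ℝ) * exp ((k₀ : ℝ) + 1 - k) := by positivity
        linarith
      · have h1 : exp (k : ℝ) ≤ L / m := by
          rw [← exp_log hf0]
          refine exp_le_exp.2 (le_trans ?_ (Nat.floor_le (by linarith)))
          exact_mod_cast hge
        have h3 := hpick k (mem_Icc.2 ⟨hk, le_rfl⟩) fun j => by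
          rw [le_div_iff₀ hm0] at h1
          calc |(dvec Z w j : ℝ)| * exp k ≤ m * exp k :=
                mul_le_mul_of_nonneg_right (hp j (mem_univ _)) (exp_pos _).le
            _ ≤ L := by linarith
        refine (avg_le_of_le zero_le_one fun μ => ind_le_one _).trans ((hk2 ((k₀ : ℝ) + 1 - k)).trans ?_)
        rw [add_comm _ (1 / (G : ℝ) + _)]
        exact add_le_add_right h3 _
  · rw [avg_add, avg_const, avg_sum]
    gcongr with i
    rw [avg_mul_left]
    gcongr
    exact (avg_pi fun j (p : (Z j).Ω × (Z j).Ω) => ind (|((Z j).diff p : ℝ)| * exp i ≤ L)).le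

/-- The modular estimate in exponential form. -/
theorem step_P (hG : 0 < G) {q : ℕ} (hq : 0 < q) {f : ℝ → ℝ}
    (hchild : ∀ d : ℕ, d ∣ q → Real.log q / 2 ≤ Real.log d →
      ∏ j, (Z j).P d ≤ exp (-f (Real.log d)))
    (hf : ∀ t, 0 < t → t ≤ Real.log q → t / Real.log q * f (Real.log q) ≤ f t)
    (hs : 0 < Real.log q) :
    avg (fun μ : Fin C → Fin G => (comb μ Z).P q) ≤
      2 ^ C * (1 / (G : ℝ) +
        q.divisors.card * exp (-min (Real.log q / 2) (f (Real.log q)))) := by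
  refine (avg_comb_P Z hG hq).trans ?_
  gcongr
  rw [← nsmul_eq_mul]
  refine sum_le_card_nsmul _ _ _ fun d hd => ?_
  rw [Nat.mem_divisors] at hd
  have hd0 : 0 < d := Nat.pos_of_dvd_of_pos hd.1 hq
  have hdr : (0 : ℝ) < d := by exact_mod_cast hd0
  have hqr : (0 : ℝ) < q := by exact_mod_cast hq
  have hdq : Real.log d ≤ Real.log q :=
    Real.log_le_log hdr (by exact_mod_cast Nat.le_of_dvd hq hd.1)
  rw [← exp_log (div_pos hdr hqr), Real.log_div hdr.ne' hqr.ne']
  set t := Real.log d with ht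
  set s := Real.log q with hsdef
  rcases lt_or_ge t (s / 2) with h | h
  · calc exp (t - s) * ∏ j, (Z j).P d ≤ exp (t - s) * 1 :=
          mul_le_mul_of_nonneg_left (Finset.prod_le_one (fun j _ => (Z j).P_nonneg d)
            fun j _ => (Z j).P_le_one d) (exp_nonneg _)
      _ ≤ exp (-min (s / 2) (f s)) := by
          rw [mul_one]; exact exp_le_exp.2 (by linarith [min_le_left (s / 2) (f s)])
  · calc exp (t - s) * ∏ j, (Z j).P d ≤ exp (t - s) * exp (-f t) :=
          mul_le_mul_of_nonneg_left (hchild d hd.1 h) (exp_nonneg _)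
      _ ≤ exp (-min (s / 2) (f s)) := by
          rw [← exp_add]
          refine exp_le_exp.2 ?_
          have h1 := hf t (by linarith) hdq
          have hu0 : 0 ≤ t / s := by positivity
          have hu1 : t / s ≤ 1 := by rw [div_le_one hs]; exact hdq
          have h2 : t - s = -((1 - t / s) * s) := by field_simp; ring
          have h3 : (1 - t / s) * min (s / 2) (f s) ≤ (1 - t / s) * s :=
            mul_le_mul_of_nonneg_left (by linarith [min_le_left (s / 2) (f s)]) (by linarith)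
          have h4 : t / s * min (s / 2) (f s) ≤ t / s * f s :=
            mul_le_mul_of_nonneg_left (min_le_right _ _) hu0
          linarith

/-- The interval estimate in exponential form. -/
theorem step_I (hG : 0 < G) (hC : 1 ≤ C) {L : ℕ} (hL : 0 < L) {k k₀ : ℕ} (hk : k₀ ≤ k)
    (hk0 : (k₀ : ℝ) ≤ (k : ℝ) / 2 + 1) (hkpos : 1 ≤ k₀)
    {f : ℝ → ℝ}
    (hchild : ∀ i : ℕ, k₀ ≤ i → i ≤ k → ∏ j, (Z j).I L i ≤ exp (-f i))
    (hf : ∀ t, 0 < t → t ≤ (k : ℝ) → t / k * f k ≤ f t) :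
    avg (fun μ : Fin C → Fin G => (comb μ Z).I (C * G * L) k) ≤
      1 / (G : ℝ) + (k + 2) * (2 * C * exp 2) * exp (-min ((k : ℝ) / 2) (f k)) := by
  refine (avg_comb_I Z hG hC hL hk).trans ?_
  have hkr : (1 : ℝ) ≤ k := by exact_mod_cast hkpos.trans hk
  have h1 : exp ((k₀ : ℝ) + 1 - k) ≤ exp 2 * exp (-min ((k : ℝ) / 2) (f k)) := by
    rw [← exp_add]; exact exp_le_exp.2 (by linarith [min_le_left ((k : ℝ) / 2) (f k)])
  have h2 : ∀ i ∈ Finset.Icc k₀ k, 2 * C * exp ((i : ℝ) + 1 - k) * ∏ j, (Z j).I L i ≤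
      2 * C * exp 2 * exp (-min ((k : ℝ) / 2) (f k)) := by
    intro i hi
    rw [mem_Icc] at hi
    have hi0 : (1 : ℝ) ≤ i := by exact_mod_cast hkpos.trans hi.1
    have hik : (i : ℝ) ≤ k := by exact_mod_cast hi.2
    calc 2 * C * exp ((i : ℝ) + 1 - k) * ∏ j, (Z j).I L i
        ≤ 2 * C * exp ((i : ℝ) + 1 - k) * exp (-f i) :=
          mul_le_mul_of_nonneg_left (hchild i hi.1 hi.2) (by positivity)
      _ ≤ _ := by
          rw [mul_assoc _ (exp _), mul_assoc _ (exp _), ← exp_add, ← exp_add]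
          refine mul_le_mul_of_nonneg_left (exp_le_exp.2 ?_) (by positivity)
          have h1 := hf i (by linarith) hik
          have hu0 : 0 ≤ (i : ℝ) / k := by positivity
          have hu1 : (i : ℝ) / k ≤ 1 := by rw [div_le_one (by linarith)]; exact hik
          have h2 : (i : ℝ) - k = -((1 - (i : ℝ) / k) * k) := by field_simp; ring
          have h3 : (1 - (i : ℝ) / k) * min ((k : ℝ) / 2) (f k) ≤ (1 - (i : ℝ) / k) * k :=
            mul_le_mul_of_nonneg_left (by linarith [min_le_left ((k : ℝ) / 2) (f k)])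
              (by linarith)
          have h4 : (i : ℝ) / k * min ((k : ℝ) / 2) (f k) ≤ (i : ℝ) / k * f k :=
            mul_le_mul_of_nonneg_left (min_le_right _ _) hu0
          linarith
  have h3 := sum_le_card_nsmul _ _ _ h2
  rw [nsmul_eq_mul, Nat.card_Icc] at h3
  have hcard : ((k + 1 - k₀ : ℕ) : ℝ) ≤ (k : ℝ) + 1 := by
    have : k + 1 - k₀ ≤ k + 1 := Nat.sub_le _ _
    exact_mod_cast this
  have hE : 0 ≤ 2 * (C : ℝ) * exp 2 * exp (-min ((k : ℝ) / 2) (f k)) := by positivity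
  nlinarith [mul_le_mul_of_nonneg_right hcard hE,
    mul_le_mul_of_nonneg_left h1 (show (0 : ℝ) ≤ 2 * C by positivity)]

end Vale.Agent.P012
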