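import Vale.Agent.P012.RV

/- P012: choice of the multipliers of one level by averaging. -/

namespace Vale.Agent.P012

open Finset Real

/-- the moduli relevant between `exp a` and `exp S`. -/
noncomputable def qRange (a S : ℝ) : Finset ℕ := by
  classical
  exact (Finset.Icc 1 ⌊exp S⌋₊).filter fun q => a ≤ Real.log q ∧ Real.log q ≤ S

theorem mem_qRange {a S : ℝ} {q : ℕ} (hq : 0 < q) (h1 : a ≤ Real.log q) (h2 : Real.log q ≤ S) :
    q ∈ qRange a S := by
  classical
  have hq' : (0 : ℝ) < q := by exact_mod_cast hq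
  simp only [qRange, mem_filter, mem_Icc]
  exact ⟨⟨hq, Nat.le_floor (by rw [← exp_log hq']; exact exp_le_exp.2 h2)⟩, h1, h2⟩

theorem qRange_spec {a S : ℝ} {q : ℕ} (h : q ∈ qRange a S) :
    0 < q ∧ a ≤ Real.log q ∧ Real.log q ≤ S := by
  classical
  simp only [qRange, mem_filter, mem_Icc] at h
  exact ⟨h.1.1, h.2⟩

theorem weight_bound (X : RV) (Qs : Finset ℕ) (w : ℕ → ℝ) (_hw : ∀ q, 0 ≤ w q) {L : ℕ}
    (hY : ∀ ω, X.Y ω ≤ L) {ε : ℝ} (hε : 0 ≤ ε)
    (hdiv : ∀ N : ℕ, 1 ≤ N → N ≤ L → ∑ q ∈ N.divisors ∩ Qs, w q ≤ ε) :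
    ∑ q ∈ Qs, w q * X.Pne q ≤ ε := by
  unfold RV.Pne
  simp only [← avg_mul_left]
  rw [← avg_sum]
  refine avg_le_of_le hε fun p => ?_
  by_cases h : X.diff p = 0
  · refine le_trans (le_of_eq (sum_eq_zero fun q _ => ?_)) hε
    rw [ind_neg (fun h' => h'.2 h), mul_zero]
  · have hN : (X.diff p).natAbs ≤ L := by
      have h1 := hY p.1
      have h2 := hY p.2
      simp only [RV.diff]
      omega
    refine le_trans ?_ (hdiv (X.diff p).natAbs (Int.natAbs_pos.2 h) hN)
    classical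
    calc ∑ q ∈ Qs, w q * ind ((q : ℤ) ∣ X.diff p ∧ X.diff p ≠ 0)
        = ∑ q ∈ Qs, if q ∈ (X.diff p).natAbs.divisors then w q else 0 := by
          refine sum_congr rfl fun q _ => ?_
          by_cases hq : (q : ℤ) ∣ X.diff p
          · rw [ind_pos ⟨hq, h⟩, mul_one, if_pos]
            exact Nat.mem_divisors.2 ⟨Int.natCast_dvd.1 hq, (Int.natAbs_pos.2 h).ne'⟩
          · rw [ind_neg fun h' => hq h'.1, mul_zero, if_neg]
            exact fun h' => hq (Int.natCast_dvd.2 (Nat.mem_divisors.1 h').1)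
      _ = ∑ q ∈ (X.diff p).natAbs.divisors ∩ Qs, w q := by
          rw [sum_ite_mem, inter_comm]
      _ ≤ _ := le_rfl

theorem select {Γ : Type} [Fintype Γ] [Nonempty Γ] (V : ℕ) (hV : 1 ≤ V) (F : Γ → RV) {L : ℕ}
    (hY : ∀ γ ω, (F γ).Y ω ≤ L) {S a U δ ε : ℝ} (e : ℝ → ℝ)
    (ha : 0 ≤ a) (hδ0 : 0 ≤ δ) (hU : Real.log 2 ≤ U) (hε0 : 0 ≤ ε)
    (he0 : ∀ s, a - 1 ≤ s → s ≤ S → 0 ≤ e s)
    (heU : ∀ s, a ≤ s → s ≤ S → e s ≤ U)
    (hgrid : ∀ k : ℕ, ∀ s, a ≤ s → s ≤ S → (k : ℝ) ≤ s → s < k + 1 →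
      e s ≤ (1 + δ / 2) * e k)
    (hP : ∀ q : ℕ, 0 < q → a ≤ Real.log q → Real.log q ≤ S →
      avg (fun γ => (F γ).P q) ≤ exp (-((1 + δ) * e (Real.log q))))
    (hI : ∀ k : ℕ, a - 1 ≤ (k : ℝ) → (k : ℝ) ≤ S →
      avg (fun γ => (F γ).I L k) ≤ exp (-((1 + δ) * e k)))
    (hP0 : avg (fun γ => (F γ).P0) ≤ exp (-((2 + δ) * U)))
    (hεU : exp (-(δ * U)) ≤ ε)
    (hεI : ∀ k : ℕ, a - 1 ≤ (k : ℝ) → (k : ℝ) ≤ S → exp (-(δ / 2 * e k)) ≤ ε)
    (hεW : ∀ N : ℕ, 1 ≤ N → N ≤ L → ∑ q ∈ N.divisors ∩ qRange a S,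
      2 * exp (-((δ * ((V : ℝ) - 1) - 2) * e (Real.log q))) ≤ ε)
    (hsmall : (V : ℝ) * ε * (⌊S⌋₊ + 3) < 1) :
    ∃ μ : Fin V → Γ,
      (∀ q : ℕ, 0 < q → a ≤ Real.log q → Real.log q ≤ S →
        ∏ t, (F (μ t)).P q ≤ exp (-(V * e (Real.log q)))) ∧
      (∀ t, ∀ s, a ≤ s → s ≤ S → (F (μ t)).I L s ≤ exp (-e s)) ∧
      ∀ t, (F (μ t)).P0 ≤ exp (-(2 * U)) := by
  classical
  set K := (Finset.range (⌊S⌋₊ + 1)).filter fun k : ℕ => a - 1 ≤ (k : ℝ) ∧ (k : ℝ) ≤ S with hK
  have : Nonempty (Fin V → Γ) := inferInstance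
  let Φ1 : (Fin V → Γ) → ℝ := fun μ => ∑ t, ind (exp (-(2 * U)) < (F (μ t)).P0)
  let Φ2 : (Fin V → Γ) → ℝ := fun μ =>
    ∑ t, ∑ k ∈ K, ind (exp (-((1 + δ / 2) * e k)) < (F (μ t)).I L k)
  let Φ3 : (Fin V → Γ) → ℝ := fun μ => ∑ t, ∑ q ∈ qRange a S,
    2 * exp (((V : ℝ) + 1) * e (Real.log q)) *
      ∏ u, (if u = t then (F (μ u)).Pne q else (F (μ u)).P q)
  have hcoord : ∀ (t : Fin V) (h : Γ → ℝ),
      avg (fun μ : Fin V → Γ => h (μ t)) = avg h := by
    intro t h
    have h1 := avg_pi (κ := fun _ : Fin V => Γ) (fun u g => if u = t then h g else 1)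
    have h2 : ∀ μ : Fin V → Γ, (∏ u, if u = t then h (μ u) else (1 : ℝ)) = h (μ t) := by
      intro μ; rw [Finset.prod_ite_eq' univ t fun u => h (μ u)]; simp
    rw [← avg_congr h2, h1, Finset.prod_eq_single t]
    · simp
    · intro u _ hu; simp [hu, avg_const]
    · simp
  have h1 : avg Φ1 ≤ V * ε := by
    simp only [Φ1]
    rw [avg_sum]
    refine (sum_le_card_nsmul _ _ ε fun t _ => ?_).trans_eq (by simp)
    rw [hcoord t fun γ => ind (exp (-(2 * U)) < (F γ).P0)]
    refine (markov (fun γ => (F γ).P0_nonneg) (exp_pos _)).trans ?_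
    rw [div_le_iff₀ (exp_pos _)]
    refine hP0.trans ?_
    calc exp (-((2 + δ) * U)) = exp (-(δ * U)) * exp (-(2 * U)) := by
          rw [← exp_add]; ring_nf
      _ ≤ ε * exp (-(2 * U)) := by gcongr
  have h2 : avg Φ2 ≤ V * ((⌊S⌋₊ + 1) * ε) := by
    simp only [Φ2]
    rw [avg_sum]
    refine (sum_le_card_nsmul _ _ ((⌊S⌋₊ + 1) * ε) fun t _ => ?_).trans_eq (by simp)
    rw [avg_sum]
    refine (sum_le_card_nsmul _ _ ε fun k hk => ?_).trans ?_
    · rw [hK, mem_filter] at hk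
      rw [hcoord t fun γ => ind (exp (-((1 + δ / 2) * e k)) < (F γ).I L k)]
      refine (markov (fun γ => (F γ).I_nonneg L k) (exp_pos _)).trans ?_
      rw [div_le_iff₀ (exp_pos _)]
      refine (hI k hk.2.1 hk.2.2).trans ?_
      calc exp (-((1 + δ) * e k)) = exp (-(δ / 2 * e k)) * exp (-((1 + δ / 2) * e k)) := by
            rw [← exp_add]; ring_nf
        _ ≤ ε * exp (-((1 + δ / 2) * e k)) := by gcongr; exact hεI k hk.2.1 hk.2.2
    · rw [nsmul_eq_mul]
      refine mul_le_mul_of_nonneg_right ?_ hε0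
      have : K.card ≤ ⌊S⌋₊ + 1 := (card_filter_le _ _).trans_eq (card_range _)
      exact_mod_cast this
  have h3 : avg Φ3 ≤ V * ε := by
    simp only [Φ3]
    rw [avg_sum]
    refine (sum_le_card_nsmul _ _ ε fun t _ => ?_).trans_eq (by simp)
    rw [avg_sum]
    set w : ℕ → ℝ := fun q => 2 * exp (-((δ * ((V : ℝ) - 1) - 2) * e (Real.log q))) with hw
    refine le_trans (sum_le_sum (g := fun q => avg fun γ => w q * (F γ).Pne q) fun q hq => ?_) ?_
    · obtain ⟨hq0, hqa, hqS⟩ := qRange_spec hq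
      set E := e (Real.log q) with hE
      rw [avg_mul_left, avg_pi (κ := fun _ : Fin V => Γ)
        (fun u γ => if u = t then (F γ).Pne q else (F γ).P q), avg_mul_left,
        ← Finset.mul_prod_erase univ _ (mem_univ t)]
      have hA : 0 ≤ avg fun γ => (F γ).Pne q := avg_nonneg fun γ => (F γ).Pne_nonneg q
      have hB : ∏ u ∈ univ.erase t, avg (fun γ => if u = t then (F γ).Pne q else (F γ).P q) ≤
          exp (-(((V : ℝ) - 1) * ((1 + δ) * E))) := by
        calc ∏ u ∈ univ.erase t, avg (fun γ => if u = t then (F γ).Pne q else (F γ).P q)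
            ≤ ∏ u ∈ univ.erase t, exp (-((1 + δ) * E)) := by
              refine prod_le_prod (fun u hu => ?_) fun u hu => ?_
              · simp only [(mem_erase.1 hu).1, if_false]
                exact avg_nonneg fun γ => (F γ).P_nonneg q
              · simp only [(mem_erase.1 hu).1, if_false]
                exact hP q hq0 hqa hqS
          _ = _ := by
              rw [prod_const, card_erase_of_mem (mem_univ t), card_univ, Fintype.card_fin,
                ← exp_nat_mul, Nat.cast_sub hV]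
              push_cast
              ring_nf
      simp only [if_true]
      calc 2 * exp (((V : ℝ) + 1) * E) * ((avg fun γ => (F γ).Pne q) *
            ∏ u ∈ univ.erase t, avg (fun γ => if u = t then (F γ).Pne q else (F γ).P q))
          ≤ 2 * exp (((V : ℝ) + 1) * E) * ((avg fun γ => (F γ).Pne q) *
            exp (-(((V : ℝ) - 1) * ((1 + δ) * E)))) := by gcongr
        _ = w q * avg fun γ => (F γ).Pne q := by
            have : exp (((V : ℝ) + 1) * E) * exp (-(((V : ℝ) - 1) * ((1 + δ) * E))) =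
                exp (-((δ * ((V : ℝ) - 1) - 2) * E)) := by rw [← exp_add]; ring_nf
            simp only [hw, ← hE]
            linear_combination (2 * avg fun γ => (F γ).Pne q) * this
    · rw [← avg_sum]
      exact avg_le_of_le hε0 fun γ => weight_bound (F γ) _ w (fun q => by positivity) (hY γ) hε0 hεW
  obtain ⟨μ, hμ⟩ := exists_le_avg (fun μ => Φ1 μ + Φ2 μ + Φ3 μ)
  rw [avg_add, avg_add] at hμ
  have hn1 : 0 ≤ Φ1 μ := sum_nonneg fun t _ => ind_nonneg _
  have hn2 : 0 ≤ Φ2 μ := sum_nonneg fun t _ => sum_nonneg fun k _ => ind_nonneg _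
  have hterm : ∀ t : Fin V, ∀ q ∈ qRange a S, 0 ≤ 2 * exp (((V : ℝ) + 1) * e (Real.log q)) *
      ∏ u, (if u = t then (F (μ u)).Pne q else (F (μ u)).P q) := fun t q _ =>
    mul_nonneg (by positivity) (prod_nonneg fun u _ => by
      split_ifs
      exacts [(F (μ u)).Pne_nonneg q, (F (μ u)).P_nonneg q])
  have hn3 : 0 ≤ Φ3 μ := sum_nonneg fun t _ => sum_nonneg (hterm t)
  have hlt : Φ1 μ + Φ2 μ + Φ3 μ < 1 := by
    have : (V : ℝ) * ε + V * ((⌊S⌋₊ + 1) * ε) + V * ε = V * ε * (⌊S⌋₊ + 3) := by ring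
    linarith
  have good0 : ∀ t, (F (μ t)).P0 ≤ exp (-(2 * U)) := by
    intro t
    by_contra h
    have := single_le_sum (f := fun t => ind (exp (-(2 * U)) < (F (μ t)).P0))
      (fun t _ => ind_nonneg _) (mem_univ t)
    simp only [ind_pos (not_le.1 h)] at this
    have : 1 ≤ Φ1 μ := this
    linarith
  refine ⟨μ, fun q hq0 hqa hqS => ?_, fun t s hsa hsS => ?_, good0⟩
  · set E := e (Real.log q) with hE
    have hE0 : 0 ≤ E := he0 _ (by linarith) hqS
    by_contra hbad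
    rw [not_le] at hbad
    obtain ⟨t, ht⟩ : ∃ t, exp (-E) < (F (μ t)).P q := by
      by_contra h
      push Not at h
      refine absurd hbad (not_lt.2 ((prod_le_prod (fun t _ => (F (μ t)).P_nonneg q)
        fun t _ => h t).trans_eq ?_))
      rw [prod_const, card_univ, Fintype.card_fin, ← exp_nat_mul, mul_neg]
    have hne : exp (-E) / 2 ≤ (F (μ t)).Pne q := by
      have h1 := (F (μ t)).P_le_add q
      have h2 : exp (-(2 * U)) ≤ exp (-E) / 2 := by
        rw [le_div_iff₀ two_pos]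
        calc exp (-(2 * U)) * 2 = exp (-(2 * U) + Real.log 2) := by
              rw [exp_add, exp_log two_pos]
          _ ≤ exp (-E) := exp_le_exp.2 (by linarith [heU _ hqa hqS])
      linarith [good0 t]
    have hrest : exp (-(V * E)) ≤
        ∏ u ∈ univ.erase t, (if u = t then (F (μ u)).Pne q else (F (μ u)).P q) := by
      refine hbad.le.trans ?_
      rw [← Finset.mul_prod_erase univ _ (mem_univ t)]
      refine (mul_le_of_le_one_left (prod_nonneg fun u _ => (F (μ u)).P_nonneg q)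
        ((F (μ t)).P_le_one q)).trans_eq (prod_congr rfl fun u hu => ?_)
      rw [if_neg (mem_erase.1 hu).1]
    have hterm1 : 1 ≤ 2 * exp (((V : ℝ) + 1) * E) *
        ∏ u, (if u = t then (F (μ u)).Pne q else (F (μ u)).P q) := by
      rw [← Finset.mul_prod_erase univ _ (mem_univ t), if_pos rfl]
      calc (1 : ℝ) = 2 * exp (((V : ℝ) + 1) * E) * (exp (-E) / 2 * exp (-(V * E))) := by
            have : exp (((V : ℝ) + 1) * E) * (exp (-E) * exp (-(V * E))) = 1 := by
              rw [← exp_add, ← exp_add,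
                show ((V : ℝ) + 1) * E + (-E + -(V * E)) = 0 by ring, exp_zero]
            linear_combination -this
        _ ≤ _ := by gcongr; exact (F (μ t)).Pne_nonneg q
    have h4 : 1 ≤ Φ3 μ :=
      hterm1.trans ((single_le_sum (hterm t) (mem_qRange hq0 hqa hqS)).trans
        (single_le_sum (f := fun t => ∑ q ∈ qRange a S, 2 * exp (((V : ℝ) + 1) * e (Real.log q)) *
          ∏ u, (if u = t then (F (μ u)).Pne q else (F (μ u)).P q))
          (fun t _ => sum_nonneg (hterm t)) (mem_univ t)))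
    linarith
  · have hs : 0 ≤ s := ha.trans hsa
    set k := ⌊s⌋₊ with hk
    have hk1 : (k : ℝ) ≤ s := Nat.floor_le hs
    have hk2 : s < (k : ℝ) + 1 := Nat.lt_floor_add_one s
    have hkK : k ∈ K := by
      simp only [hK, mem_filter, mem_range]
      exact ⟨Nat.lt_succ_of_le (Nat.floor_le_floor hsS), by linarith, by linarith⟩
    refine le_trans ((F (μ t)).I_anti L hk1) ?_
    refine le_trans ?_ (exp_le_exp.2 (neg_le_neg (hgrid k s hsa hsS hk1 hk2)))
    by_contra h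
    have h5 := (single_le_sum (f := fun k : ℕ =>
      ind (exp (-((1 + δ / 2) * e k)) < (F (μ t)).I L k)) (fun k _ => ind_nonneg _) hkK).trans
      (single_le_sum (f := fun t => ∑ k ∈ K,
        ind (exp (-((1 + δ / 2) * e k)) < (F (μ t)).I L k))
        (fun t _ => sum_nonneg fun k _ => ind_nonneg _) (mem_univ t))
    simp only [ind_pos (not_le.1 h)] at h5
    have : 1 ≤ Φ2 μ := h5
    linarith

end Vale.Agent.P012
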