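import Vale.Agent.P012.Select
import Vale.Agent.P012.Params
import Vale.Agent.P012.DivCount

/- P012: one level of the tree. -/

namespace Vale.Agent.P012

open Finset Real

/-- the exponent at a level. -/
noncomputable def ee (J : ℕ) (θ ρ s : ℝ) : ℝ := θ / 1000 * min s (ρ * phi J s)

/-- the collision exponent at a level. -/
noncomputable def UU (J : ℕ) (θ ρ : ℝ) : ℝ := θ / 1000 * (ρ * (top J / J))

/-- a level of the tree. -/
def Level (J V : ℕ) (θ ρ a Mb Lb : ℝ) (k : ℕ) : Prop :=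
  ∃ (Z : Fin V → RV) (M L : ℕ), 1 ≤ M ∧ 0 < L ∧ Real.log M ≤ Mb ∧ Real.log L ≤ Lb ∧
    (∀ t ω, (Z t).Y ω ≤ L) ∧
    (∀ t ω, ∃ l : List ℕ, l.length ≤ k ∧ (∀ d ∈ l, d ∣ M) ∧ l.sum = (Z t).Y ω) ∧
    (∀ q : ℕ, 0 < q → a ≤ Real.log q → Real.log q ≤ top J →
      ∏ t, (Z t).P q ≤ exp (-(V * ee J θ ρ (Real.log q)))) ∧
    (∀ t, ∀ s, a ≤ s → s ≤ top J → (Z t).I L s ≤ exp (-ee J θ ρ s)) ∧
    ∀ t, (Z t).P0 ≤ exp (-(2 * UU J θ ρ))

theorem top_pos (J : ℕ) : 0 < top J := by unfold top; have := scale_pos J; positivity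

theorem phi_le_top {J : ℕ} {s : ℝ} (hs : 0 < s) : phi J s ≤ top J / J := by
  unfold phi
  refine div_le_div_of_nonneg_right ?_ (Nat.cast_nonneg J)
  have h1 := Real.log_le_sub_one_of_pos (div_pos (top_pos J) hs)
  have h2 := mul_le_mul_of_nonneg_left h1 hs.le
  rw [mul_sub, mul_one, mul_div_cancel₀ _ hs.ne'] at h2
  linarith

theorem ee_le_UU {J : ℕ} {θ ρ s : ℝ} (hθ : 0 ≤ θ) (hρ : 0 ≤ ρ) (hs : 0 < s) :
    ee J θ ρ s ≤ UU J θ ρ := by
  unfold ee UU
  refine mul_le_mul_of_nonneg_left ((min_le_right _ _).trans ?_) (by positivity)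
  exact mul_le_mul_of_nonneg_left (phi_le_top hs) hρ

theorem ee_mono_div {J : ℕ} {θ ρ t s : ℝ} (hθ : 0 ≤ θ) (hρ : 0 ≤ ρ) (ht : 0 < t) (hts : t ≤ s) :
    t / s * ee J θ ρ s ≤ ee J θ ρ t := by
  have hs : 0 < s := lt_of_lt_of_le ht hts
  have hq : 0 ≤ t / s := by positivity
  have htop := top_pos J
  have hphi : t / s * phi J s ≤ phi J t := by
    unfold phi
    have hlog : Real.log (top J / s) ≤ Real.log (top J / t) :=
      Real.log_le_log (by positivity) (div_le_div_of_nonneg_left htop.le ht hts)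
    calc t / s * (s * (1 + Real.log (top J / s)) / J) = t * (1 + Real.log (top J / s)) / J := by
          field_simp
      _ ≤ _ := by gcongr
  unfold ee
  rw [mul_left_comm]
  refine mul_le_mul_of_nonneg_left ?_ (by positivity)
  rw [mul_min_of_nonneg _ _ hq]
  refine min_le_min (le_of_eq (by field_simp)) ?_
  rw [mul_left_comm]
  exact mul_le_mul_of_nonneg_left hphi hρ

theorem low_facts {J : ℕ} (hJ : 20 ≤ J) {s : ℝ} (hs : low J - 1 ≤ s)
    (hbig : 100 * (J : ℝ) ^ 3 ≤ low J) (hs2 : s ≤ top J) :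
    99 * (J : ℝ) ≤ s ∧ (J : ℝ) / 2 ≤ Real.log s ∧ 1 ≤ 1 + Real.log (top J / s) ∧
      1 + Real.log (top J / s) ≤ J := by
  have hJ' : (20 : ℝ) ≤ J := by exact_mod_cast hJ
  have hJ3 := le_self_pow₀ (by linarith : (1 : ℝ) ≤ J) (by norm_num : 3 ≠ 0)
  have h1 : 99 * (J : ℝ) ≤ s := by linarith
  have hs0 : 0 < s := by linarith
  have hl2 := Real.log_two_gt_d9
  have hl2' := Real.log_two_lt_d9
  set m := J / 20 with hm
  have hmJ : 20 * (m : ℝ) ≤ J := by
    have : 20 * m ≤ J := by omega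
    exact_mod_cast this
  have hllow : ((J : ℝ) - 2 * m) * Real.log 2 ≤ Real.log (low J) := by
    rw [low, scale, Real.log_div (by positivity) (by positivity), Real.log_pow, Real.log_pow,
      show (4 : ℝ) = 2 ^ 2 by norm_num, Real.log_pow]
    push_cast
    linarith
  have hls : Real.log (low J) ≤ Real.log s + Real.log 2 := by
    rw [← Real.log_mul hs0.ne' (by norm_num)]
    refine Real.log_le_log (low_pos J) ?_
    linarith
  refine ⟨h1, by nlinarith, ?_, ?_⟩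
  · have : 0 ≤ Real.log (top J / s) := Real.log_nonneg (by rw [le_div_iff₀ hs0, one_mul]; exact hs2)
    linarith
  · have h12 : Real.log 12 ≤ 11 := by
      have := Real.log_le_sub_one_of_pos (show (0 : ℝ) < 12 by norm_num)
      linarith
    have e : Real.log (top J / s) = Real.log 12 + J * Real.log 2 - Real.log s := by
      rw [top, scale, Real.log_div (by positivity) hs0.ne',
        Real.log_mul (by norm_num) (by positivity), Real.log_pow]
    nlinarith

theorem phi_le_self {J : ℕ} (hJ : 20 ≤ J) {s : ℝ} (hs : low J - 1 ≤ s)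
    (hbig : 100 * (J : ℝ) ^ 3 ≤ low J) (hs2 : s ≤ top J) :
    phi J s ≤ s ∧ s / J ≤ phi J s := by
  obtain ⟨h1, -, h3, h4⟩ := low_facts hJ hs hbig hs2
  have hJ0 : (0 : ℝ) < J := by exact_mod_cast (by omega : 0 < J)
  have hs0 : 0 < s := by linarith
  unfold phi
  constructor
  · rw [div_le_iff₀ hJ0]; gcongr
  · gcongr; exact le_mul_of_one_le_right hs0.le h3

/-- The exponent dominates linear error terms. -/
theorem ee_big {J : ℕ} (hJ : 20 ≤ J) {s θ ρ δ : ℝ} (hs : low J - 1 ≤ s)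
    (hbig : 100 * (J : ℝ) ^ 3 ≤ low J) (hs2 : s ≤ top J) (hθ : 1 ≤ θ) (hρ : 1 ≤ ρ)
    (hδρ : (10 : ℝ) ^ 7 ≤ δ * ρ) (hδJ : (10 : ℝ) ^ 7 ≤ δ * J) (hδ : 0 ≤ δ) :
    (10 : ℝ) ^ 4 * (s / J) ≤ δ * ee J θ ρ s ∧ phi J s / 1000 ≤ ee J θ ρ s := by
  obtain ⟨hphi1, hphi2⟩ := phi_le_self hJ hs hbig hs2
  have hJ0 : (0 : ℝ) < J := by exact_mod_cast (by omega : 0 < J)
  have hs0 : 0 < s := by
    obtain ⟨h1, -⟩ := low_facts hJ hs hbig hs2
    linarith
  have hphi0 : 0 ≤ phi J s := le_trans (by positivity) hphi2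
  have hmin0 : 0 ≤ min s (ρ * phi J s) := le_min hs0.le (mul_nonneg (by linarith) hphi0)
  have hθ' : 1 / 1000 ≤ θ / 1000 := by gcongr
  constructor
  · have h1 : (10 : ℝ) ^ 7 * (s / J) ≤ δ * min s (ρ * phi J s) := by
      rw [mul_min_of_nonneg _ _ hδ]
      refine le_min ?_ ?_
      · calc (10 : ℝ) ^ 7 * (s / J) ≤ δ * J * (s / J) := by gcongr
          _ = δ * s := by field_simp
      · calc (10 : ℝ) ^ 7 * (s / J) ≤ δ * ρ * phi J s := by gcongr
          _ = δ * (ρ * phi J s) := by ring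
    calc (10 : ℝ) ^ 4 * (s / J) = 1 / 1000 * ((10 : ℝ) ^ 7 * (s / J)) := by ring
      _ ≤ θ / 1000 * (δ * min s (ρ * phi J s)) := by gcongr
      _ = δ * ee J θ ρ s := by unfold ee; ring
  · calc phi J s / 1000 = 1 / 1000 * phi J s := by ring
      _ ≤ θ / 1000 * min s (ρ * phi J s) := by
          gcongr
          exact le_min hphi1 (le_mul_of_one_le_left hphi0 hρ)

/-- The divisor weight bound. -/
theorem weight_sum {J : ℕ} (hJ : 20 ≤ J) {θ ρ δ : ℝ} (hbig : 100 * (J : ℝ) ^ 3 ≤ low J)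
    (hθ : 1 ≤ θ) (hρ : 1 ≤ ρ) (hδρ : (10 : ℝ) ^ 7 ≤ δ * ρ) (hδJ : (10 : ℝ) ^ 7 ≤ δ * J)
    (hδ : 0 ≤ δ) {E : ℝ} (hE : 5 * (10 : ℝ) ^ 6 ≤ E) {a : ℝ} (ha : low J ≤ a) {N : ℕ}
    (hN : 1 ≤ N) (hNS : Real.log N ≤ top J) :
    ∑ q ∈ N.divisors ∩ qRange a (top J), 2 * exp (-(E * ee J θ ρ (Real.log q))) ≤
      exp (-(low J / J)) := by
  classical
  have hJ0 : (0 : ℝ) < J := by exact_mod_cast (by omega : 0 < J)
  set Qs := N.divisors ∩ qRange a (top J) with hQs
  set kf := fun q : ℕ => ⌊Real.log q⌋₊ with hkf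
  set D := fun k : ℕ => exp (24 * (((k : ℝ) + 1) *
    (1 + Real.log ((top J + 1) / ((k : ℝ) + 1))) / Real.log ((k : ℝ) + 1))) with hD
  have hrange : ∀ q ∈ Qs, low J ≤ Real.log q ∧ Real.log q ≤ top J := by
    intro q hq
    obtain ⟨-, h1, h2⟩ := qRange_spec (mem_inter.1 hq).2
    exact ⟨ha.trans h1, h2⟩
  have hpt : ∀ q ∈ Qs, 2 * exp (-(E * ee J θ ρ (Real.log q))) ≤
      2 * exp (-(4000 * (low J / J))) * (1 / D (kf q)) := by
    intro q hq
    obtain ⟨h1, h2⟩ := hrange q hq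
    set s := Real.log q with hs
    obtain ⟨hsb, hls, hl1, -⟩ := low_facts hJ (by linarith : low J - 1 ≤ s) hbig h2
    obtain ⟨-, hphi2⟩ := phi_le_self hJ (by linarith : low J - 1 ≤ s) hbig h2
    obtain ⟨-, hee⟩ := ee_big hJ (by linarith : low J - 1 ≤ s) hbig h2 hθ hρ hδρ hδJ hδ
    have hs0 : 0 < s := by linarith [low_pos J]
    set k1 := (kf q : ℝ) + 1 with hk1
    have hk1a : s ≤ k1 := (Nat.lt_floor_add_one s).le
    have hk1b : k1 ≤ s + 1 := by
      have := Nat.floor_le hs0.le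
      simp only [hk1, hkf, ← hs]
      linarith
    have hk0 : 0 < k1 := by linarith
    have hlog : 1 + Real.log ((top J + 1) / k1) ≤ 2 * (1 + Real.log (top J / s)) := by
      have htop := top_pos J
      have h3 : Real.log ((top J + 1) / k1) ≤ Real.log (2 * (top J / s)) := by
        refine Real.log_le_log (by positivity) ?_
        calc (top J + 1) / k1 ≤ (top J + 1) / s := div_le_div_of_nonneg_left (by positivity) hs0 hk1a
          _ ≤ (2 * top J) / s := by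
            have : (20 : ℝ) ≤ J := by exact_mod_cast hJ
            gcongr; linarith
          _ = _ := by ring
      rw [Real.log_mul (by norm_num) (by positivity)] at h3
      linarith [Real.log_two_lt_d9]
    have hlk : (J : ℝ) / 2 ≤ Real.log k1 := hls.trans (Real.log_le_log hs0 hk1a)
    have hnum : k1 * (1 + Real.log ((top J + 1) / k1)) ≤ 4 * (s * (1 + Real.log (top J / s))) := by
      have hJ1 : (20 : ℝ) ≤ J := by exact_mod_cast hJ
      rcases le_total 0 (1 + Real.log ((top J + 1) / k1)) with h | h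
      · calc k1 * (1 + Real.log ((top J + 1) / k1))
            ≤ (2 * s) * (2 * (1 + Real.log (top J / s))) :=
              mul_le_mul (by linarith) hlog h (by linarith)
          _ = _ := by ring
      · exact le_trans (mul_nonpos_of_nonneg_of_nonpos hk0.le h) (by positivity)
    have hdiv : 24 * (k1 * (1 + Real.log ((top J + 1) / k1)) / Real.log k1) ≤ 200 * phi J s := by
      have h5 : k1 * (1 + Real.log ((top J + 1) / k1)) / Real.log k1 ≤
          4 * (s * (1 + Real.log (top J / s))) / ((J : ℝ) / 2) := by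
        refine div_le_div₀ (by positivity) hnum (by positivity) hlk
      calc _ ≤ 24 * (4 * (s * (1 + Real.log (top J / s))) / ((J : ℝ) / 2)) :=
            mul_le_mul_of_nonneg_left h5 (by norm_num)
        _ = 192 * phi J s := by unfold phi; field_simp; ring
        _ ≤ _ := by
            have : 0 ≤ phi J s := le_trans (by positivity) hphi2
            linarith
    have hEe : 5000 * phi J s ≤ E * ee J θ ρ s := by
      have h0 : 0 ≤ phi J s := le_trans (by positivity) hphi2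
      calc 5000 * phi J s = 5 * (10 : ℝ) ^ 6 * (phi J s / 1000) := by ring
        _ ≤ E * ee J θ ρ s := by gcongr
    have hlow : low J / J ≤ phi J s := le_trans (by gcongr) hphi2
    rw [mul_assoc]
    refine mul_le_mul_of_nonneg_left ?_ zero_le_two
    rw [one_div, hD, ← exp_neg, ← exp_add]
    refine exp_le_exp.2 ?_
    simp only [← hk1]
    have h0 : 0 ≤ phi J s := le_trans (by positivity) hphi2
    linarith
  refine (sum_le_sum hpt).trans ?_
  rw [← mul_sum]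
  have hsum : ∑ q ∈ Qs, 1 / D (kf q) ≤ top J + 1 := by
    rw [← sum_fiberwise_of_maps_to (t := Finset.range (⌊top J⌋₊ + 1)) (g := kf) (fun q hq =>
      Finset.mem_range.2 (Nat.lt_succ_of_le (Nat.floor_le_floor (hrange q hq).2)))]
    refine (sum_le_card_nsmul _ _ 1 fun k hk => ?_).trans ?_
    · rcases (Qs.filter fun q => kf q = k).eq_empty_or_nonempty with h | ⟨q₀, hq₀⟩
      · rw [h, sum_empty]; norm_num
      rw [mem_filter] at hq₀
      obtain ⟨h1, h2⟩ := hrange q₀ hq₀.1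
      obtain ⟨hsb, -⟩ := low_facts hJ (by linarith : low J - 1 ≤ Real.log q₀) hbig h2
      have hJ1 : (20 : ℝ) ≤ J := by exact_mod_cast hJ
      have hq0' : 0 ≤ Real.log q₀ := by linarith
      have hk1 : Real.log q₀ < (k : ℝ) + 1 := by
        rw [← hq₀.2]; exact Nat.lt_floor_add_one _
      have hk2 : (k : ℝ) ≤ top J := by
        rw [← hq₀.2]; exact (Nat.floor_le hq0').trans h2
      have hc := divisor_count hN (s := (k : ℝ) + 1) (S := top J + 1) (by linarith)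
        (by linarith) (by linarith)
      rw [sum_congr rfl (g := fun _ => 1 / D k) (fun q hq => by rw [(mem_filter.1 hq).2]),
        sum_const, nsmul_eq_mul, ← div_eq_mul_one_div, div_le_one (exp_pos _)]
      refine le_trans ?_ hc
      norm_cast
      refine card_le_card fun q hq => ?_
      simp only [mem_filter, hQs, mem_inter] at hq ⊢
      refine ⟨hq.1.1, ?_⟩
      rw [← hq.2]
      push_cast
      exact (Nat.lt_floor_add_one _).le
    · rw [card_range, nsmul_one]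
      push_cast
      linarith [Nat.floor_le (top_pos J).le]
  refine (mul_le_mul_of_nonneg_left hsum (by positivity)).trans ?_
  have hlow : 100 * (J : ℝ) ^ 2 ≤ low J / J := by
    rw [le_div_iff₀ hJ0]; linarith
  have htop : 2 * (top J + 1) ≤ exp (J + 4) := by
    have h1 : scale J ≤ exp J := by
      rw [scale, ← exp_one_pow]; exact pow_le_pow_left₀ (by norm_num)
        (by linarith [Real.exp_one_gt_d9]) _
    have h26 : (26 : ℝ) ≤ exp 4 := by
      have h2 : (2.7 : ℝ) ^ 4 ≤ exp 1 ^ 4 :=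
        pow_le_pow_left₀ (by norm_num) (by linarith [Real.exp_one_gt_d9]) 4
      rw [exp_one_pow] at h2
      norm_num at h2
      linarith
    have hs1 : 1 ≤ scale J := one_le_pow₀ (by norm_num)
    rw [exp_add]
    unfold top
    nlinarith [exp_pos (J : ℝ)]
  calc 2 * exp (-(4000 * (low J / J))) * (top J + 1)
      = exp (-(4000 * (low J / J))) * (2 * (top J + 1)) := by ring
    _ ≤ exp (-(4000 * (low J / J))) * exp (J + 4) := by gcongr
    _ ≤ exp (-(low J / J)) := by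
        rw [← exp_add]
        refine exp_le_exp.2 ?_
        have hJ1 : (20 : ℝ) ≤ J := by exact_mod_cast hJ
        nlinarith

theorem exp_two_le {x y : ℝ} (h : x + 1 ≤ y) : 2 * exp x ≤ exp y := by
  calc 2 * exp x ≤ exp 1 * exp x := by gcongr; linarith [Real.exp_one_gt_d9]
    _ = exp (1 + x) := (exp_add 1 x).symm
    _ ≤ exp y := exp_le_exp.2 (by linarith)

theorem step_grid {J : ℕ} {θ ρ δ a a' : ℝ}
    (hJ : 20 ≤ J) (hbig : 100 * (J : ℝ) ^ 3 ≤ low J) (hθ0 : 0 ≤ θ) (hρ0 : 0 ≤ ρ)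
    (ha' : low J ≤ a') (ha : a = 3 * a') (hδJ : (10 : ℝ) ^ 7 ≤ δ * J) (_hδ0 : 0 ≤ δ)
    (hee : ∀ s, low J - 1 ≤ s → s ≤ top J →
      (10 : ℝ) ^ 4 * (s / J) ≤ δ * ee J θ ρ s ∧ phi J s / 1000 ≤ ee J θ ρ s)
    (k' : ℕ) (s : ℝ) (h1 : a ≤ s) (h2 : s ≤ top J) (h3 : (k' : ℝ) ≤ s) (h4 : s < (k' : ℝ) + 1) :
    ee J θ ρ s ≤ (1 + δ / 2) * ee J θ ρ k' := by
  have hJ20 : (20 : ℝ) ≤ J := by exact_mod_cast hJ
  have hlow := low_pos J
  have hk : low J - 1 ≤ (k' : ℝ) := by linarith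
  obtain ⟨h5, -⟩ := low_facts hJ hk hbig (by linarith)
  have hk0 : (0 : ℝ) < k' := by linarith
  have h6 := ee_mono_div (J := J) hθ0 hρ0 hk0 h3
  have hs0 : 0 < s := by linarith
  have he : 0 ≤ ee J θ ρ k' := by
    have := (hee k' hk (by linarith)).2
    have hphi := (phi_le_self hJ hk hbig (by linarith)).2
    have hs : (0 : ℝ) ≤ (k' : ℝ) / J := by positivity
    linarith
  have h7 : s / k' ≤ 1 + δ / 2 := by
    rw [div_le_iff₀ hk0]
    have : (1 : ℝ) ≤ δ / 2 * k' := by nlinarith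
    nlinarith
  calc ee J θ ρ s = s / k' * ((k' : ℝ) / s * ee J θ ρ s) := by field_simp
    _ ≤ s / k' * ee J θ ρ k' := by gcongr
    _ ≤ (1 + δ / 2) * ee J θ ρ k' := by gcongr

theorem step_hP {J V' : ℕ} {θ θ' ρ ρ' δ U a a' : ℝ}
    (hJ : 20 ≤ J) (hbig : 100 * (J : ℝ) ^ 3 ≤ low J) (_hθ0 : 0 ≤ θ) (_hρ0 : 0 ≤ ρ)
    (hθ'0 : 0 ≤ θ') (hρ'0 : 0 ≤ ρ') (ha' : low J ≤ a') (ha : a = 3 * a') (_hδ0 : 0 ≤ δ)
    (hVJ : (V' : ℝ) * Real.log 2 ≤ 2 * J) (hlowJ : 100 * (J : ℝ) ^ 2 ≤ low J / J)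
    (hee : ∀ s, low J - 1 ≤ s → s ≤ top J →
      (10 : ℝ) ^ 4 * (s / J) ≤ δ * ee J θ ρ s ∧ phi J s / 1000 ≤ ee J θ ρ s)
    (hprodρ : ∀ s, 0 < s → low J - 1 ≤ s → s ≤ top J →
      (1 + 4 * δ) * ee J θ ρ s ≤ V' * ee J θ' ρ' s)
    (hsmallE : ∀ s, 0 ≤ s → low J - 1 ≤ s → s ≤ top J →
      (1 + 4 * δ) * ee J θ ρ s ≤ s / 2)
    (heGinv : ∀ s, 0 < s → exp (-(4 * U)) ≤ exp (-((1 + 4 * δ) * ee J θ ρ s))) {G : ℕ} (hG0 : 0 < G) (hGinv : 1 / (G : ℝ) ≤ exp (-(4 * U)))
    (Z : Fin V' → RV)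
    (hP : ∀ q : ℕ, 0 < q → a' ≤ Real.log q → Real.log q ≤ top J →
      ∏ t, (Z t).P q ≤ exp (-(V' * ee J θ' ρ' (Real.log q))))
    (q : ℕ) (hq : 0 < q) (h1 : a ≤ Real.log q) (h2 : Real.log q ≤ top J) :
    avg (fun μ : Fin V' → Fin G => (comb μ Z).P q) ≤
      exp (-((1 + δ) * ee J θ ρ (Real.log q))) := by
  have hJ0 : (0 : ℝ) < J := by exact_mod_cast (by omega : 0 < J)
  have hJ20 : (20 : ℝ) ≤ J := by exact_mod_cast hJ
  have hJJ : (J : ℝ) ≤ (J : ℝ) ^ 2 := by nlinarith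
  have hJ3 := le_self_pow₀ (by linarith : (1 : ℝ) ≤ J) (by norm_num : 3 ≠ 0)
  have hlow := low_pos J
  set s := Real.log q with hs
  have hlo : low J - 1 ≤ s := by linarith
  obtain ⟨hbs, hls, -, -⟩ := low_facts hJ hlo hbig h2
  have hs0 : 0 < s := by linarith
  have hstep := step_P (G := G) Z hG0 hq (f := fun t => V' * ee J θ' ρ' t)
    (fun d hd h3 => hP d (Nat.pos_of_dvd_of_pos hd hq) (by linarith) (le_trans
      (Real.log_le_log (by exact_mod_cast Nat.pos_of_dvd_of_pos hd hq)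
        (by exact_mod_cast Nat.le_of_dvd hq hd)) h2))
    (fun t ht ht' => by
      rw [mul_left_comm]
      exact mul_le_mul_of_nonneg_left (ee_mono_div hθ'0 hρ'0 ht ht') (Nat.cast_nonneg _))
    hs0
  refine hstep.trans ?_
  have hdc : (q.divisors.card : ℝ) ≤ exp (48 * (s / J)) := by
    have hc := divisor_count (N := q) hq (s := s) (S := s) (by linarith) le_rfl le_rfl
    rw [div_self hs0.ne', Real.log_one, add_zero, mul_one] at hc
    have hf : (q.divisors.filter fun d : ℕ => Real.log d ≤ s) = q.divisors := by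
      refine filter_true_of_mem fun d hd => ?_
      rw [Nat.mem_divisors] at hd
      exact Real.log_le_log (by exact_mod_cast Nat.pos_of_dvd_of_pos hd.1 hq)
        (by exact_mod_cast Nat.le_of_dvd hq hd.1)
    rw [hf] at hc
    refine hc.trans (exp_le_exp.2 ?_)
    calc 24 * (s / Real.log s) ≤ 24 * (s / ((J : ℝ) / 2)) := by gcongr
      _ = 48 * (s / J) := by ring
  set E := (1 + 4 * δ) * ee J θ ρ s with hE
  have hm : exp (-min (s / 2) ((V' : ℝ) * ee J θ' ρ' s)) ≤ exp (-E) :=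
    exp_le_exp.2 (neg_le_neg (le_min (hsmallE s hs0.le hlo h2) (hprodρ s hs0 hlo h2)))
  have h48 : 1 ≤ exp (48 * (s / J)) := Real.one_le_exp (by positivity)
  calc 2 ^ V' * (1 / (G : ℝ) + q.divisors.card *
        exp (-min (s / 2) ((V' : ℝ) * ee J θ' ρ' s)))
      ≤ 2 ^ V' * (exp (48 * (s / J)) * exp (-E) + exp (48 * (s / J)) * exp (-E)) := by
        gcongr
        exact (hGinv.trans (heGinv s hs0)).trans
          (le_mul_of_one_le_left (exp_pos _).le h48)
    _ = 2 * exp ((V' : ℝ) * Real.log 2 + 48 * (s / J) - E) := by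
        rw [sub_eq_add_neg, exp_add, exp_add, exp_nat_mul, exp_log two_pos]; ring
    _ ≤ exp (-((1 + δ) * ee J θ ρ s)) := by
        refine exp_two_le ?_
        have h5 := (hee s hlo h2).1
        have h6 : 99 ≤ s / J := by rw [le_div_iff₀ hJ0]; linarith
        have h7 : (J : ℝ) ≤ low J / J := by linarith
        have h8 : low J / J ≤ 2 * (s / J) := by
          rw [← mul_div_assoc]; gcongr; linarith
        linarith

theorem step_hI {J V' : ℕ} {θ θ' ρ ρ' δ U a a' : ℝ}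
    (hJ : 20 ≤ J) (hbig : 100 * (J : ℝ) ^ 3 ≤ low J) (_hθ0 : 0 ≤ θ) (_hρ0 : 0 ≤ ρ)
    (hθ'0 : 0 ≤ θ') (hρ'0 : 0 ≤ ρ') (ha' : low J ≤ a') (ha : a = 3 * a') (_hδ0 : 0 ≤ δ)
    (hVJ : (V' : ℝ) * Real.log 2 ≤ 2 * J) (hlowJ : 100 * (J : ℝ) ^ 2 ≤ low J / J)
    (hee : ∀ s, low J - 1 ≤ s → s ≤ top J →
      (10 : ℝ) ^ 4 * (s / J) ≤ δ * ee J θ ρ s ∧ phi J s / 1000 ≤ ee J θ ρ s)
    (hprodρ : ∀ s, 0 < s → low J - 1 ≤ s → s ≤ top J →
      (1 + 4 * δ) * ee J θ ρ s ≤ V' * ee J θ' ρ' s)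
    (hsmallE : ∀ s, 0 ≤ s → low J - 1 ≤ s → s ≤ top J →
      (1 + 4 * δ) * ee J θ ρ s ≤ s / 2)
    (heGinv : ∀ s, 0 < s → exp (-(4 * U)) ≤ exp (-((1 + 4 * δ) * ee J θ ρ s))) {G : ℕ} (hG0 : 0 < G) (hGinv : 1 / (G : ℝ) ≤ exp (-(4 * U)))
    (hV' : 1 ≤ V') (hV'J : V' ≤ 2 * J) {L : ℕ} (hL : 0 < L)
    (Z : Fin V' → RV)
    (hI : ∀ t, ∀ s, a' ≤ s → s ≤ top J → (Z t).I L s ≤ exp (-ee J θ' ρ' s))
    (k' : ℕ) (h1 : a - 1 ≤ (k' : ℝ)) (h2 : (k' : ℝ) ≤ top J) :
    avg (fun μ : Fin V' → Fin G => (comb μ Z).I (V' * G * L) k') ≤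
      exp (-((1 + δ) * ee J θ ρ k')) := by
  have hJ0 : (0 : ℝ) < J := by exact_mod_cast (by omega : 0 < J)
  have hJ20 : (20 : ℝ) ≤ J := by exact_mod_cast hJ
  have hJJ : (J : ℝ) ≤ (J : ℝ) ^ 2 := by nlinarith
  have hJ3 := le_self_pow₀ (by linarith : (1 : ℝ) ≤ J) (by norm_num : 3 ≠ 0)
  have hlow := low_pos J
  have hlo : low J - 1 ≤ (k' : ℝ) := by linarith
  obtain ⟨hbs, -, -, -⟩ := low_facts hJ hlo hbig h2
  have hk0 : (0 : ℝ) < k' := by linarith
  have hk' : 1 ≤ k' := by exact_mod_cast (by linarith : (1 : ℝ) ≤ k')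
  set k₀ := (k' + 1) / 2 with hk₀
  have hk₀a : (k' : ℝ) / 2 ≤ k₀ := by
    rw [div_le_iff₀ two_pos]
    have : k' ≤ k₀ * 2 := by omega
    exact_mod_cast this
  have hk₀b : (k₀ : ℝ) ≤ (k' : ℝ) / 2 + 1 := by
    have : k₀ * 2 ≤ k' + 2 := by omega
    have : (k₀ : ℝ) * 2 ≤ (k' : ℝ) + 2 := by exact_mod_cast this
    linarith
  have hstep := step_I (G := G) Z hG0 hV' hL (k := k') (k₀ := k₀) (by omega) hk₀b (by omega)
    (f := fun t => V' * ee J θ' ρ' t)
    (fun i hi1 hi2 => by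
      have hia : a' ≤ (i : ℝ) := by
        have : (k₀ : ℝ) ≤ i := by exact_mod_cast hi1
        linarith
      refine (prod_le_prod (fun j _ => (Z j).I_nonneg L i) fun j _ => hI j i hia
        (le_trans (by exact_mod_cast hi2) h2)).trans_eq ?_
      rw [prod_const, card_univ, Fintype.card_fin, ← exp_nat_mul, mul_neg])
    (fun t ht ht' => by
      rw [mul_left_comm]
      exact mul_le_mul_of_nonneg_left (ee_mono_div hθ'0 hρ'0 ht ht') (Nat.cast_nonneg _))
  refine hstep.trans ?_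
  set E := (1 + 4 * δ) * ee J θ ρ k' with hE
  have hm : exp (-min ((k' : ℝ) / 2) ((V' : ℝ) * ee J θ' ρ' k')) ≤ exp (-E) :=
    exp_le_exp.2 (neg_le_neg (le_min (hsmallE _ hk0.le hlo h2) (hprodρ _ hk0 hlo h2)))
  have hK : ((k' : ℝ) + 2) * (2 * V' * exp 2) ≤ exp (5 * J) := by
    have hn : scale J ≤ exp J := by
      rw [scale, ← exp_one_pow]; exact pow_le_pow_left₀ (by norm_num)
        (by linarith [Real.exp_one_gt_d9]) _
    have h14 : (14 : ℝ) * 4 ≤ exp J := by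
      have := Real.quadratic_le_exp_of_nonneg hJ0.le
      nlinarith
    have hJe : (J : ℝ) ≤ exp J := by linarith [Real.add_one_le_exp (J : ℝ)]
    have hkk : (k' : ℝ) + 2 ≤ 14 * exp J := by
      unfold top at h2
      linarith [Real.one_le_exp hJ0.le]
    have h1' : (V' : ℝ) ≤ 2 * J := by exact_mod_cast hV'J
    calc ((k' : ℝ) + 2) * (2 * V' * exp 2) ≤ (14 * exp J) * (2 * (2 * exp J) * exp J) := by
          gcongr <;> linarith
      _ = (14 * 4) * exp (3 * (J : ℝ)) := by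
          rw [show 3 * (J : ℝ) = J + J + J by ring, exp_add, exp_add]; ring
      _ ≤ exp J * exp (3 * (J : ℝ)) := by gcongr
      _ ≤ exp (5 * J) := by rw [← exp_add]; exact exp_le_exp.2 (by linarith)
  calc 1 / (G : ℝ) + ((k' : ℝ) + 2) * (2 * V' * exp 2) *
        exp (-min ((k' : ℝ) / 2) ((V' : ℝ) * ee J θ' ρ' k'))
      ≤ exp (5 * J) * exp (-E) + exp (5 * J) * exp (-E) := by
        gcongr
        exact (hGinv.trans (heGinv _ hk0)).trans
          (le_mul_of_one_le_left (exp_pos _).le (Real.one_le_exp (by positivity)))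
    _ = 2 * exp (5 * J - E) := by rw [sub_eq_add_neg, exp_add]; ring
    _ ≤ exp (-((1 + δ) * ee J θ ρ k')) := by
        refine exp_two_le ?_
        have h5 := (hee _ hlo h2).1
        have h7 : (J : ℝ) ≤ low J / J := by linarith
        have h8 : low J / J ≤ 2 * ((k' : ℝ) / J) := by
          rw [← mul_div_assoc]; gcongr; linarith
        linarith

set_option maxHeartbeats 800000 in
/-- one step of the tree. -/
theorem level_step {J V V' : ℕ} {θ θ' ρ ρ' δ a a' Mb Lb : ℝ} {k : ℕ}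
    (h : Level J V' θ' ρ' a' Mb Lb k) (hJ : 20 ≤ J) (hbig : 100 * (J : ℝ) ^ 3 ≤ low J)
    (hθ1 : 1 ≤ θ) (hθ2 : θ ≤ 2) (hθ' : θ * (1 + 4 * δ) ≤ θ')
    (hδ0 : 0 ≤ δ) (hδ1 : δ ≤ 1 / 4) (hρ : (V' : ℝ) * ρ' = ρ) (hρ1 : 1 ≤ ρ) (hρ'0 : 0 ≤ ρ')
    (hV' : 1 ≤ V') (hV'J : V' ≤ 2 * J)
    (hV : 1 ≤ V) (hVn : V ≤ 2 ^ J) (hδρ : (10 : ℝ) ^ 7 ≤ δ * ρ) (hδJ : (10 : ℝ) ^ 7 ≤ δ * J)
    (hδV : (10 : ℝ) ^ 7 ≤ δ * ((V : ℝ) - 1)) (ha' : low J ≤ a') (ha : a = 3 * a')
    (hLtop : Lb + Real.log V' + (4 * UU J θ ρ + 1) ≤ top J) :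
    Level J V θ ρ a (Mb + V * V' * (4 * UU J θ ρ + 1))
      (Lb + Real.log V' + (4 * UU J θ ρ + 1)) (V' * k) := by
  obtain ⟨Z, M, L, hM, hL, hMb, hLb, hY, hrep, hP, hI, hP0⟩ := h
  have hJ0 : (0 : ℝ) < J := by exact_mod_cast (by omega : 0 < J)
  have hJ20 : (20 : ℝ) ≤ J := by exact_mod_cast hJ
  have hθ0 : 0 ≤ θ := by linarith
  have hρ0 : 0 ≤ ρ := by linarith
  have hθ'0 : 0 ≤ θ' := le_trans (by positivity) hθ'
  have hlow := low_pos J
  have hJ3 := le_self_pow₀ (by linarith : (1 : ℝ) ≤ J) (by norm_num : 3 ≠ 0)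
  set U := UU J θ ρ with hU
  set ε := exp (-(low J / J)) with hε
  have hVJ : (V' : ℝ) * Real.log 2 ≤ 2 * J := by
    have h1 : (V' : ℝ) ≤ 2 * J := by exact_mod_cast hV'J
    nlinarith [Real.log_two_lt_d9, Real.log_two_gt_d9, (Nat.cast_nonneg V' : (0 : ℝ) ≤ V')]
  have hee : ∀ s, low J - 1 ≤ s → s ≤ top J →
      (10 : ℝ) ^ 4 * (s / J) ≤ δ * ee J θ ρ s ∧ phi J s / 1000 ≤ ee J θ ρ s :=
    fun s h1 h2 => ee_big hJ h1 hbig h2 hθ1 hρ1 hδρ hδJ hδ0
  have hphitop : phi J (top J) = top J / J := by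
    simp [phi, div_self (top_pos J).ne']
  have hsJ : low J ≤ top J := by
    have h1 : (1 : ℝ) ≤ 4 ^ (J / 20) := one_le_pow₀ (by norm_num)
    have h2 : low J ≤ scale J := div_le_self (scale_pos J).le h1
    unfold top
    linarith [scale_pos J]
  have hUlow : 5000 * (low J / J) ≤ δ * U := by
    have h1 := (hee (top J) (by linarith) le_rfl).1
    have h2 := ee_le_UU (J := J) hθ0 hρ0 (top_pos J)
    calc 5000 * (low J / J) ≤ (10 : ℝ) ^ 4 * (top J / J) := by
          gcongr <;> linarith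
      _ ≤ δ * ee J θ ρ (top J) := h1
      _ ≤ δ * U := by gcongr
  have hlowJ : 100 * (J : ℝ) ^ 2 ≤ low J / J := by rw [le_div_iff₀ hJ0]; linarith
  have hJJ : (J : ℝ) ≤ (J : ℝ) ^ 2 := by nlinarith
  have hU0 : 1000 * (J : ℝ) ≤ U := by
    nlinarith [mul_le_mul_of_nonneg_right hδ1 (show 0 ≤ U by
      rw [hU]; unfold UU; have := top_pos J; positivity)]
  set G := ⌈exp (4 * U)⌉₊ with hG
  have hG0 : 0 < G := Nat.ceil_pos.2 (exp_pos _)
  have hGr : exp (4 * U) ≤ (G : ℝ) := Nat.le_ceil _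
  have hGlog : Real.log G ≤ 4 * U + 1 := by
    rw [← Real.log_exp (4 * U + 1)]
    refine Real.log_le_log (by exact_mod_cast hG0) ?_
    calc (G : ℝ) ≤ exp (4 * U) + 1 := (Nat.ceil_lt_add_one (exp_pos _).le).le
      _ ≤ 2 * exp (4 * U) := by linarith [Real.one_le_exp (show 0 ≤ 4 * U by linarith)]
      _ ≤ exp (4 * U + 1) := exp_two_le le_rfl
  have hGinv : 1 / (G : ℝ) ≤ exp (-(4 * U)) := by
    rw [exp_neg, one_div]; exact inv_anti₀ (exp_pos _) hGr
  set L' := V' * G * L with hL'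
  have hL'0 : 0 < L' := Nat.mul_pos (Nat.mul_pos (by omega) hG0) hL
  have hL'log : Real.log L' ≤ Lb + Real.log V' + (4 * U + 1) := by
    rw [hL']
    push_cast
    rw [Real.log_mul (mul_ne_zero (by exact_mod_cast (by omega : V' ≠ 0))
        (by exact_mod_cast hG0.ne')) (by exact_mod_cast hL.ne'),
      Real.log_mul (by exact_mod_cast (by omega : V' ≠ 0)) (by exact_mod_cast hG0.ne')]
    linarith
  set Γ := Fin V' → Fin G
  have : Nonempty Γ := ⟨fun _ => ⟨0, hG0⟩⟩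
  set F : Γ → RV := fun γ => comb γ Z with hF
  have hYF : ∀ γ ω, (F γ).Y ω ≤ L' := by
    intro γ ω
    change ∑ j, ((γ j : ℕ) + 1) * (Z j).Y (ω j) ≤ L'
    refine (sum_le_card_nsmul _ _ (G * L) fun j _ => ?_).trans_eq (by simp [hL', mul_assoc])
    exact Nat.mul_le_mul (γ j).isLt (hY j _)
  have hprodρ : ∀ s, 0 < s → low J - 1 ≤ s → s ≤ top J →
      (1 + 4 * δ) * ee J θ ρ s ≤ V' * ee J θ' ρ' s := by
    intro s hs0 h1 h2
    have hphi : 0 ≤ phi J s := le_trans (by positivity) (phi_le_self hJ h1 hbig h2).2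
    have hV1 : (1 : ℝ) ≤ V' := by exact_mod_cast hV'
    calc (1 + 4 * δ) * ee J θ ρ s = θ * (1 + 4 * δ) / 1000 * min s (ρ * phi J s) := by
          unfold ee; ring
      _ ≤ θ' / 1000 * min ((V' : ℝ) * s) (ρ * phi J s) := by
          have h5 : s ≤ (V' : ℝ) * s := le_mul_of_one_le_left hs0.le hV1
          have h0 : 0 ≤ min s (ρ * phi J s) := le_min hs0.le (mul_nonneg hρ0 hphi)
          gcongr
      _ = V' * ee J θ' ρ' s := by
          unfold ee
          rw [← hρ, mul_assoc, ← mul_min_of_nonneg _ _ (Nat.cast_nonneg V')]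
          ring
  have hsmallE : ∀ s, 0 ≤ s → low J - 1 ≤ s → s ≤ top J →
      (1 + 4 * δ) * ee J θ ρ s ≤ s / 2 := by
    intro s hs h1 h2
    have h3 : ee J θ ρ s ≤ 2 / 1000 * s := by
      unfold ee
      have hphi : 0 ≤ phi J s := le_trans (by positivity) (phi_le_self hJ h1 hbig h2).2
      exact mul_le_mul (by gcongr) (min_le_left _ _)
        (le_min hs (mul_nonneg hρ0 hphi)) (by norm_num)
    calc (1 + 4 * δ) * ee J θ ρ s ≤ (1 + 4 * δ) * (2 / 1000 * s) := by gcongr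
      _ ≤ s / 2 := by nlinarith
  have heGinv : ∀ s, 0 < s → exp (-(4 * U)) ≤ exp (-((1 + 4 * δ) * ee J θ ρ s)) := by
    intro s hs
    refine exp_le_exp.2 ?_
    have := ee_le_UU (J := J) hθ0 hρ0 hs
    rw [← hU] at this
    have hU' : 0 ≤ U := by linarith
    nlinarith
  obtain ⟨μ, h1, h2, h3⟩ := select (S := top J) (a := a) (U := U) (δ := δ) (ε := ε) V hV F hYF
    (ee J θ ρ) (by linarith) hδ0 (by linarith [Real.log_two_lt_d9]) (exp_pos _).le
    (fun s h1 h2 => by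
      have := (hee s (by linarith) h2).2
      have hphi := (phi_le_self hJ (by linarith : low J - 1 ≤ s) hbig h2).2
      have hs : (0 : ℝ) ≤ s / J := div_nonneg (by linarith) hJ0.le
      linarith)
    (fun s h1 _ => ee_le_UU hθ0 hρ0 (by linarith))
    (step_grid hJ hbig hθ0 hρ0 ha' ha hδJ hδ0 hee)
    (step_hP hJ hbig hθ0 hρ0 hθ'0 hρ'0 ha' ha hδ0 hVJ hlowJ hee hprodρ hsmallE heGinv hG0 hGinv Z hP)
    (step_hI hJ hbig hθ0 hρ0 hθ'0 hρ'0 ha' ha hδ0 hVJ hlowJ hee hprodρ hsmallE heGinv hG0 hGinv hV'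
      hV'J hL Z hI)
    (by
      refine (avg_comb_P0 Z hG0).trans ?_
      have h1 : ∏ j, (Z j).P0 ≤ exp (-((2 + 8 * δ) * U)) := by
        refine (prod_le_prod (fun j _ => (Z j).P0_nonneg) fun j _ => hP0 j).trans ?_
        rw [prod_const, card_univ, Fintype.card_fin, ← exp_nat_mul]
        refine exp_le_exp.2 ?_
        have e : (V' : ℝ) * UU J θ' ρ' = θ' / 1000 * (ρ * (top J / J)) := by
          unfold UU; rw [← hρ]; ring
        have hpos : 0 ≤ ρ * (top J / J) := by have := top_pos J; positivity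
        have e2 : (1 + 4 * δ) * U ≤ θ' / 1000 * (ρ * (top J / J)) := by
          rw [hU]; unfold UU
          nlinarith [mul_le_mul_of_nonneg_right hθ' hpos]
        linarith
      have h2 : exp (-(4 * U)) ≤ exp (-((2 + 8 * δ) * U)) := exp_le_exp.2 (by nlinarith)
      calc (∏ j, (Z j).P0) + 1 / (G : ℝ) ≤ 2 * exp (-((2 + 8 * δ) * U)) := by linarith
        _ ≤ _ := exp_two_le (by linarith))
    (exp_le_exp.2 (by linarith))
    (fun k' h1 h2 => exp_le_exp.2 (by
      have := (hee (k' : ℝ) (by linarith) h2).1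
      have h8 : low J / J ≤ 2 * ((k' : ℝ) / J) := by
        rw [← mul_div_assoc]
        gcongr
        linarith
      linarith))
    (fun N hN hNL => weight_sum hJ hbig hθ1 hρ1 hδρ hδJ hδ0 (by linarith) (by linarith) hN
      (((Real.log_le_log (by exact_mod_cast hN) (by exact_mod_cast hNL)).trans hL'log).trans
        hLtop))
    (by
      have hn : scale J ≤ exp J := by
        rw [scale, ← exp_one_pow]; exact pow_le_pow_left₀ (by norm_num)
          (by linarith [Real.exp_one_gt_d9]) _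
      have hfl : (⌊top J⌋₊ : ℝ) + 3 ≤ 15 * exp J := by
        have := Nat.floor_le (top_pos J).le
        unfold top at this ⊢
        linarith [Real.one_le_exp hJ0.le]
      have hVr : (V : ℝ) ≤ exp J := by
        refine le_trans ?_ hn
        rw [scale_eq_cast]
        exact_mod_cast hVn
      calc (V : ℝ) * ε * (⌊top J⌋₊ + 3) ≤ exp J * ε * (15 * exp J) := by gcongr
        _ = 15 * exp (2 * J - low J / J) := by
            rw [hε, sub_eq_add_neg, exp_add, two_mul, exp_add]; ring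
        _ < 1 := by
            have h15 : (15 : ℝ) < exp J := by linarith [Real.add_one_le_exp (J : ℝ)]
            calc 15 * exp (2 * J - low J / J) < exp J * exp (2 * J - low J / J) := by gcongr
              _ ≤ 1 := by rw [← exp_add]; exact exp_le_one_iff.2 (by linarith))
  refine ⟨fun t => F (μ t), M * ∏ t, ∏ j, ((μ t j : ℕ) + 1), L', ?_, hL'0, ?_, hL'log,
    fun t ω => hYF _ ω, ?_, h1, h2, h3⟩
  · exact Nat.mul_pos hM (prod_pos fun t _ => prod_pos fun j _ => Nat.succ_pos _)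
  · have hle : ∏ t, ∏ j, ((μ t j : ℕ) + 1) ≤ G ^ (V * V') := by
      rw [pow_mul']
      refine (prod_le_pow_card _ _ (G ^ V') fun t _ =>
        (prod_le_pow_card _ _ G fun j _ => (μ t j).isLt).trans_eq (by simp)).trans_eq (by simp)
    have hpos : 0 < ∏ t, ∏ j, ((μ t j : ℕ) + 1) :=
      prod_pos fun t _ => prod_pos fun j _ => Nat.succ_pos _
    rw [Nat.cast_mul, Real.log_mul (by exact_mod_cast (by omega : M ≠ 0))
      (by exact_mod_cast hpos.ne')]
    refine add_le_add hMb ((Real.log_le_log (by exact_mod_cast hpos)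
      (by exact_mod_cast hle : _ ≤ (((G ^ (V * V') : ℕ)) : ℝ))).trans ?_)
    push_cast
    rw [Real.log_pow]
    push_cast
    gcongr
  · intro t ω
    choose l hl using fun j => hrep j (ω j)
    refine ⟨(List.finRange V').flatMap fun j => (l j).map fun d => ((μ t j : ℕ) + 1) * d,
      ?_, ?_, ?_⟩
    · rw [List.length_flatMap]
      refine (List.sum_le_card_nsmul _ k fun x hx => ?_).trans_eq (by simp)
      obtain ⟨j, -, rfl⟩ := List.mem_map.1 hx
      simpa using (hl j).1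
    · intro d hd
      obtain ⟨j, -, hd⟩ := List.mem_flatMap.1 hd
      obtain ⟨d', hd', rfl⟩ := List.mem_map.1 hd
      rw [Nat.mul_comm]
      refine mul_dvd_mul ((hl j).2.1 d' hd') ?_
      exact (dvd_prod_of_mem (fun j => (μ t j : ℕ) + 1) (mem_univ j)).trans
        (dvd_prod_of_mem (fun t => ∏ j, ((μ t j : ℕ) + 1)) (mem_univ t))
    · have hs : ∀ j, ((l j).map fun d => ((μ t j : ℕ) + 1) * d).sum =
          ((μ t j : ℕ) + 1) * (Z j).Y (ω j) := fun j => by
        rw [List.sum_map_mul_left, List.map_id', (hl j).2.2]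
      rw [List.flatMap_def, List.sum_flatten, List.map_map]
      simp only [Function.comp_def, hs]
      rw [← Fin.sum_univ_def]
      rfl

end Vale.Agent.P012
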