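import Vale.Agent.P012.Step
import Vale.Agent.P012.Leaf

/- P012: the tree, from the leaves to the root. -/

namespace Vale.Agent.P012

open Finset Real

/-- number of types at the root, in bits. -/
def cc : ℕ := 28

/-- sum of the first `i` branching exponents. -/
def pre (i : ℕ) : ℕ := ∑ l ∈ Finset.range i, (l + 1 + cc)

/-- total branching exponent. -/
def sexp (J : ℕ) : ℕ := Nat.clog 2 J

/-- depth. -/
def depth (J : ℕ) : ℕ := Nat.findGreatest (fun T => pre T ≤ sexp J) (sexp J)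

/-- remaining branching exponent below level `i`. -/
def remExp (J i : ℕ) : ℕ := if i < depth J then sexp J - pre i else 0

/-- log of the number of types at level `i`. -/
def vexp (J i : ℕ) : ℕ := if i = 0 then cc else remExp J (i - 1) - remExp J i

theorem pre_succ (i : ℕ) : pre (i + 1) = pre i + (i + 1 + cc) := sum_range_succ _ _

theorem pre_mono {i j : ℕ} (h : i ≤ j) : pre i ≤ pre j := by
  unfold pre; gcongr

theorem le_pre (i : ℕ) : i * (1 + cc) ≤ pre i ∧ i * cc + i ≤ pre i ∧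
    2 * (i * cc) + i * (i + 1) = 2 * pre i := by
  induction i with
  | zero => simp [pre]
  | succ i ih =>
    obtain ⟨h1, h2, h3⟩ := ih
    rw [pre_succ]
    refine ⟨by nlinarith, by nlinarith, by nlinarith⟩

/-- facts about the shape of the tree. -/
theorem depth_facts {J : ℕ} (hS : 1 + cc ≤ sexp J) :
    1 ≤ depth J ∧ pre (depth J) ≤ sexp J ∧ sexp J < pre (depth J + 1) := by
  set T := depth J with hT
  have h0 : pre T ≤ sexp J :=
    Nat.findGreatest_spec (P := fun T => pre T ≤ sexp J) (m := 0) (Nat.zero_le _) (by simp [pre])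
  have h1 : 1 ≤ T := Nat.le_findGreatest (by omega) (by simpa [pre] using hS)
  refine ⟨h1, h0, ?_⟩
  by_contra h
  rw [not_lt] at h
  have hle : T + 1 ≤ sexp J := le_trans (by nlinarith) ((le_pre (T + 1)).1.trans h)
  exact Nat.findGreatest_is_greatest (Nat.lt_succ_self T) hle h

theorem vexp_facts {J : ℕ} (hS : 1 + cc ≤ sexp J) {i : ℕ} (hi : i < depth J) :
    vexp J (i + 1) + remExp J (i + 1) = remExp J i ∧ i + 1 + cc ≤ vexp J (i + 1) ∧
      vexp J (i + 1) ≤ 2 * (i + 1 + cc) := by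
  obtain ⟨-, h0, h2⟩ := depth_facts hS
  have hm1 : pre (i + 1) ≤ pre (depth J) := pre_mono hi
  have hs := pre_succ i
  have hd := pre_succ (depth J)
  simp only [vexp, Nat.succ_ne_zero, if_false, Nat.add_sub_cancel, remExp, if_pos hi]
  rcases Nat.lt_or_ge (i + 1) (depth J) with h | h
  · rw [if_pos h]
    omega
  · have e : depth J = i + 1 := by omega
    rw [if_neg (by omega)]
    rw [e] at h0 h2 hd
    omega

theorem remExp_zero {J : ℕ} (hS : 1 + cc ≤ sexp J) : remExp J 0 = sexp J := by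
  obtain ⟨h1, -, -⟩ := depth_facts hS
  simp [remExp, pre, (by omega : 0 < depth J)]

theorem Level.mono {J V : ℕ} {θ ρ a Mb Lb Mb' Lb' : ℝ} {k : ℕ} (h : Level J V θ ρ a Mb Lb k)
    (hM : Mb ≤ Mb') (hL : Lb ≤ Lb') : Level J V θ ρ a Mb' Lb' k := by
  obtain ⟨Z, M, L, h1, h2, h3, h4, h5⟩ := h
  exact ⟨Z, M, L, h1, h2, h3.trans hM, h4.trans hL, h5⟩

theorem Level.cast_k {J V : ℕ} {θ ρ a Mb Lb : ℝ} {k k' : ℕ} (h : Level J V θ ρ a Mb Lb k)
    (hk : k = k') : Level J V θ ρ a Mb Lb k' := hk ▸ h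

set_option maxHeartbeats 1000000 in
theorem tree_step {J : ℕ} (hJbig : 2 ^ 60 ≤ J) (hbig : 100 * (J : ℝ) ^ 3 ≤ low J)
    (hS1 : 1 + cc ≤ sexp J) (hSJ : 2 ^ sexp J ≤ 2 * J) (hδJnat : 2 ^ depth J * (8 * 10 ^ 7) ≤ J)
    {d i : ℕ} (hd : d + 1 ≤ depth J) (hiT : i < depth J)
    (h : Level J (2 ^ vexp J (i + 1)) (2 - (1 / 2) ^ (i + 1))
      ((2 : ℝ) ^ remExp J (i + 1)) ((3 : ℝ) ^ d * low J)
      (10 * scale J + (2 : ℝ) ^ (3 * cc + 10) * scale J * 2 * (1 / 2) ^ (i + 1))
      (4 * scale J + 0.4 * scale J * (1 / 2) ^ (i + 1) + d * (3 * J)) (2 * 2 ^ remExp J (i + 1))) :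
    Level J (2 ^ vexp J i) (2 - (1 / 2) ^ i)
      ((2 : ℝ) ^ remExp J i) ((3 : ℝ) ^ (d + 1) * low J)
      (10 * scale J + (2 : ℝ) ^ (3 * cc + 10) * scale J * 2 * (1 / 2) ^ i)
      (4 * scale J + 0.4 * scale J * (1 / 2) ^ i + ((d + 1 : ℕ) : ℝ) * (3 * J))
      (2 * 2 ^ remExp J i) := by
  have hJ20 : 20 ≤ J := le_trans (by norm_num) hJbig
  have hJ0 : (0 : ℝ) < J := by exact_mod_cast (by omega : 0 < J)
  have hn := scale_pos J
  obtain ⟨hT1, hT2, hT3⟩ := depth_facts hS1
  set S := sexp J with hSdef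
  set T := depth J with hTdef
  have hTS : T * cc + T ≤ S := (le_pre T).2.1.trans hT2
  set Kb : ℝ := (2 : ℝ) ^ (3 * cc + 10) with hKb
  obtain ⟨hv1, hv2, hv3⟩ := vexp_facts hS1 hiT
  have hremS : remExp J i + pre i = S := by
    have := pre_mono hiT.le
    simp only [remExp, ← hTdef, if_pos hiT]
    omega
  have hρeq : ((2 ^ vexp J (i + 1) : ℕ) : ℝ) * (2 : ℝ) ^ remExp J (i + 1) =
      (2 : ℝ) ^ remExp J i := by
    push_cast; rw [← pow_add, hv1]
  set x : ℝ := (1 / 2) ^ i with hx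
  have hx0 : 0 < x := by positivity
  have hx1 : x ≤ 1 := pow_le_one₀ (by norm_num) (by norm_num)
  have hxi : x * (2 : ℝ) ^ i = 1 := by rw [hx, ← mul_pow]; norm_num
  have hxs : ((1 : ℝ) / 2) ^ (i + 1) = x / 2 := by rw [hx, pow_succ]; ring
  have hρlo : (2 : ℝ) ^ (i + 1 + cc) ≤ (2 : ℝ) ^ remExp J i :=
    pow_le_pow_right₀ (by norm_num) (by omega)
  have hVlo : i + cc ≤ vexp J i := by
    rcases Nat.eq_zero_or_pos i with h0 | h0
    · simp [h0, vexp]
    · obtain ⟨-, h2, -⟩ := vexp_facts hS1 (i := i - 1) (by omega)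
      rw [Nat.sub_add_cancel h0] at h2
      exact h2
  have hVeq : vexp J i = i + cc := by
    rcases Nat.eq_zero_or_pos i with h0 | h0
    · simp [h0, vexp]
    · have e1 : i - 1 < T := by omega
      have hs := pre_succ (i - 1)
      rw [Nat.sub_add_cancel h0] at hs
      have hm := pre_mono hiT.le
      simp only [vexp, Nat.pos_iff_ne_zero.1 h0, if_false, remExp, ← hTdef, if_pos hiT, if_pos e1]
      omega
  have hV'S : vexp J (i + 1) ≤ S := by omega
  have hU : UU J (2 - x) ((2 : ℝ) ^ remExp J i) ≤ 0.048 * scale J / (2 : ℝ) ^ pre i := by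
    have e : (2 : ℝ) ^ remExp J i * (2 : ℝ) ^ pre i ≤ 2 * J := by
      rw [← pow_add, hremS]; exact_mod_cast hSJ
    rw [le_div_iff₀ (by positivity)]
    unfold UU top
    calc (2 - x) / 1000 * ((2 : ℝ) ^ remExp J i * (12 * scale J / J)) * (2 : ℝ) ^ pre i
        = (2 - x) / 1000 * (12 * scale J / J) * ((2 : ℝ) ^ remExp J i * (2 : ℝ) ^ pre i) := by
          ring
      _ ≤ 2 / 1000 * (12 * scale J / J) * (2 * J) := by
          gcongr
          linarith
      _ = 0.048 * scale J := by field_simp; ring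
  have hone : (1 : ℝ) ≤ 0.008 * scale J / (2 : ℝ) ^ pre i := by
    rw [le_div_iff₀ (by positivity), one_mul]
    have h1 : (2 : ℝ) ^ pre i ≤ 2 * J := by
      refine le_trans (pow_le_pow_right₀ (by norm_num) (by omega : pre i ≤ S)) ?_
      exact_mod_cast hSJ
    have h2 : low J ≤ scale J := div_le_self hn.le (one_le_pow₀ (by norm_num))
    have h4 : (20 : ℝ) ≤ J := by exact_mod_cast hJ20
    have h5 : 400 * (J : ℝ) ≤ (J : ℝ) ^ 3 := by
      nlinarith [mul_le_mul h4 h4 (by norm_num : (0 : ℝ) ≤ 20) hJ0.le]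
    linarith
  have hG : 4 * UU J (2 - x) ((2 : ℝ) ^ remExp J i) + 1 ≤
      0.2 * scale J / (2 : ℝ) ^ pre i := by
    rw [mul_div_assoc] at hU hone ⊢
    linarith
  have hGi : 4 * UU J (2 - x) ((2 : ℝ) ^ remExp J i) + 1 ≤ 0.2 * scale J * x := by
    refine hG.trans ?_
    rw [div_le_iff₀ (by positivity)]
    calc 0.2 * scale J = 0.2 * scale J * (x * (2 : ℝ) ^ i) := by rw [hxi, mul_one]
      _ ≤ 0.2 * scale J * (x * (2 : ℝ) ^ pre i) := by
          gcongr
          · norm_num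
          · exact le_trans (Nat.le_add_left _ _) (le_pre i).2.1
      _ = _ := by ring
  have hlogV : Real.log ((2 ^ vexp J (i + 1) : ℕ) : ℝ) ≤ 3 * J := by
    push_cast
    rw [Real.log_pow]
    have h1 : (vexp J (i + 1) : ℝ) ≤ J := by
      have : vexp J (i + 1) ≤ J := le_trans hV'S (Nat.clog_le_of_le_pow Nat.lt_two_pow_self.le)
      exact_mod_cast this
    nlinarith [Real.log_two_lt_d9, Real.log_two_gt_d9]
  have htop : 4 * scale J + 0.4 * scale J * (x / 2) + d * (3 * J) +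
      Real.log ((2 ^ vexp J (i + 1) : ℕ) : ℝ) +
      (4 * UU J (2 - x) ((2 : ℝ) ^ remExp J i) + 1) ≤
      4 * scale J + 0.4 * scale J * x + ((d + 1 : ℕ) : ℝ) * (3 * J) := by
    rw [Nat.cast_succ]
    linarith
  have hdn : ((d + 1 : ℕ) : ℝ) * (3 * J) ≤ scale J := by
    have h1 : ((d + 1 : ℕ) : ℝ) ≤ J := by
      have : d + 1 ≤ J := le_trans (le_trans hd (by omega : T ≤ S))
        (Nat.clog_le_of_le_pow Nat.lt_two_pow_self.le)
      exact_mod_cast this
    have h2 : low J ≤ scale J := div_le_self hn.le (one_le_pow₀ (by norm_num))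
    have h3 : (20 : ℝ) ≤ J := by exact_mod_cast hJ20
    calc ((d + 1 : ℕ) : ℝ) * (3 * J) ≤ J * (3 * J) := by gcongr
      _ ≤ 100 * (J : ℝ) ^ 3 := by
          have := mul_le_mul_of_nonneg_left h3 (mul_nonneg hJ0.le hJ0.le)
          nlinarith
      _ ≤ _ := hbig.trans h2
  have hstep := level_step (V := 2 ^ vexp J i) (θ := 2 - x) (ρ := (2 : ℝ) ^ remExp J i)
    (δ := x / 16) (a := (3 : ℝ) ^ (d + 1) * low J) h hJ20 hbig (by linarith) (by linarith)
    (by rw [hxs]; nlinarith) (by positivity) (by linarith) hρeq (one_le_pow₀ (by norm_num))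
    (by positivity) Nat.one_le_two_pow
    (le_trans (Nat.pow_le_pow_right (by norm_num) hV'S) hSJ)
    Nat.one_le_two_pow
    (Nat.pow_le_pow_right (by norm_num) (by
      rw [hVeq]
      have : i ≤ S := by omega
      have : 2 * S ≤ J := by
        have h1 : 2 ^ (S - 1) < J := by
          have := Nat.pow_pred_clog_lt_self (by norm_num : 1 < 2) (by omega : 1 < J)
          exact this
        have h3 : ∀ m, 6 ≤ m → 2 * (m + 1) ≤ 2 ^ m := fun m hm =>
          Nat.le_induction (by norm_num) (fun n _ ih => by rw [pow_succ]; omega) m hm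
        have h2 := h3 (S - 1) (by simp only [cc] at hS1; omega)
        omega
      simp only [cc] at hS1 ⊢
      omega))
    ?_ ?_ ?_ (le_mul_of_one_le_left (low_pos J).le (one_le_pow₀ (by norm_num)))
    (by rw [pow_succ]; ring) ?_
  · refine (Level.mono hstep ?_ ?_).cast_k ?_
    · rw [hxs]
      have hVV : ((2 ^ vexp J i : ℕ) : ℝ) * ((2 ^ vexp J (i + 1) : ℕ) : ℝ) *
          (4 * UU J (2 - x) ((2 : ℝ) ^ remExp J i) + 1) ≤ Kb * scale J * x := by
        refine (mul_le_mul_of_nonneg_left hG (by positivity)).trans ?_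
        push_cast
        rw [← pow_add, mul_div_assoc', div_le_iff₀ (by positivity)]
        have hexp : vexp J i + vexp J (i + 1) + i ≤ 3 * cc + 10 + pre i := by
          rw [hVeq]
          obtain ⟨-, -, h3⟩ := le_pre i
          rcases Nat.eq_zero_or_pos i with h0 | h0
          · subst h0; omega
          · have : cc ≤ i * cc := Nat.le_mul_of_pos_left _ h0
            nlinarith [sq_nonneg ((i : ℤ) - 3), sq_nonneg ((i : ℤ) - 4)]
        have hpw : (2 : ℝ) ^ (vexp J i + vexp J (i + 1)) * (2 : ℝ) ^ i ≤ Kb * (2 : ℝ) ^ pre i := by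
          rw [hKb, ← pow_add, ← pow_add]
          exact pow_le_pow_right₀ (by norm_num) hexp
        calc (2 : ℝ) ^ (vexp J i + vexp J (i + 1)) * (0.2 * scale J)
            = 0.2 * (scale J * x) * ((2 : ℝ) ^ (vexp J i + vexp J (i + 1)) * (2 : ℝ) ^ i) := by
              linear_combination -(0.2 * scale J * (2 : ℝ) ^ (vexp J i + vexp J (i + 1))) * hxi
          _ ≤ 1 * (scale J * x) * (Kb * (2 : ℝ) ^ pre i) := by gcongr; norm_num
          _ = _ := by ring
      linarith
    · rw [hxs]; exact htop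
    · rw [← mul_assoc, mul_comm (2 ^ _) 2, mul_assoc, ← pow_add, hv1]
  · calc (10 : ℝ) ^ 7 ≤ 2 ^ (cc + 1) / 16 := by norm_num [cc]
      _ = x / 16 * (2 : ℝ) ^ (i + 1 + cc) := by
          rw [show i + 1 + cc = cc + 1 + i by ring, pow_add]
          linear_combination -((2 : ℝ) ^ (cc + 1) / 16) * hxi
      _ ≤ _ := by gcongr
  · have h1 : (2 : ℝ) ^ i * (16 * 10 ^ 7) ≤ J := by
      have h : 2 ^ i * (16 * 10 ^ 7) ≤ J := by
        have : 2 ^ (i + 1) ≤ 2 ^ T := Nat.pow_le_pow_right (by norm_num) hiT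
        rw [pow_succ] at this
        calc 2 ^ i * (16 * 10 ^ 7) = 2 ^ i * 2 * (8 * 10 ^ 7) := by ring
          _ ≤ 2 ^ T * (8 * 10 ^ 7) := Nat.mul_le_mul_right _ this
          _ ≤ J := hδJnat
      exact_mod_cast h
    calc (10 : ℝ) ^ 7 = x / 16 * ((2 : ℝ) ^ i * (16 * 10 ^ 7)) := by
          linear_combination -(10 : ℝ) ^ 7 * hxi
      _ ≤ _ := by gcongr
  · push_cast
    rw [hVeq, pow_add]
    calc (10 : ℝ) ^ 7 ≤ ((2 : ℝ) ^ cc - 1) / 16 := by norm_num [cc]
      _ = x * (2 : ℝ) ^ i * (2 : ℝ) ^ cc / 16 - 1 / 16 := by rw [hxi]; ring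
      _ ≤ x * (2 : ℝ) ^ i * (2 : ℝ) ^ cc / 16 - x / 16 := by linarith
      _ = _ := by ring
  · rw [hxs]
    have := mul_le_mul_of_nonneg_left hx1 (show 0 ≤ 0.4 * scale J by positivity)
    have : top J = 12 * scale J := rfl
    linarith

theorem tree_exists : ∃ K J0 : ℕ, ∀ J, J0 ≤ J →
    Level J (2 ^ cc) 1 ((2 : ℝ) ^ sexp J) ((3 : ℝ) ^ depth J * low J) (K * scale J) (5 * scale J)
      (2 * 2 ^ sexp J) ∧
    J ≤ 2 ^ sexp J ∧ 2 ^ sexp J ≤ 2 * J ∧ (3 : ℝ) ^ depth J ≤ 2 * J := by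
  obtain ⟨JL, hleaf⟩ := leaf_exists
  obtain ⟨JG, hgrow⟩ := grow 100 3
  refine ⟨2 ^ (3 * cc + 12), max (max JL JG) (2 ^ 60), fun J hJJ => ?_⟩
  have hJbig : 2 ^ 60 ≤ J := le_of_max_le_right hJJ
  have hJ20 : 20 ≤ J := le_trans (by norm_num) hJbig
  have hbig : 100 * (J : ℝ) ^ 3 ≤ low J :=
    (hgrow J (le_of_max_le_right (le_of_max_le_left hJJ))).trans (low_ge J)
  set S := sexp J with hSdef
  have hJS : J ≤ 2 ^ S := Nat.le_pow_clog (by norm_num) J
  have hS1 : 1 + cc ≤ S := by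
    have : 2 ^ (1 + cc) ≤ 2 ^ S := le_trans (le_trans (by norm_num [cc]) hJbig) hJS
    exact (Nat.pow_le_pow_iff_right (by norm_num)).1 this
  have hSJ : 2 ^ S ≤ 2 * J := by
    have h := Nat.pow_pred_clog_lt_self (by norm_num : 1 < 2) (by omega : 1 < J)
    have e : 2 ^ S = 2 * 2 ^ (S - 1) := by rw [← pow_succ']; congr 1; omega
    rw [Nat.pred_eq_sub_one, ← sexp, ← hSdef] at h
    omega
  obtain ⟨hT1, hT2, hT3⟩ := depth_facts hS1
  set T := depth J with hTdef
  have hTS : T * cc + T ≤ S := (le_pre T).2.1.trans hT2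
  have h2T : 2 ^ (2 * T) ≤ 2 * J :=
    le_trans (Nat.pow_le_pow_right (by norm_num) (by simp only [cc] at hTS ⊢; omega)) hSJ
  have h3T : (3 : ℝ) ^ T ≤ 2 * J := by
    have h : 3 ^ T ≤ 2 * J := le_trans (Nat.pow_le_pow_left (by norm_num : 3 ≤ 2 ^ 2) T)
      (by rw [← pow_mul]; exact h2T)
    exact_mod_cast h
  have hδJnat : 2 ^ T * (8 * 10 ^ 7) ≤ J := by
    by_contra h
    rw [not_le] at h
    have h' : J * J < (2 ^ T * (8 * 10 ^ 7)) * (2 ^ T * (8 * 10 ^ 7)) := Nat.mul_self_lt_mul_self h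
    have e : (2 ^ T * (8 * 10 ^ 7)) * (2 ^ T * (8 * 10 ^ 7)) =
        2 ^ (2 * T) * ((8 * 10 ^ 7) * (8 * 10 ^ 7)) := by rw [two_mul, pow_add]; ring
    rw [e] at h'
    have h'' := lt_of_lt_of_le h' (Nat.mul_le_mul_right _ h2T)
    have : J * (2 * ((8 * 10 ^ 7) * (8 * 10 ^ 7))) ≤ J * J :=
      Nat.mul_le_mul_left _ (le_trans (by norm_num) hJbig)
    nlinarith
  obtain ⟨Z, M, L, hM, hL, hMb, hLb, hY, hrep, hP, hI, hP0⟩ :=
    hleaf J (le_of_max_le_left (le_of_max_le_left hJJ))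
  have hJ0 : (0 : ℝ) < J := by exact_mod_cast (by omega : 0 < J)
  have hn := scale_pos J
  set Kb : ℝ := (2 : ℝ) ^ (3 * cc + 10) with hKb
  have main : ∀ d, d ≤ T → Level J (2 ^ vexp J (T - d)) (2 - (1 / 2) ^ (T - d))
      ((2 : ℝ) ^ remExp J (T - d)) ((3 : ℝ) ^ d * low J)
      (10 * scale J + Kb * scale J * 2 * (1 / 2) ^ (T - d))
      (4 * scale J + 0.4 * scale J * (1 / 2) ^ (T - d) + d * (3 * J)) (2 * 2 ^ remExp J (T - d)) := by
    intro d
    induction d with
    | zero =>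
      intro _
      have hr : remExp J T = 0 := by simp [remExp, ← hTdef]
      rw [Nat.sub_zero, hr]
      simp only [pow_zero, mul_one, one_mul, Nat.cast_zero, zero_mul, add_zero]
      have hθ : (2 : ℝ) - (1 / 2) ^ T ≤ 2 := by
        have : (0 : ℝ) ≤ (1 / 2) ^ T := by positivity
        linarith
      have hθ1 : (0 : ℝ) ≤ 2 - (1 / 2) ^ T := by
        have : ((1 : ℝ) / 2) ^ T ≤ 1 := pow_le_one₀ (by norm_num) (by norm_num)
        linarith
      have hee : ∀ s, low J ≤ s → s ≤ top J →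
          ee J (2 - (1 / 2) ^ T) 1 s ≤ phi J s / 500 := by
        intro s h1 h2
        obtain ⟨hp1, hp2⟩ := phi_le_self hJ20 (by linarith : low J - 1 ≤ s) hbig h2
        have hphi : 0 ≤ phi J s :=
          le_trans (div_nonneg (by linarith [low_pos J]) hJ0.le) hp2
        unfold ee
        rw [one_mul, min_eq_right hp1]
        calc (2 - (1 / 2) ^ T) / 1000 * phi J s ≤ 2 / 1000 * phi J s := by gcongr
          _ = _ := by ring
      refine ⟨fun _ => Z, M, L, hM, hL, hMb.trans ?_, hLb.trans ?_, fun _ => hY, fun _ => hrep,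
        fun q hq h1 h2 => ?_, fun _ s h1 h2 => (hI s h1 h2).trans
          (exp_le_exp.2 (neg_le_neg (hee s h1 h2))),
        fun _ => hP0.trans (exp_le_exp.2 (neg_le_neg ?_))⟩
      · exact le_add_of_nonneg_right (by positivity)
      · exact le_add_of_nonneg_right (by positivity)
      · rw [prod_const, card_univ, Fintype.card_fin, ← mul_neg, exp_nat_mul]
        exact pow_le_pow_left₀ (Z.P_nonneg q)
          ((hP q hq h1 h2).trans (exp_le_exp.2 (neg_le_neg (hee _ h1 h2)))) _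
      · calc 2 * UU J (2 - (1 / 2) ^ T) 1 ≤ 2 * (2 / 1000 * (1 * (top J / J))) := by
              unfold UU
              have := top_pos J
              gcongr
          _ ≤ scale J / (2 * J) := by
              unfold top
              field_simp
              norm_num
    | succ d ih =>
      intro hd
      have h := ih (by omega)
      rw [show T - d = T - (d + 1) + 1 by omega] at h
      exact tree_step hJbig hbig hS1 hSJ hδJnat hd (by omega) h
  refine ⟨?_, hJS, hSJ, h3T⟩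
  have h := main T le_rfl
  rw [Nat.sub_self, remExp_zero hS1] at h
  have e1 : vexp J 0 = cc := by simp [vexp]
  rw [e1, pow_zero] at h
  norm_num only at h
  refine Level.mono (by convert h using 1) ?_ ?_
  · push_cast
    rw [hKb]
    have : (2 : ℝ) ^ (3 * cc + 12) = 4 * (2 : ℝ) ^ (3 * cc + 10) := by
      rw [pow_add, pow_add]; ring
    have := pow_le_pow_right₀ (show (1 : ℝ) ≤ 2 by norm_num) (show 3 ≤ 3 * cc + 10 by omega)
    nlinarith
  · have h1 : (T : ℝ) * (3 * J) ≤ 0.6 * scale J := by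
      have hT : (T : ℝ) ≤ J := by
        have : T ≤ J := le_trans (by omega : T ≤ S) (Nat.clog_le_of_le_pow Nat.lt_two_pow_self.le)
        exact_mod_cast this
      have h2 : low J ≤ scale J := div_le_self hn.le (one_le_pow₀ (by norm_num))
      have h3 : (20 : ℝ) ≤ J := by exact_mod_cast hJ20
      calc (T : ℝ) * (3 * J) ≤ J * (3 * J) := by gcongr
        _ ≤ 0.6 * (100 * (J : ℝ) ^ 3) := by
            have := mul_le_mul_of_nonneg_left h3 (mul_nonneg hJ0.le hJ0.le)
            nlinarith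
        _ ≤ _ := by linarith
    linarith

end Vale.Agent.P012
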